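import Vale.Agent.helper7.Eg.Defs

open Finset

namespace Vale.Agent.helper7.Eg

theorem conv2 (C₀ : ℕ) (H : ∀ q : ℕ, 8 ≤ q → ∀ b a : ℕ, 1 ≤ a → a < b →
      b ≤ 2 ^ (2 ^ (2 ^ q - 4)) → Rep ((a : ℚ) / b) (C₀ * 2 ^ q)) :
    ∃ C : ℝ, ∃ b₀ : ℕ, ∀ b : ℕ, b₀ ≤ b → ∀ a : ℕ, 1 ≤ a → a < b →
      ∃ F : Finset ℕ, (∀ n ∈ F, 2 ≤ n) ∧ ∑ n ∈ F, (1 : ℚ) / (n : ℚ) = (a : ℚ) / (b : ℚ) ∧
        (F.card : ℝ) ≤ C * Real.log (Real.log (b : ℝ)) := by
  refine ⟨8 * C₀, ⌈Real.exp (Real.exp 70)⌉₊, ?_⟩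
  intro b hb a ha hab
  have hbR : Real.exp (Real.exp 70) ≤ (b : ℝ) := (Nat.le_ceil _).trans (by exact_mod_cast hb)
  have hbpos : (0 : ℝ) < b := lt_of_lt_of_le (Real.exp_pos _) hbR
  have hlogb : Real.exp 70 ≤ Real.log b := by
    rw [Real.le_log_iff_exp_le hbpos]
    exact hbR
  have hlogbpos : 0 < Real.log b := lt_of_lt_of_le (Real.exp_pos _) hlogb
  obtain ⟨L, hL⟩ : ∃ L, L = Real.log (Real.log b) := ⟨_, rfl⟩
  have hL70 : 70 ≤ L := by
    rw [hL, Real.le_log_iff_exp_le hlogbpos]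
    exact hlogb
  have hexpL : Real.exp L = Real.log b := by rw [hL, Real.exp_log hlogbpos]
  have hlog2a : (0.69 : ℝ) < Real.log 2 := by
    have := Real.log_two_gt_d9
    linarith
  have hlog2b : Real.log 2 < 0.7 := by
    have := Real.log_two_lt_d9
    linarith
  -- the choice of `q`
  obtain ⟨n, hn⟩ : ∃ n : ℕ, n = ⌈2 * L + 4⌉₊ := ⟨_, rfl⟩
  have hn1 : 2 * L + 4 ≤ n := by
    rw [hn]
    exact Nat.le_ceil _
  have hn2 : (n : ℝ) < 2 * L + 5 := by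
    rw [hn]
    have := Nat.ceil_lt_add_one (show (0 : ℝ) ≤ 2 * L + 4 by linarith)
    linarith
  have hn3 : 1 < n := by
    have : (1 : ℝ) < n := by linarith
    exact_mod_cast this
  obtain ⟨q, hq⟩ : ∃ q, q = Nat.clog 2 n := ⟨_, rfl⟩
  have hq1 : n ≤ 2 ^ q := by
    rw [hq]
    exact Nat.le_pow_clog (by norm_num) n
  have hq2 : 2 ^ (q - 1) < n := by
    rw [hq]
    exact Nat.pow_pred_clog_lt_self (by norm_num) hn3
  have hq1R : (n : ℝ) ≤ 2 ^ q := by exact_mod_cast hq1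
  have hq2R : (2 : ℝ) ^ (q - 1) < n := by exact_mod_cast hq2
  have hq8 : 8 ≤ q := by
    by_contra hlt
    have hle : q ≤ 7 := by omega
    have h1 : (2 : ℝ) ^ q ≤ 2 ^ 7 := pow_le_pow_right₀ (by norm_num) hle
    norm_num at h1
    linarith
  have hqpow : (2 : ℝ) ^ q = 2 * 2 ^ (q - 1) := by
    rw [← pow_succ']
    congr 1
    omega
  have h2qu : (2 : ℝ) ^ q ≤ 8 * L := by
    rw [hqpow]
    linarith
  -- the range of `b`
  have hpow4 : 4 ≤ 2 ^ q := by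
    calc 4 = 2 ^ 2 := by norm_num
      _ ≤ 2 ^ q := Nat.pow_le_pow_right (by norm_num) (by omega)
  obtain ⟨M, hM⟩ : ∃ M, M = 2 ^ q - 4 := ⟨_, rfl⟩
  have hMR : (M : ℝ) + 4 = 2 ^ q := by
    have : M + 4 = 2 ^ q := by omega
    exact_mod_cast this
  have hM2L : 2 * L ≤ M := by linarith
  have hbound : (b : ℝ) ≤ 2 ^ (2 ^ M) := by
    have h1 : Real.exp (2 * L * Real.log 2) ≤ (2 : ℝ) ^ M := by
      have h2 : (2 : ℝ) ^ M = Real.exp (Real.log 2 * M) := by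
        rw [← Real.rpow_natCast, Real.rpow_def_of_pos (by norm_num)]
      rw [h2]
      apply Real.exp_le_exp.mpr
      have : 0 < Real.log 2 := by linarith
      nlinarith
    have h3 : Real.exp (L + 1) ≤ Real.exp (2 * L * Real.log 2) := by
      apply Real.exp_le_exp.mpr
      nlinarith
    have h4 : Real.log b ≤ 2 ^ M * Real.log 2 := by
      rw [← hexpL]
      have h5 : Real.exp (L + 1) = Real.exp L * Real.exp 1 := Real.exp_add _ _
      have h6 : (2 : ℝ) ≤ Real.exp 1 := by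
        have := Real.add_one_le_exp (1 : ℝ)
        linarith
      have h7 : 0 < Real.exp L := Real.exp_pos _
      have h8 : (2 : ℝ) * Real.exp L ≤ 2 ^ M := by
        calc (2 : ℝ) * Real.exp L ≤ Real.exp L * Real.exp 1 := by nlinarith
          _ = Real.exp (L + 1) := h5.symm
          _ ≤ Real.exp (2 * L * Real.log 2) := h3
          _ ≤ 2 ^ M := h1
      nlinarith
    calc (b : ℝ) = Real.exp (Real.log b) := (Real.exp_log hbpos).symm
      _ ≤ Real.exp (2 ^ M * Real.log 2) := Real.exp_le_exp.mpr h4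
      _ = (2 : ℝ) ^ (2 ^ M) := by
          have h9 : (2 : ℝ) ^ (2 ^ M : ℕ) = Real.exp (Real.log 2 * ((2 ^ M : ℕ) : ℝ)) := by
            rw [← Real.rpow_natCast, Real.rpow_def_of_pos (by norm_num)]
          rw [h9]
          push_cast
          rw [mul_comm]
  have hboundN : b ≤ 2 ^ (2 ^ (2 ^ q - 4)) := by
    rw [← hM]
    exact_mod_cast hbound
  obtain ⟨F, hF1, hF2, hF3⟩ := H q hq8 b a ha hab hboundN
  have hbQ : (0 : ℚ) < b := by exact_mod_cast (show 0 < b by omega)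
  have habQ : (a : ℚ) / b < 1 := by
    rw [div_lt_one hbQ]
    exact_mod_cast hab
  refine ⟨F, ?_, hF2, ?_⟩
  · intro m hm
    have hm1 := hF1 m hm
    by_contra hm2
    have hm3 : m = 1 := by omega
    subst hm3
    have h1 : (1 : ℚ) / ((1 : ℕ) : ℚ) ≤ ∑ n ∈ F, (1 : ℚ) / (n : ℚ) :=
      Finset.single_le_sum (f := fun m : ℕ => (1 : ℚ) / m) (fun i _ => by positivity) hm
    rw [hF2] at h1
    norm_num at h1
    linarith
  · rw [← hL]
    have hcard : ((F.card : ℕ) : ℝ) ≤ (C₀ : ℝ) * 2 ^ q := by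
      exact_mod_cast hF3
    have hC0 : (0 : ℝ) ≤ C₀ := by positivity
    calc (F.card : ℝ) ≤ (C₀ : ℝ) * 2 ^ q := hcard
      _ ≤ (C₀ : ℝ) * (8 * L) := mul_le_mul_of_nonneg_left h2qu hC0
      _ = 8 * (C₀ : ℝ) * L := by ring

end Vale.Agent.helper7.Eg
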