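import Vale.Agent.helper7.Eg.Select

open Finset

namespace Vale.Agent.helper7.Eg

open Vale.Agent.Egypt

noncomputable section

lemma sixteen_le_four_pow (v : ℕ) (hv : 3 ≤ v) : 16 * v ≤ 4 ^ v := by
  induction v, hv using Nat.le_induction with
  | base => norm_num
  | succ n _ ih =>
    rw [pow_succ]
    omega

lemma pool_large (v : ℕ) (hv : 3 ≤ v) : 16 ^ v ≤ 8 * v * (cand v ∅).card := by
  have h1 := cand_bound v (by omega) ∅
  rw [card_empty] at h1
  have h2 := sixteen_le_four_pow v hv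
  set A := 4 ^ v with hA
  have h3 : (16 : ℕ) ^ v = A ^ 2 := by
    rw [hA, ← pow_mul, mul_comm, pow_mul]
    norm_num
  rw [h3] at h1 ⊢
  set c := (cand v ∅).card with hc
  have h4 : 64 ≤ A := by
    calc 64 = 4 ^ 3 := by norm_num
      _ ≤ A := Nat.pow_le_pow_right (by norm_num) hv
  have h5 : 4 * v * (c + A + 1 + 0) + 4 * v + 1 = 4 * v * c + 4 * v * A + 8 * v + 1 := by ring
  rw [h5] at h1
  have h6 : 16 * v * A ≤ A ^ 2 := by nlinarith
  have h7 : 8 * v * 64 ≤ 8 * v * A := Nat.mul_le_mul_left _ h4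
  nlinarith

lemma cand_prime_lt (v : ℕ) (hv : 1 ≤ v) (p : ℕ) (hp : p ∈ cand v ∅) :
    p.Prime ∧ 4 ^ v < p ∧ p < 16 ^ v := by
  have h1 := mem_sdiff.mp hp
  have h2 := mem_filter.mp h1.1
  have h3 := mem_Ioc.mp h2.1
  refine ⟨h2.2, h3.1, lt_of_le_of_ne h3.2 ?_⟩
  intro h4
  have h5 : 2 ∣ p := by
    rw [h4]
    exact dvd_pow (by norm_num) (by omega)
  have h6 := (Nat.prime_dvd_prime_iff_eq Nat.prime_two h2.2).mp h5
  have h7 : 4 ≤ 4 ^ v := by
    calc 4 = 4 ^ 1 := by norm_num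
      _ ≤ 4 ^ v := Nat.pow_le_pow_right (by norm_num) hv
  omega

/-- The numeric heart: the power of the count is below the modulus. -/
lemma numeric_k (v₁ k u : ℕ) (hv₁ : 1 ≤ v₁) (hk : 1 ≤ k) (hu1 : (4 * (32 * v₁)) ^ 8 ≤ u)
    (hlo : (2 ^ (32 * v₁)) ^ (k - 1) < u) (hK : 2 * k * (32 * v₁) ≤ 2 ^ v₁) :
    (2 * (2 * k * (32 * v₁)) ^ k) ^ 8 ≤ u := by
  rcases Nat.lt_or_ge k 2 with hk2 | hk2
  · have : k = 1 := by omega
    subst this
    have h : 2 * (2 * 1 * (32 * v₁)) ^ 1 = 4 * (32 * v₁) := by ring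
    rw [h]
    exact hu1
  · refine le_trans ?_ hlo.le
    have h1 : (2 * k * (32 * v₁)) ^ k ≤ (2 ^ v₁) ^ k := Nat.pow_le_pow_left hK k
    have h2 : 2 * (2 * k * (32 * v₁)) ^ k ≤ 2 * (2 ^ v₁) ^ k := Nat.mul_le_mul_left _ h1
    have h3 : (2 * (2 * k * (32 * v₁)) ^ k) ^ 8 ≤ (2 * (2 ^ v₁) ^ k) ^ 8 := Nat.pow_le_pow_left h2 8
    refine h3.trans ?_
    have h4 : (2 * (2 ^ v₁) ^ k) ^ 8 = 2 ^ (8 + 8 * (v₁ * k)) := by
      rw [← pow_mul, ← pow_succ', ← pow_mul]
      congr 1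
      ring
    have h5 : ((2 : ℕ) ^ (32 * v₁)) ^ (k - 1) = 2 ^ (32 * v₁ * (k - 1)) := by
      rw [← pow_mul]
    rw [h4, h5]
    apply Nat.pow_le_pow_right (by norm_num)
    obtain ⟨m, rfl⟩ : ∃ m, k = m + 2 := ⟨k - 2, by omega⟩
    have h6 : m + 2 - 1 = m + 1 := by omega
    rw [h6]
    nlinarith [Nat.mul_le_mul_left v₁ (Nat.zero_le m), Nat.zero_le (v₁ * m)]

/-- The averaged collision bound for a fixed modulus. -/
theorem havg (s g v₁ u Cap : ℕ) (hv₁ : 1 ≤ v₁) (hg : 0 < g)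
    (hu1 : (4 * (32 * v₁)) ^ 8 ≤ u) (huCap : u ≤ 2 ^ Cap) (hG : 2 * u ≤ g ^ s)
    (hsmall : 2 * s * g * (Cap + 1) ≤ (cand (8 * v₁) ∅).card)
    (hv : 2 * (Cap + 1) * (32 * v₁) ≤ 2 ^ v₁) :
    ∑ r ∈ Fintype.piFinset (fun _ : Idx s g => cand (8 * v₁) ∅),
        (if Good u r then (Coll u r : ℝ) else 0) ≤
      ((Fintype.piFinset (fun _ : Idx s g => cand (8 * v₁) ∅)).card : ℝ) *
        (2 * ((g : ℝ) ^ s) ^ 2 / th u ^ 7) := by
  classical
  set Pool := cand (8 * v₁) ∅ with hPooldef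
  set W := 2 ^ (32 * v₁) with hW
  have hW16 : (16 : ℕ) ^ (8 * v₁) = W := by
    rw [hW, show 32 * v₁ = 4 * (8 * v₁) by ring, pow_mul 2 4]
    norm_num
  have hW1 : 1 < W := by
    rw [hW]
    exact Nat.one_lt_two_pow (by omega)
  have hu2 : 1 < u := by
    have h1 : 1 < (4 * (32 * v₁)) := by omega
    have h2 : 1 < (4 * (32 * v₁)) ^ 8 := Nat.one_lt_pow (by norm_num) h1
    omega
  have hupos : 0 < u := by omega
  have huR : (0 : ℝ) < u := by exact_mod_cast hupos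
  set k := Nat.clog W u with hk
  have hkpos : 0 < k := Nat.clog_pos hW1 hu2
  have hupper : u ≤ W ^ k := Nat.le_pow_clog hW1 u
  have hlower : W ^ (k - 1) < u := by
    have := Nat.pow_pred_clog_lt_self hW1 hu2
    simpa [Nat.pred_eq_sub_one] using this
  have hkCap : k ≤ Cap + 1 := by
    have h1 : 2 ^ (k - 1) ≤ W ^ (k - 1) := Nat.pow_le_pow_left (by omega) _
    have h2 : 2 ^ (k - 1) < 2 ^ Cap := (h1.trans_lt hlower).trans_le huCap
    have h3 := (Nat.pow_lt_pow_iff_right (by norm_num : 1 < 2)).mp h2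
    omega
  have hPoolLarge := pool_large (8 * v₁) (by omega)
  rw [hW16] at hPoolLarge
  have hPoolPos : 0 < Pool.card := by
    by_contra h0
    have h1 : Pool.card = 0 := by omega
    rw [h1] at hPoolLarge
    omega
  have hPoolne : Pool.Nonempty := card_pos.mp hPoolPos
  have hPR : (0 : ℝ) < Pool.card := by exact_mod_cast hPoolPos
  have hP : ∀ p ∈ Pool, p.Prime ∧ p < W := by
    intro p hp
    obtain ⟨h1, _, h3⟩ := cand_prime_lt _ (by omega) p hp
    exact ⟨h1, hW16 ▸ h3⟩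
  have hki : ∀ i < k, W ^ i < u := by
    intro i hi
    exact (Nat.pow_le_pow_right (by omega) (by omega)).trans_lt hlower
  have hsm : 2 * (s : ℝ) * ((g : ℝ) * ((k : ℝ) / Pool.card)) ≤ 1 := by
    have h1 : 2 * s * g * k ≤ Pool.card :=
      (Nat.mul_le_mul_left _ hkCap).trans hsmall
    have h2 : 2 * (s : ℝ) * ((g : ℝ) * ((k : ℝ) / Pool.card)) = ((2 * s * g * k : ℕ) : ℝ) / Pool.card := by
      push_cast
      ring
    rw [h2, div_le_one hPR]
    exact_mod_cast h1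
  have hmain := avg_coll hg Pool W u k hupos hP hPoolne hki hsm
  have hcard : ((Fintype.piFinset (fun _ : Idx s g => Pool)).card : ℝ) = (Pool.card : ℝ) ^ (s * g) := by
    rw [Fintype.card_piFinset]
    simp [Fintype.card_prod]
  rw [hcard]
  refine hmain.trans ?_
  apply mul_le_mul_of_nonneg_left _ (by positivity)
  -- the arithmetic of the constants
  set G : ℝ := (g : ℝ) ^ s with hGdef
  have hGR : 2 * (u : ℝ) ≤ G := by
    rw [hGdef]
    exact_mod_cast hG
  have hθ : 0 < th u := th_pos hupos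
  have hθ8 : th u ^ 8 = u := th_pow u
  have hθ1 : 1 ≤ th u := by
    have h1 : (1 : ℝ) ^ 8 ≤ u := by
      have : (1 : ℝ) ≤ u := by exact_mod_cast hupos
      simpa using this
    exact le_th hupos 1 (by norm_num) h1
  have h7le : th u ^ 7 ≤ u := by
    rw [← hθ8]
    exact pow_le_pow_right₀ hθ1 (by norm_num)
  have hGpos : 0 < G := by
    have : (0 : ℝ) < u := huR
    linarith
  set C : ℝ := ((k : ℝ) / Pool.card) ^ k * (((W ^ k / u : ℕ) : ℝ) + 1) with hC
  -- the estimate of `C`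
  have hCle : C * th u ^ 7 ≤ 1 := by
    have h1 : ((W ^ k / u : ℕ) : ℝ) ≤ (W : ℝ) ^ k / u := by
      have := @Nat.cast_div_le ℝ _ _ _ (W ^ k) u
      simpa using this
    have h2 : (1 : ℝ) ≤ (W : ℝ) ^ k / u := by
      rw [le_div_iff₀ huR, one_mul]
      exact_mod_cast hupper
    have h3 : ((W ^ k / u : ℕ) : ℝ) + 1 ≤ 2 * ((W : ℝ) ^ k / u) := by linarith
    have hQ : ((k : ℝ) / Pool.card) * W ≤ 2 * k * (32 * v₁) := by
      rw [div_mul_eq_mul_div, div_le_iff₀ hPR]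
      have h4 : (W : ℝ) ≤ 8 * (8 * v₁) * Pool.card := by exact_mod_cast hPoolLarge
      have h5 : (0 : ℝ) ≤ k := by positivity
      nlinarith
    have hQ2 : (((k : ℝ) / Pool.card) * W) ^ k ≤ ((2 * k * (32 * v₁) : ℕ) : ℝ) ^ k := by
      apply pow_le_pow_left₀ (by positivity)
      push_cast
      exact hQ
    have hnum := numeric_k v₁ k u hv₁ hkpos hu1 (by simpa using hlower)
      ((Nat.mul_le_mul_right _ (Nat.mul_le_mul_left _ hkCap)).trans hv)
    have hθQ : 2 * ((2 * k * (32 * v₁) : ℕ) : ℝ) ^ k ≤ th u := by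
      apply le_th hupos _ (by positivity)
      exact_mod_cast hnum
    have hCbound : C ≤ th u / u := by
      calc C ≤ ((k : ℝ) / Pool.card) ^ k * (2 * ((W : ℝ) ^ k / u)) := by
            rw [hC]
            exact mul_le_mul_of_nonneg_left h3 (by positivity)
        _ = 2 * (((k : ℝ) / Pool.card) * W) ^ k / u := by
            rw [mul_pow]
            ring
        _ ≤ 2 * ((2 * k * (32 * v₁) : ℕ) : ℝ) ^ k / u := by
            apply div_le_div_of_nonneg_right _ huR.le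
            linarith
        _ ≤ th u / u := div_le_div_of_nonneg_right hθQ huR.le
    calc C * th u ^ 7 ≤ th u / u * th u ^ 7 :=
          mul_le_mul_of_nonneg_right hCbound (by positivity)
      _ = th u ^ 8 / u := by ring
      _ = 1 := by rw [hθ8]; exact div_self huR.ne'
  rw [le_div_iff₀ (by positivity)]
  have h1 : 2 * th u ^ 7 ≤ G := by linarith
  calc (2 * G + G ^ 2 * C) * th u ^ 7 = G * (2 * th u ^ 7) + G ^ 2 * (C * th u ^ 7) := by ring
    _ ≤ G * G + G ^ 2 * 1 := by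
        apply add_le_add
        · exact mul_le_mul_of_nonneg_left h1 hGpos.le
        · exact mul_le_mul_of_nonneg_left hCle (by positivity)
    _ = 2 * G ^ 2 := by ring

end

end Vale.Agent.helper7.Eg
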