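import Vale.Agent.helper7.Eg.Defs

open Finset

namespace Vale.Agent.helper7.Eg

open Vale.Agent.Egypt

/-- The lower bound for the numerator needed to run the clearing along a list of `(f, W)`. -/
def Low : List (ℕ × ℕ) → ℕ
  | [] => 0
  | (f, W) :: l => 12 * 2 ^ W + f * Low l

/-- Base case of clearing: a numerator below `H₁` over a base divisible by `H₁`. -/
lemma clearing_base (H₁ t₁ : ℕ) (hH : 0 < H₁) (hsums : Sums H₁ t₁)
    (A BB : ℕ) (hBB : 0 < BB) (hHB : H₁ ∣ BB) (hA : A < H₁) :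
    ∃ F : Finset ℕ, (∀ n ∈ F, 0 < n ∧ n ∣ BB) ∧
      ∑ n ∈ F, (1 : ℚ) / n = (A : ℚ) / (BB : ℕ) ∧ F.card ≤ t₁ := by
  classical
  obtain ⟨S, hS1, hS2, hS3⟩ := hsums A hA
  have hdpos : ∀ d ∈ S, 0 < d := fun d hd => Nat.pos_of_dvd_of_pos (hS1 d hd) hH
  have hdBB : ∀ d ∈ S, d ∣ BB := fun d hd => (hS1 d hd).trans hHB
  have hinj : ∀ x ∈ S, ∀ y ∈ S, BB / x = BB / y → x = y := by
    intro x hx y hy hxy
    have h1 : BB / x * x = BB := Nat.div_mul_cancel (hdBB x hx)
    have h2 : BB / y * y = BB := Nat.div_mul_cancel (hdBB y hy)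
    have hq : 0 < BB / y := Nat.pos_of_ne_zero (by
      intro h0
      rw [h0] at h2
      omega)
    rw [hxy] at h1
    exact Nat.eq_of_mul_eq_mul_left hq (h1.trans h2.symm)
  refine ⟨S.image (fun d => BB / d), ?_, ?_, ?_⟩
  · intro n hn
    obtain ⟨d, hd, rfl⟩ := mem_image.mp hn
    exact ⟨Nat.div_pos (Nat.le_of_dvd hBB (hdBB d hd)) (hdpos d hd), Nat.div_dvd_of_dvd (hdBB d hd)⟩
  · rw [sum_image (fun x hx y hy h => hinj x hx y hy h)]
    have hBBq : (BB : ℚ) ≠ 0 := by exact_mod_cast hBB.ne'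
    have : ∀ d ∈ S, (1 : ℚ) / ((BB / d : ℕ) : ℚ) = (d : ℚ) / BB := by
      intro d hd
      have hdq : (d : ℚ) ≠ 0 := by exact_mod_cast (hdpos d hd).ne'
      rw [Nat.cast_div (hdBB d hd) hdq]
      field_simp
    rw [sum_congr rfl this, ← sum_div]
    rw [← hS3]
    push_cast
    rfl
  · exact card_image_le.trans hS2

/-- Clearing: a numerator `A` in the right range over `BB * ∏ f` is a sum of at most `12 * len + t₁`
distinct unit fractions with denominators dividing `BB * ∏ f`. -/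
theorem clearing (D H₁ t₁ : ℕ) (hD : 0 < D) (hH : 0 < H₁) (hsums : Sums H₁ t₁) :
    ∀ (l : List (ℕ × ℕ)), (∀ s ∈ l, 1 < s.1 ∧ Cover D s.1 s.2) →
    ∀ (A BB : ℕ), 0 < BB → D ∣ BB → H₁ ∣ BB → Low l ≤ A → A < H₁ * (l.map Prod.fst).prod →
    ∃ F : Finset ℕ, (∀ n ∈ F, 0 < n ∧ n ∣ BB * (l.map Prod.fst).prod) ∧
      ∑ n ∈ F, (1 : ℚ) / n = (A : ℚ) / (BB * (l.map Prod.fst).prod : ℕ) ∧
        F.card ≤ 12 * l.length + t₁ := by
  classical
  intro l
  induction l with
  | nil =>
    intro _ A BB hBB hDB hHB _ hA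
    simp only [List.map_nil, List.prod_nil, mul_one] at hA ⊢
    obtain ⟨F, h1, h2, h3⟩ := clearing_base H₁ t₁ hH hsums A BB hBB hHB hA
    refine ⟨F, h1, h2, ?_⟩
    simpa using h3
  | cons s l ih =>
    obtain ⟨f, W⟩ := s
    intro hl A BB hBB hDB hHB hLow hA
    have hf1 : 1 < f := (hl (f, W) (by simp)).1
    have hcov : Cover D f W := (hl (f, W) (by simp)).2
    have hl' : ∀ s ∈ l, 1 < s.1 ∧ Cover D s.1 s.2 := fun s hs => hl s (by simp [hs])
    simp only [List.map_cons, List.prod_cons] at hA ⊢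
    set P := (l.map Prod.fst).prod with hP
    have hLow' : 12 * 2 ^ W + f * Low l ≤ A := hLow
    have hPpos : 0 < P := by
      rcases Nat.eq_zero_or_pos P with h0 | h0
      · rw [h0] at hA; simp at hA
      · exact h0
    have hfpos : 0 < f := by omega
    obtain ⟨T, hT1, hT2, hT3⟩ := hcov A
    set r := ∑ t ∈ T, t with hr
    have hrle : r ≤ 12 * 2 ^ W := by
      calc r ≤ ∑ _t ∈ T, 2 ^ W := sum_le_sum (fun t ht => (hT2 t ht).2.1.le)
        _ = T.card * 2 ^ W := by simp
        _ ≤ 12 * 2 ^ W := Nat.mul_le_mul_right _ hT1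
    have hrA : r ≤ A := by omega
    have hdvd : f ∣ A - r := (Nat.modEq_iff_dvd' hrA).mp hT3
    obtain ⟨A', hA'⟩ := hdvd
    have hAeq : A = r + f * A' := by omega
    have hLowA' : Low l ≤ A' := by
      have h1 : f * Low l ≤ f * A' := by omega
      exact Nat.le_of_mul_le_mul_left h1 hfpos
    have hA'lt : A' < H₁ * P := by
      have h1 : f * A' < f * (H₁ * P) := by
        calc f * A' ≤ A := by omega
          _ < H₁ * (f * P) := hA
          _ = f * (H₁ * P) := by ring
      exact Nat.lt_of_mul_lt_mul_left h1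
    obtain ⟨F', hF1, hF2, hF3⟩ := ih hl' A' BB hBB hDB hHB hLowA' hA'lt
    set N := BB * (f * P) with hN
    have hNpos : 0 < N := by positivity
    have htpos : ∀ t ∈ T, 0 < t := fun t ht => Nat.pos_of_dvd_of_pos (hT2 t ht).1 hD
    have htN : ∀ t ∈ T, t ∣ N := fun t ht =>
      ((hT2 t ht).1.trans hDB).trans (Nat.dvd_mul_right _ _)
    have hnmul : ∀ t ∈ T, N / t * t = N := fun t ht => Nat.div_mul_cancel (htN t ht)
    have hnpos : ∀ t ∈ T, 0 < N / t := fun t ht =>
      Nat.div_pos (Nat.le_of_dvd hNpos (htN t ht)) (htpos t ht)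
    have hinj : ∀ x ∈ T, ∀ y ∈ T, N / x = N / y → x = y := by
      intro x hx y hy hxy
      have h1 := hnmul x hx
      have h2 := hnmul y hy
      rw [hxy] at h1
      exact Nat.eq_of_mul_eq_mul_left (hnpos y hy) (h1.trans h2.symm)
    have hdisj : Disjoint F' (T.image (fun t => N / t)) := by
      rw [disjoint_left]
      intro n hn hn'
      obtain ⟨t, ht, rfl⟩ := mem_image.mp hn'
      obtain ⟨k, hk⟩ := (hF1 _ hn).2
      -- `BB * P = (N / t) * k`, hence `N = (N / t) * (k * f)`, so `t = k * f`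
      have h1 : N / t * t = N / t * (k * f) := by
        rw [hnmul t ht, hN]
        calc BB * (f * P) = (BB * P) * f := by ring
          _ = (N / t * k) * f := by rw [hk]
          _ = N / t * (k * f) := by ring
      have h2 : t = k * f := Nat.eq_of_mul_eq_mul_left (hnpos t ht) h1
      have h3 : f ∣ t := ⟨k, by rw [h2]; ring⟩
      have h4 : Nat.Coprime t f := (hT2 t ht).2.2
      have h5 : f = 1 := Nat.Coprime.eq_one_of_dvd h4.symm h3
      omega
    refine ⟨F' ∪ T.image (fun t => N / t), ?_, ?_, ?_⟩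
    · intro n hn
      rcases mem_union.mp hn with hn | hn
      · refine ⟨(hF1 n hn).1, (hF1 n hn).2.trans ?_⟩
        exact ⟨f, by ring⟩
      · obtain ⟨t, ht, rfl⟩ := mem_image.mp hn
        exact ⟨hnpos t ht, Nat.div_dvd_of_dvd (htN t ht)⟩
    · rw [sum_union hdisj, sum_image (fun x hx y hy h => hinj x hx y hy h), hF2]
      have hNq : (N : ℚ) ≠ 0 := by exact_mod_cast hNpos.ne'
      have hterm : ∀ t ∈ T, (1 : ℚ) / ((N / t : ℕ) : ℚ) = (t : ℚ) / N := by
        intro t ht
        have htq : (t : ℚ) ≠ 0 := by exact_mod_cast (htpos t ht).ne'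
        rw [Nat.cast_div (htN t ht) htq]
        field_simp
      rw [sum_congr rfl hterm, ← sum_div]
      have hrq : (∑ t ∈ T, (t : ℚ)) = (r : ℚ) := by
        rw [hr]; push_cast; rfl
      rw [hrq, hAeq]
      have hBBq : (BB : ℚ) ≠ 0 := by exact_mod_cast hBB.ne'
      have hfq : (f : ℚ) ≠ 0 := by exact_mod_cast hfpos.ne'
      have hPq : (P : ℚ) ≠ 0 := by exact_mod_cast hPpos.ne'
      rw [hN]
      push_cast
      field_simp
      ring
    · calc (F' ∪ T.image (fun t => N / t)).card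
          ≤ F'.card + (T.image (fun t => N / t)).card := card_union_le _ _
        _ ≤ F'.card + T.card := Nat.add_le_add_left card_image_le _
        _ ≤ (12 * l.length + t₁) + 12 := by omega
        _ = 12 * (l.length + 1) + t₁ := by ring
        _ = 12 * ((f, W) :: l).length + t₁ := by simp

end Vale.Agent.helper7.Eg
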