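import Vale.Agent.Egypt.Levels

open Finset

namespace Vale.Agent.helper7.Eg

noncomputable section

/-- Index type of a block: `s` groups of `g` primes. -/
abbrev Idx (s g : ℕ) := Fin s × Fin g

/-- The product of the chosen primes. -/
def val {s g : ℕ} (r : Idx s g → ℕ) (σ : Fin s → Fin g) : ℕ := ∏ t, r (t, σ t)

/-- Number of ordered pairs of indices with congruent products. -/
def Coll {s g : ℕ} (u : ℕ) (r : Idx s g → ℕ) : ℕ :=
  ((univ : Finset ((Fin s → Fin g) × (Fin s → Fin g))).filter
    (fun p => val r p.1 ≡ val r p.2 [MOD u])).card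

/-- All entries are coprime to `u`. -/
def Good {s g : ℕ} (u : ℕ) (r : Idx s g → ℕ) : Prop := ∀ i, Nat.Coprime (r i) u

instance {s g : ℕ} (u : ℕ) (r : Idx s g → ℕ) : Decidable (Good u r) := by
  unfold Good; exact inferInstance

/-- The tuples with the two products congruent. -/
def pairSet {s g : ℕ} (Pool : Finset ℕ) (u : ℕ) (σ σ' : Fin s → Fin g) : Finset (Idx s g → ℕ) :=
  (Fintype.piFinset (fun _ : Idx s g => Pool)).filter
    (fun r => Good u r ∧ val r σ ≡ val r σ' [MOD u])

lemma card_values (W u : ℕ) (hu : 0 < u) (S : Finset ℕ) (hS : ∀ x ∈ S, x ≤ W)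
    (hc : ∀ x ∈ S, ∀ y ∈ S, x ≡ y [MOD u]) : S.card ≤ W / u + 1 := by
  have h1 : (S.image (fun x => x / u)) ⊆ range (W / u + 1) := by
    intro z hz
    obtain ⟨x, hx, rfl⟩ := mem_image.mp hz
    exact mem_range.mpr (Nat.lt_succ_of_le (Nat.div_le_div_right (hS x hx)))
  have h2 : (S.image (fun x => x / u)).card = S.card := by
    apply card_image_of_injOn
    intro x hx y hy hxy
    have h3 : x % u = y % u := hc x hx y hy
    have h4 := Nat.div_add_mod x u
    have h5 := Nat.div_add_mod y u
    simp only at hxy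
    rw [hxy, h3] at h4
    omega
  have h3 := card_le_card h1
  rw [h2, card_range] at h3
  exact h3

lemma card_primeFactors_prod_le {ι : Type*} (K : Finset ι) (h : ι → ℕ) (hp : ∀ t ∈ K, (h t).Prime) :
    (∏ t ∈ K, h t).primeFactors.card ≤ K.card := by
  classical
  have h1 : (∏ t ∈ K, h t).primeFactors ⊆ K.image h := by
    intro p hp'
    have h2 := Nat.mem_primeFactors.mp hp'
    obtain ⟨t, ht, hdvd⟩ := (Prime.dvd_finsetProd_iff h2.1.prime h).mp h2.2.1
    have h3 := (Nat.prime_dvd_prime_iff_eq h2.1 (hp t ht)).mp hdvd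
    exact mem_image.mpr ⟨t, ht, h3.symm⟩
  exact (card_le_card h1).trans card_image_le

/-- The main counting lemma for a pair of indices. -/
theorem pair_count {s g : ℕ} (Pool : Finset ℕ) (W u : ℕ) (hu : 0 < u)
    (hP : ∀ p ∈ Pool, p.Prime ∧ p < W) (σ σ' : Fin s → Fin g) (K' : Finset (Fin s))
    (hK : ∀ t ∈ K', σ t ≠ σ' t) :
    (pairSet Pool u σ σ').card ≤
      (K'.card ^ K'.card * (W ^ K'.card / u + 1)) * Pool.card ^ (s * g - K'.card) := by
  classical
  set K : Finset (Idx s g) := K'.image (fun t => (t, σ t)) with hKdef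
  have hKcard : K.card = K'.card := by
    apply card_image_of_injective
    intro a b hab
    simpa using (Prod.ext_iff.mp hab).1
  have hmemK : ∀ t c, (t, c) ∈ K ↔ t ∈ K' ∧ σ t = c := by
    intro t c
    simp only [hKdef, mem_image, Prod.mk.injEq]
    constructor
    · rintro ⟨t', ht', rfl, rfl⟩
      exact ⟨ht', rfl⟩
    · rintro ⟨ht, rfl⟩
      exact ⟨t, ht, rfl, rfl⟩
  set π : (Idx s g → ℕ) → (Idx s g → ℕ) := fun r i => if i ∈ K then 0 else r i with hπ
  set S := pairSet Pool u σ σ' with hS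
  -- the product over `K'`
  set X : (Idx s g → ℕ) → ℕ := fun r => ∏ t ∈ K', r (t, σ t) with hX
  -- image bound
  have himage : (S.image π).card ≤ Pool.card ^ (s * g - K'.card) := by
    have h1 : S.image π ⊆ Fintype.piFinset (fun i : Idx s g => if i ∈ K then {0} else Pool) := by
      intro z hz
      obtain ⟨r, hr, rfl⟩ := mem_image.mp hz
      have hr1 := (mem_filter.mp hr).1
      rw [Fintype.mem_piFinset] at hr1 ⊢
      intro i
      by_cases hi : i ∈ K
      · simp [hπ, hi]
      · simp [hπ, hi, hr1 i]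
    have h2 := card_le_card h1
    rw [Fintype.card_piFinset] at h2
    refine h2.trans (le_of_eq ?_)
    simp only [apply_ite Finset.card, card_singleton]
    rw [Finset.prod_ite]
    simp only [prod_const_one, one_mul, prod_const]
    congr 1
    have h3 : (univ.filter (fun i : Idx s g => i ∉ K)).card = (univ \ K).card := by
      congr 1
      ext i
      simp
    rw [h3, card_sdiff_of_subset (subset_univ _), card_univ, hKcard]
    simp [Fintype.card_prod]
  -- fibre bound
  have hfib : ∀ z ∈ S.image π, (S.filter (fun r => π r = z)).card ≤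
      K'.card ^ K'.card * (W ^ K'.card / u + 1) := by
    intro z hz
    obtain ⟨r₀, hr₀, hz0⟩ := mem_image.mp hz
    set Fz := S.filter (fun r => π r = z) with hFz
    -- agreement off `K`
    have hoff : ∀ r ∈ Fz, ∀ i, i ∉ K → r i = r₀ i := by
      intro r hr i hi
      have h1 := (mem_filter.mp hr).2
      have h2 : π r i = π r₀ i := by rw [h1, hz0]
      simpa [hπ, hi] using h2
    have hFS : ∀ r ∈ Fz, r ∈ S := fun r hr => (mem_filter.mp hr).1
    have hprops : ∀ r ∈ S, (∀ i, r i ∈ Pool) ∧ Good u r ∧ val r σ ≡ val r σ' [MOD u] := by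
      intro r hr
      have h1 := mem_filter.mp hr
      exact ⟨Fintype.mem_piFinset.mp h1.1, h1.2.1, h1.2.2⟩
    -- residues of `X` agree
    have hXmod : ∀ r ∈ Fz, X r ≡ X r₀ [MOD u] := by
      intro r hr
      obtain ⟨_, hg, hc⟩ := hprops r (hFS r hr)
      obtain ⟨_, hg0, hc0⟩ := hprops r₀ hr₀
      set A := ∏ t ∈ univ \ K', r₀ (t, σ t) with hA
      have hdecomp : ∀ r' : Idx s g → ℕ, (∀ t, t ∉ K' → r' (t, σ t) = r₀ (t, σ t)) →
          val r' σ = X r' * A := by
        intro r' h'
        have h1 : val r' σ = (∏ t ∈ univ \ K', r' (t, σ t)) * ∏ t ∈ K', r' (t, σ t) := by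
          rw [val, prod_sdiff (subset_univ K')]
        rw [h1, mul_comm]
        congr 1
        apply prod_congr rfl
        intro t ht
        exact h' t (mem_sdiff.mp ht).2
      have h2 : val r σ = X r * A := hdecomp r (fun t ht => hoff r hr _ (by
        rw [hmemK]
        exact fun h => ht h.1))
      have h3 : val r₀ σ = X r₀ * A := hdecomp r₀ (fun _ _ => rfl)
      have h4 : val r σ' = val r₀ σ' := by
        apply prod_congr rfl
        intro t _
        apply hoff r hr
        rw [hmemK]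
        rintro ⟨h5, h6⟩
        exact hK t h5 h6
      have h5 : X r * A ≡ X r₀ * A [MOD u] := by
        rw [← h2, ← h3]
        calc val r σ ≡ val r σ' [MOD u] := hc
          _ = val r₀ σ' := h4
          _ ≡ val r₀ σ [MOD u] := hc0.symm
      have hAcop : Nat.gcd u A = 1 := by
        have : Nat.Coprime A u := Nat.Coprime.prod_left (fun t _ => hg0 _)
        exact Nat.Coprime.symm this
      exact Nat.ModEq.cancel_right_of_coprime hAcop h5
    -- size of `X`
    have hXle : ∀ r ∈ Fz, X r ≤ W ^ K'.card := by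
      intro r hr
      obtain ⟨hmem, _, _⟩ := hprops r (hFS r hr)
      calc X r ≤ ∏ _t ∈ K', W := prod_le_prod' (fun t _ => ((hP _ (hmem _)).2).le)
        _ = W ^ K'.card := by simp
    -- the values
    have hvals : (Fz.image X).card ≤ W ^ K'.card / u + 1 := by
      apply card_values _ _ hu
      · intro x hx
        obtain ⟨r, hr, rfl⟩ := mem_image.mp hx
        exact hXle r hr
      · intro x hx y hy
        obtain ⟨r, hr, rfl⟩ := mem_image.mp hx
        obtain ⟨r', hr', rfl⟩ := mem_image.mp hy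
        exact (hXmod r hr).trans (hXmod r' hr').symm
    -- fibres over a value
    have hfib2 : ∀ N ∈ Fz.image X, (Fz.filter (fun r => X r = N)).card ≤ K'.card ^ K'.card := by
      intro N hN
      obtain ⟨r₁, hr₁, rfl⟩ := mem_image.mp hN
      set y : (Idx s g → ℕ) → (Fin s → ℕ) := fun r t => if t ∈ K' then r (t, σ t) else 0 with hy
      have hinj : Set.InjOn y (Fz.filter (fun r => X r = X r₁) : Finset (Idx s g → ℕ)) := by
        intro a ha b hb hab
        have ha' := (mem_filter.mp (mem_coe.mp ha)).1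
        have hb' := (mem_filter.mp (mem_coe.mp hb)).1
        funext i
        by_cases hi : i ∈ K
        · obtain ⟨t, ht, rfl⟩ := mem_image.mp hi
          have := congrFun hab t
          simpa [hy, ht] using this
        · rw [hoff a ha' i hi, hoff b hb' i hi]
      have hsub : (Fz.filter (fun r => X r = X r₁)).image y ⊆
          Fintype.piFinset (fun t : Fin s => if t ∈ K' then (X r₁).primeFactors else {0}) := by
        intro w hw
        obtain ⟨r, hr, rfl⟩ := mem_image.mp hw
        have hr1 := mem_filter.mp hr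
        rw [Fintype.mem_piFinset]
        intro t
        by_cases ht : t ∈ K'
        · simp only [hy, ht, if_true]
          obtain ⟨hmem, _, _⟩ := hprops r (hFS r hr1.1)
          rw [← hr1.2]
          refine Nat.mem_primeFactors.mpr ⟨(hP _ (hmem _)).1, dvd_prod_of_mem (fun t => r (t, σ t)) ht, ?_⟩
          exact (prod_pos (fun t _ => (hP _ (hmem _)).1.pos)).ne'
        · simp [hy, ht]
      have h1 := card_le_card hsub
      rw [card_image_of_injOn hinj, Fintype.card_piFinset] at h1
      simp only [apply_ite Finset.card, card_singleton] at h1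
      rw [Finset.prod_ite] at h1
      simp only [prod_const_one, mul_one, prod_const] at h1
      have h2 : (univ.filter (fun t : Fin s => t ∈ K')) = K' := by
        ext t
        simp
      rw [h2] at h1
      obtain ⟨hmem, _, _⟩ := hprops r₁ (hFS r₁ hr₁)
      have h3 : (X r₁).primeFactors.card ≤ K'.card :=
        card_primeFactors_prod_le K' _ (fun t _ => (hP _ (hmem _)).1)
      exact h1.trans (Nat.pow_le_pow_left h3 _)
    have h4 := card_le_mul_card_image Fz (K'.card ^ K'.card) hfib2
    exact h4.trans (Nat.mul_le_mul_left _ hvals)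
  have h5 := card_le_mul_card_image S _ hfib
  exact h5.trans (Nat.mul_le_mul_left _ himage)

lemma sum_pow_diff {s g : ℕ} (hg : 0 < g) (σ : Fin s → Fin g) (y : ℝ) :
    ∑ σ' : Fin s → Fin g, y ^ (univ.filter (fun t => σ t ≠ σ' t)).card
      = (1 + ((g : ℝ) - 1) * y) ^ s := by
  classical
  have h1 : ∀ σ' : Fin s → Fin g, y ^ (univ.filter (fun t => σ t ≠ σ' t)).card
      = ∏ t, (if σ' t = σ t then (1 : ℝ) else y) := by
    intro σ'
    rw [Finset.prod_ite]
    simp only [prod_const_one, one_mul, prod_const]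
    congr 2
    ext t
    simp [eq_comm]
  simp_rw [h1]
  have h2 := Finset.prod_univ_sum (fun _ : Fin s => (univ : Finset (Fin g)))
    (fun t c => if c = σ t then (1 : ℝ) else y)
  rw [Fintype.piFinset_univ] at h2
  rw [← h2]
  have h3 : ∀ t : Fin s, ∑ c : Fin g, (if c = σ t then (1 : ℝ) else y) = 1 + ((g : ℝ) - 1) * y := by
    intro t
    have h4 : ∀ c : Fin g, (if c = σ t then (1 : ℝ) else y) = y + (if c = σ t then 1 - y else 0) := by
      intro c
      split_ifs <;> ring
    simp_rw [h4]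
    rw [sum_add_distrib, sum_ite_eq' univ (σ t)]
    simp
    ring
  simp_rw [h3]
  simp

/-- The bound for one pair in real form. -/
theorem pair_count_real {s g : ℕ} (hg : 0 < g) (Pool : Finset ℕ) (W u k : ℕ) (hu : 0 < u)
    (hP : ∀ p ∈ Pool, p.Prime ∧ p < W) (hPool : Pool.Nonempty)
    (hk : ∀ i < k, W ^ i < u) (σ σ' : Fin s → Fin g) :
    ((pairSet Pool u σ σ').card : ℝ) ≤ (Pool.card : ℝ) ^ (s * g) *
      (((k : ℝ) / Pool.card) ^ (univ.filter (fun t => σ t ≠ σ' t)).card +
        ((k : ℝ) / Pool.card) ^ k * (((W ^ k / u : ℕ) : ℝ) + 1)) := by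
  classical
  set D := univ.filter (fun t => σ t ≠ σ' t) with hD
  set PP := Pool.card with hPP
  have hPPpos : 0 < PP := card_pos.mpr hPool
  have hPPR : (0 : ℝ) < PP := by exact_mod_cast hPPpos
  have hDs : D.card ≤ s := by
    calc D.card ≤ (univ : Finset (Fin s)).card := card_le_card (subset_univ _)
      _ = s := by simp
  have hsg : s ≤ s * g := Nat.le_mul_of_pos_right _ hg
  have hpow : ∀ i, i ≤ s * g → ((PP ^ (s * g - i) : ℕ) : ℝ) = (PP : ℝ) ^ (s * g) / (PP : ℝ) ^ i := by
    intro i hi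
    push_cast
    rw [eq_div_iff (pow_pos hPPR i).ne', ← pow_add, Nat.sub_add_cancel hi]
  by_cases hcase : D.card < k
  · have h1 := pair_count Pool W u hu hP σ σ' D (fun t ht => (mem_filter.mp ht).2)
    have h2 : W ^ D.card / u = 0 := Nat.div_eq_of_lt (hk _ hcase)
    rw [h2] at h1
    have h3 : ((pairSet Pool u σ σ').card : ℝ) ≤ ((D.card : ℝ)) ^ D.card * ((PP : ℝ) ^ (s * g) / (PP : ℝ) ^ D.card) := by
      have h4 : ((pairSet Pool u σ σ').card : ℝ) ≤
          ((D.card ^ D.card * (0 + 1) * PP ^ (s * g - D.card) : ℕ) : ℝ) := by exact_mod_cast h1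
      refine h4.trans (le_of_eq ?_)
      rw [Nat.cast_mul, hpow _ (hDs.trans hsg)]
      push_cast
      ring
    refine h3.trans ?_
    have h5 : ((D.card : ℝ)) ^ D.card * ((PP : ℝ) ^ (s * g) / (PP : ℝ) ^ D.card)
        = (PP : ℝ) ^ (s * g) * (((D.card : ℝ) / PP) ^ D.card) := by
      rw [div_pow]
      ring
    rw [h5]
    apply mul_le_mul_of_nonneg_left _ (by positivity)
    have h6 : ((D.card : ℝ) / PP) ^ D.card ≤ ((k : ℝ) / PP) ^ D.card := by
      apply pow_le_pow_left₀ (by positivity)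
      apply div_le_div_of_nonneg_right _ hPPR.le
      exact_mod_cast hcase.le
    have h7 : 0 ≤ ((k : ℝ) / PP) ^ k * (((W ^ k / u : ℕ) : ℝ) + 1) := by positivity
    linarith
  · push Not at hcase
    obtain ⟨K', hK'sub, hK'card⟩ := Finset.exists_subset_card_eq hcase
    have h1 := pair_count Pool W u hu hP σ σ' K' (fun t ht => (mem_filter.mp (hK'sub ht)).2)
    rw [hK'card] at h1
    have hk' : k ≤ s * g := (hcase.trans hDs).trans hsg
    have h4 : ((pairSet Pool u σ σ').card : ℝ) ≤
        ((k ^ k * (W ^ k / u + 1) * PP ^ (s * g - k) : ℕ) : ℝ) := by exact_mod_cast h1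
    refine h4.trans ?_
    rw [Nat.cast_mul, hpow _ hk']
    push_cast
    have h5 : (k : ℝ) ^ k * (((W ^ k / u : ℕ) : ℝ) + 1) * ((PP : ℝ) ^ (s * g) / (PP : ℝ) ^ k)
        = (PP : ℝ) ^ (s * g) * (((k : ℝ) / PP) ^ k * (((W ^ k / u : ℕ) : ℝ) + 1)) := by
      rw [div_pow]
      ring
    rw [h5]
    apply mul_le_mul_of_nonneg_left _ (by positivity)
    have h6 : 0 ≤ ((k : ℝ) / PP) ^ D.card := by positivity
    linarith

/-- Average of the collision count over the tuples. -/
theorem avg_coll {s g : ℕ} (hg : 0 < g) (Pool : Finset ℕ) (W u k : ℕ) (hu : 0 < u)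
    (hP : ∀ p ∈ Pool, p.Prime ∧ p < W) (hPool : Pool.Nonempty)
    (hk : ∀ i < k, W ^ i < u)
    (hsmall : 2 * (s : ℝ) * ((g : ℝ) * ((k : ℝ) / Pool.card)) ≤ 1) :
    ∑ r ∈ Fintype.piFinset (fun _ : Idx s g => Pool),
        (if Good u r then (Coll u r : ℝ) else 0) ≤
      (Pool.card : ℝ) ^ (s * g) * (2 * (g : ℝ) ^ s + ((g : ℝ) ^ s) ^ 2 *
        (((k : ℝ) / Pool.card) ^ k * (((W ^ k / u : ℕ) : ℝ) + 1))) := by
  classical
  set T := Fintype.piFinset (fun _ : Idx s g => Pool) with hT
  set PP := Pool.card with hPP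
  have hPPpos : 0 < PP := card_pos.mpr hPool
  have hPPR : (0 : ℝ) < PP := by exact_mod_cast hPPpos
  set y : ℝ := (k : ℝ) / PP with hy
  have hy0 : 0 ≤ y := by positivity
  set C : ℝ := y ^ k * (((W ^ k / u : ℕ) : ℝ) + 1) with hC
  have h1 : ∑ r ∈ T, (if Good u r then (Coll u r : ℝ) else 0)
      = ∑ σ : Fin s → Fin g, ∑ σ' : Fin s → Fin g, ((pairSet Pool u σ σ').card : ℝ) := by
    have h2 : ∀ r ∈ T, (if Good u r then (Coll u r : ℝ) else 0)
        = ∑ σ : Fin s → Fin g, ∑ σ' : Fin s → Fin g,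
            (if (Good u r ∧ val r σ ≡ val r σ' [MOD u]) then (1 : ℝ) else 0) := by
      intro r _
      by_cases hG : Good u r
      · simp only [hG, if_true, true_and]
        rw [Coll, card_filter]
        push_cast
        rw [← univ_product_univ, sum_product]
      · simp [hG]
    rw [sum_congr rfl h2, sum_comm]
    refine sum_congr rfl (fun σ _ => ?_)
    rw [sum_comm]
    refine sum_congr rfl (fun σ' _ => ?_)
    rw [pairSet, card_filter]
    push_cast
    rfl
  rw [h1]
  have h3 : ∀ σ σ' : Fin s → Fin g, ((pairSet Pool u σ σ').card : ℝ) ≤ (PP : ℝ) ^ (s * g) *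
      (y ^ (univ.filter (fun t => σ t ≠ σ' t)).card + C) := fun σ σ' =>
    pair_count_real hg Pool W u k hu hP hPool hk σ σ'
  have hgR : (1 : ℝ) ≤ g := by exact_mod_cast hg
  have h4 : ∀ σ : Fin s → Fin g, ∑ σ' : Fin s → Fin g,
      (y ^ (univ.filter (fun t => σ t ≠ σ' t)).card + C) ≤ 2 + (g : ℝ) ^ s * C := by
    intro σ
    rw [sum_add_distrib, sum_pow_diff hg]
    have h5 : (1 + ((g : ℝ) - 1) * y) ^ s ≤ 2 := by
      have h6 : (1 + ((g : ℝ) - 1) * y) ^ s ≤ (1 + (g : ℝ) * y) ^ s := by
        apply pow_le_pow_left₀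
        · have : 0 ≤ ((g : ℝ) - 1) * y := mul_nonneg (by linarith) hy0
          linarith
        · nlinarith
      have h7 := Vale.Agent.Egypt.one_add_pow_le ((g : ℝ) * y) (by positivity) s hsmall
      have h8 : (2 : ℝ) * s * ((g : ℝ) * y) ≤ 1 := hsmall
      linarith
    have h9 : ∑ _σ' : Fin s → Fin g, C = (g : ℝ) ^ s * C := by
      simp
    rw [h9]
    linarith
  calc ∑ σ : Fin s → Fin g, ∑ σ' : Fin s → Fin g, ((pairSet Pool u σ σ').card : ℝ)
      ≤ ∑ σ : Fin s → Fin g, ∑ σ' : Fin s → Fin g, (PP : ℝ) ^ (s * g) *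
          (y ^ (univ.filter (fun t => σ t ≠ σ' t)).card + C) :=
        sum_le_sum (fun σ _ => sum_le_sum (fun σ' _ => h3 σ σ'))
    _ = (PP : ℝ) ^ (s * g) * ∑ σ : Fin s → Fin g, ∑ σ' : Fin s → Fin g,
          (y ^ (univ.filter (fun t => σ t ≠ σ' t)).card + C) := by
        rw [mul_sum]
        refine sum_congr rfl (fun σ _ => ?_)
        rw [mul_sum]
    _ ≤ (PP : ℝ) ^ (s * g) * ∑ _σ : Fin s → Fin g, (2 + (g : ℝ) ^ s * C) := by
        apply mul_le_mul_of_nonneg_left _ (by positivity)
        exact sum_le_sum (fun σ _ => h4 σ)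
    _ = (PP : ℝ) ^ (s * g) * (2 * (g : ℝ) ^ s + ((g : ℝ) ^ s) ^ 2 * C) := by
        congr 1
        simp
        ring

end

end Vale.Agent.helper7.Eg
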