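import Vale.Agent.Egypt.Levels

open Finset

namespace Vale.Agent.helper7.Eg

open Vale.Agent.Egypt

/-- `q` is a sum of at most `k` distinct unit fractions with positive denominators. -/
def Rep (q : ℚ) (k : ℕ) : Prop :=
  ∃ F : Finset ℕ, (∀ n ∈ F, 0 < n) ∧ ∑ n ∈ F, (1 : ℚ) / (n : ℚ) = q ∧ F.card ≤ k

/-- Every residue modulo `f` is a sum of at most twelve distinct divisors of `D` below `2 ^ W`,
all coprime to `f`. -/
def Cover (D f W : ℕ) : Prop :=
  ∀ c : ℕ, ∃ T : Finset ℕ, T.card ≤ 12 ∧ (∀ t ∈ T, t ∣ D ∧ t < 2 ^ W ∧ Nat.Coprime t f) ∧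
    (∑ t ∈ T, t) % f = c % f

/-- The width condition along a list of slots `(F, W)`: each width is paid for by the later slots. -/
def WidthOK (Wend : ℕ) : List (ℕ × ℕ) → Prop
  | [] => True
  | s :: rest => s.2 ≤ Wend + (rest.map (fun x => x.1 + 1)).sum ∧ WidthOK Wend rest

end Vale.Agent.helper7.Eg
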