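import Vale.Agent.helper7.Eg.Avg

open Finset

namespace Vale.Agent.helper7.Eg

open Vale.Agent.Egypt

noncomputable section

variable {ι κ : Type*} [Fintype ι] [Fintype κ]

open Classical in
/-- Number of ordered pairs of indices whose values agree modulo `N`. -/
def icoll (N : ℕ) (A : ι → ℕ) : ℕ :=
  (((univ : Finset ι) ×ˢ (univ : Finset ι)).filter
    (fun p : ι × ι => ((A p.1 : ℕ) : ZMod N) = ((A p.2 : ℕ) : ZMod N))).card

open Classical in
/-- Number of indices in a given residue class. -/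
def ifib (N : ℕ) (A : ι → ℕ) (t : ZMod N) : ℕ :=
  ((univ : Finset ι).filter (fun x => ((A x : ℕ) : ZMod N) = t)).card

lemma isum_eq_sum_fib (N : ℕ) [NeZero N] (A : ι → ℕ) (f : ZMod N → ℂ) :
    ∑ x, f ((A x : ℕ) : ZMod N) = ∑ t : ZMod N, (ifib N A t : ℂ) * f t := by
  classical
  have h1 : ∀ t : ZMod N, (ifib N A t : ℂ) * f t
      = ∑ x, (if ((A x : ℕ) : ZMod N) = t then f t else 0) := by
    intro t
    simp only [ifib, card_filter, Nat.cast_sum, sum_mul]
    refine sum_congr rfl (fun x _ => ?_)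
    split_ifs <;> simp
  simp_rw [h1]
  rw [sum_comm]
  refine sum_congr rfl (fun x _ => ?_)
  simp

lemma isum_fib_sq (N : ℕ) [NeZero N] (A : ι → ℕ) :
    ∑ t : ZMod N, (ifib N A t) ^ 2 = icoll N A := by
  classical
  have h1 : ∀ t : ZMod N, (ifib N A t) ^ 2
      = ∑ p ∈ (univ : Finset ι) ×ˢ (univ : Finset ι),
          (if (((A p.1 : ℕ) : ZMod N) = t ∧ ((A p.2 : ℕ) : ZMod N) = t) then 1 else 0) := by
    intro t
    simp only [ifib, sq, card_filter]
    rw [sum_mul_sum, ← sum_product']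
    refine sum_congr rfl (fun p _ => ?_)
    by_cases h1 : ((A p.1 : ℕ) : ZMod N) = t <;> by_cases h2 : ((A p.2 : ℕ) : ZMod N) = t <;>
      simp [h1, h2]
  simp_rw [h1]
  rw [sum_comm]
  simp only [icoll, card_filter]
  refine sum_congr rfl (fun p _ => ?_)
  by_cases h : ((A p.1 : ℕ) : ZMod N) = ((A p.2 : ℕ) : ZMod N)
  · rw [if_pos h]
    rw [Finset.sum_eq_single ((A p.1 : ℕ) : ZMod N)]
    · simp [h]
    · intro b _ hb
      rw [if_neg]
      rintro ⟨h3, _⟩
      exact hb h3.symm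
    · simp
  · rw [if_neg h]
    apply Finset.sum_eq_zero
    intro t _
    rw [if_neg]
    rintro ⟨h3, h4⟩
    exact h (h3.trans h4.symm)

/-- Parseval-type identity for a unit multiplier. -/
lemma isum_normSq_eq (N : ℕ) [NeZero N] (c : ZMod N) (hc : IsUnit c) (B : κ → ℕ) :
    ∑ t : ZMod N, ‖∑ y, (ZMod.stdAddChar (c * t * ((B y : ℕ) : ZMod N)) : ℂ)‖ ^ 2
      = (N : ℝ) * icoll N B := by
  classical
  have hψ := ZMod.isPrimitive_stdAddChar N
  have key : ((∑ t : ZMod N, ‖∑ y, (ZMod.stdAddChar (c * t * ((B y : ℕ) : ZMod N)) : ℂ)‖ ^ 2 : ℝ) : ℂ)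
      = ((N : ℝ) * icoll N B : ℝ) := by
    push_cast
    have h1 : ∀ t : ZMod N, ((‖∑ y, (ZMod.stdAddChar (c * t * ((B y : ℕ) : ZMod N)) : ℂ)‖ : ℂ)) ^ 2
        = ∑ p ∈ (univ : Finset κ) ×ˢ (univ : Finset κ),
            (ZMod.stdAddChar (t * (c * (((B p.1 : ℕ) : ZMod N) - ((B p.2 : ℕ) : ZMod N)))) : ℂ) := by
      intro t
      rw [← Complex.mul_conj', map_sum, sum_mul_sum, ← sum_product']
      refine sum_congr rfl (fun p _ => ?_)
      rw [← AddChar.map_neg_eq_conj, ← AddChar.map_add_eq_mul]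
      congr 1
      ring
    simp_rw [h1]
    rw [sum_comm]
    have h2 : ∀ p ∈ (univ : Finset κ) ×ˢ (univ : Finset κ),
        ∑ t : ZMod N, (ZMod.stdAddChar (t * (c * (((B p.1 : ℕ) : ZMod N) - ((B p.2 : ℕ) : ZMod N)))) : ℂ)
        = if ((B p.1 : ℕ) : ZMod N) = ((B p.2 : ℕ) : ZMod N) then (N : ℂ) else 0 := by
      intro p _
      rw [AddChar.sum_mulShift _ hψ]
      have : c * (((B p.1 : ℕ) : ZMod N) - ((B p.2 : ℕ) : ZMod N)) = 0 ↔
          ((B p.1 : ℕ) : ZMod N) = ((B p.2 : ℕ) : ZMod N) := by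
        rw [hc.mul_right_eq_zero, sub_eq_zero]
      simp only [this, ZMod.card]
      split_ifs <;> simp
    rw [sum_congr rfl h2]
    simp only [icoll, card_filter, Nat.cast_sum, mul_sum]
    refine sum_congr rfl (fun p _ => ?_)
    split_ifs <;> simp
  exact_mod_cast key

/-- The bilinear exponential sum bound, index version. -/
theorem ibilinear_bound (N : ℕ) [NeZero N] (c : ZMod N) (hc : IsUnit c) (A : ι → ℕ) (B : κ → ℕ) :
    ‖∑ x, ∑ y, (ZMod.stdAddChar (c * ((A x : ℕ) : ZMod N) * ((B y : ℕ) : ZMod N)) : ℂ)‖ ^ 2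
      ≤ (N : ℝ) * icoll N A * icoll N B := by
  classical
  set G : ZMod N → ℂ := fun t => ∑ y, (ZMod.stdAddChar (c * t * ((B y : ℕ) : ZMod N)) : ℂ) with hG
  have h1 : ∑ x, ∑ y, (ZMod.stdAddChar (c * ((A x : ℕ) : ZMod N) * ((B y : ℕ) : ZMod N)) : ℂ)
      = ∑ t : ZMod N, (ifib N A t : ℂ) * G t := by
    rw [← isum_eq_sum_fib N A G]
  rw [h1]
  have h2 : ‖∑ t : ZMod N, (ifib N A t : ℂ) * G t‖ ≤ ∑ t : ZMod N, (ifib N A t : ℝ) * ‖G t‖ := by
    refine (norm_sum_le _ _).trans (le_of_eq ?_)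
    refine sum_congr rfl (fun t _ => ?_)
    simp
  have h3 : (∑ t : ZMod N, (ifib N A t : ℝ) * ‖G t‖) ^ 2
      ≤ (∑ t : ZMod N, (ifib N A t : ℝ) ^ 2) * ∑ t : ZMod N, ‖G t‖ ^ 2 :=
    sum_mul_sq_le_sq_mul_sq _ _ _
  have h4 : (∑ t : ZMod N, (ifib N A t : ℝ) ^ 2) = icoll N A := by
    rw [← isum_fib_sq]
    push_cast
    rfl
  have h5 : ∑ t : ZMod N, ‖G t‖ ^ 2 = (N : ℝ) * icoll N B := isum_normSq_eq N c hc B
  rw [h4, h5] at h3
  have h6 : 0 ≤ ∑ t : ZMod N, (ifib N A t : ℝ) * ‖G t‖ :=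
    sum_nonneg (fun t _ => mul_nonneg (Nat.cast_nonneg _) (norm_nonneg _))
  calc ‖∑ t : ZMod N, (ifib N A t : ℂ) * G t‖ ^ 2
      ≤ (∑ t : ZMod N, (ifib N A t : ℝ) * ‖G t‖) ^ 2 := by
        exact pow_le_pow_left₀ (norm_nonneg _) h2 2
    _ ≤ (icoll N A : ℝ) * ((N : ℝ) * icoll N B) := h3
    _ = (N : ℝ) * icoll N A * icoll N B := by ring

/-- The exponential sum over an index set. -/
def iSum (N : ℕ) [NeZero N] (h : ι → ZMod N) (a : ZMod N) : ℂ :=
  ∑ i, (ZMod.stdAddChar (a * h i) : ℂ)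

lemma prod_iSum (N : ℕ) [NeZero N] (h : ι → ZMod N) (l : Fin 12 → ZMod N) (a : ZMod N) :
    ∏ k : Fin 12, iSum N h (l k * a)
      = ∑ p : Fin 12 → ι, (ZMod.stdAddChar (a * ∑ k : Fin 12, l k * h (p k)) : ℂ) := by
  classical
  unfold iSum
  rw [Finset.prod_univ_sum, Fintype.piFinset_univ]
  refine sum_congr rfl (fun p _ => ?_)
  rw [← char_sum]
  congr 1
  rw [mul_sum]
  refine sum_congr rfl (fun k _ => ?_)
  ring

/-- If the exponential sums are small for every nonzero `a`, then every residue is a sum of twelve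
values. -/
theorem cover12 (N : ℕ) [NeZero N] [Nonempty ι] (h : ι → ZMod N) (l : Fin 12 → ZMod N)
    (β : ZMod N → ℝ) (hβ0 : ∀ a, 0 ≤ β a)
    (hF : ∀ a : ZMod N, a ≠ 0 → ∀ k : Fin 12,
      ‖iSum N h (l k * a)‖ ≤ (Fintype.card ι : ℝ) * β a)
    (hsum : ∑ a ∈ (univ : Finset (ZMod N)).erase 0, β a ^ 12 < 1) (r : ZMod N) :
    ∃ p : Fin 12 → ι, ∑ k : Fin 12, l k * h (p k) = r := by
  classical
  by_contra hno
  push Not at hno
  have hψ := ZMod.isPrimitive_stdAddChar N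
  set M : ℝ := (Fintype.card ι : ℝ) with hM
  have hMpos : 0 < M := by
    rw [hM]
    exact_mod_cast Fintype.card_pos
  set f : ZMod N → ℂ := fun a => (ZMod.stdAddChar (-(a * r)) : ℂ) *
      ∏ k : Fin 12, iSum N h (l k * a) with hf
  have htotal : ∑ a : ZMod N, f a = 0 := by
    have h1 : ∀ a : ZMod N, f a = ∑ p : Fin 12 → ι,
        (ZMod.stdAddChar (a * ((∑ k : Fin 12, l k * h (p k)) - r)) : ℂ) := by
      intro a
      simp only [hf]
      rw [prod_iSum, mul_sum]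
      refine sum_congr rfl (fun p _ => ?_)
      rw [← AddChar.map_add_eq_mul]
      congr 1
      ring
    simp_rw [h1]
    rw [sum_comm]
    apply sum_eq_zero
    intro p _
    rw [AddChar.sum_mulShift _ hψ]
    have hne := hno p
    rw [if_neg (sub_ne_zero.mpr hne)]
    simp
  have hzero : ∀ k : Fin 12, iSum N h (l k * 0) = (M : ℂ) := by
    intro k
    simp [iSum, hM]
  have hmain : f 0 = ((M ^ 12 : ℝ) : ℂ) := by
    simp only [hf, zero_mul, neg_zero, AddChar.map_zero_eq_one, one_mul]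
    simp_rw [hzero]
    simp
  have hrest : ∀ a ∈ (univ : Finset (ZMod N)).erase 0, ‖f a‖ ≤ M ^ 12 * β a ^ 12 := by
    intro a ha
    have ha0 : a ≠ 0 := (mem_erase.mp ha).1
    simp only [hf, norm_mul, AddChar.norm_apply, one_mul, norm_prod]
    calc ∏ k : Fin 12, ‖iSum N h (l k * a)‖
        ≤ ∏ _k : Fin 12, (M * β a) := by
          apply prod_le_prod
          · intro k _
            exact norm_nonneg _
          · intro k _
            exact hF a ha0 k
      _ = M ^ 12 * β a ^ 12 := by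
          simp only [prod_const, card_univ, Fintype.card_fin]
          ring
  have hsplit : f 0 = - ∑ a ∈ (univ : Finset (ZMod N)).erase 0, f a := by
    have := add_sum_erase (univ : Finset (ZMod N)) f (mem_univ 0)
    rw [htotal] at this
    exact eq_neg_of_add_eq_zero_left this
  have hnorm : M ^ 12 ≤ ∑ a ∈ (univ : Finset (ZMod N)).erase 0, M ^ 12 * β a ^ 12 := by
    calc M ^ 12 = ‖f 0‖ := by
          rw [hmain, Complex.norm_real, Real.norm_eq_abs, abs_of_pos (by positivity)]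
      _ = ‖∑ a ∈ (univ : Finset (ZMod N)).erase 0, f a‖ := by rw [hsplit, norm_neg]
      _ ≤ ∑ a ∈ (univ : Finset (ZMod N)).erase 0, ‖f a‖ := norm_sum_le _ _
      _ ≤ _ := sum_le_sum hrest
  rw [← mul_sum] at hnorm
  have hM12 : 0 < M ^ 12 := by positivity
  have : M ^ 12 * ∑ a ∈ (univ : Finset (ZMod N)).erase 0, β a ^ 12 < M ^ 12 * 1 :=
    mul_lt_mul_of_pos_left hsum hM12
  linarith

/-- The additive order of a residue. -/
def ordz (f : ℕ) [NeZero f] (a : ZMod f) : ℕ := f / Nat.gcd a.val f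

lemma sum_ordz_lt (f Z N : ℕ) [NeZero f] (hZ : 2 ≤ Z)
    (hmaps : ∀ a : ZMod f, a ≠ 0 → ordz f a ∈ Ioc Z N) :
    ∑ a ∈ (univ : Finset (ZMod f)).erase 0, (1 : ℝ) / (ordz f a : ℝ) ^ 3 < 1 := by
  classical
  have hf0 : 0 < f := Nat.pos_of_ne_zero (NeZero.ne f)
  have hm : ∀ a ∈ (univ : Finset (ZMod f)).erase 0, ordz f a ∈ Ioc Z N :=
    fun a ha => hmaps a (mem_erase.mp ha).1
  rw [← sum_fiberwise_of_maps_to hm]
  have hfib : ∀ u ∈ Ioc Z N, ∑ a ∈ ((univ : Finset (ZMod f)).erase 0).filter (fun a => ordz f a = u),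
      (1 : ℝ) / (ordz f a : ℝ) ^ 3 ≤ 1 / (u : ℝ) ^ 2 := by
    intro u hu
    have hu0 : 0 < u := by
      have := (mem_Ioc.mp hu).1
      omega
    have huR : (0 : ℝ) < u := by exact_mod_cast hu0
    have h1 : ∀ a ∈ ((univ : Finset (ZMod f)).erase 0).filter (fun a => ordz f a = u),
        (1 : ℝ) / (ordz f a : ℝ) ^ 3 = 1 / (u : ℝ) ^ 3 := by
      intro a ha
      rw [(mem_filter.mp ha).2]
    rw [sum_congr rfl h1, sum_const, nsmul_eq_mul]
    -- the fibre has at most `u` elements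
    have hcard : (((univ : Finset (ZMod f)).erase 0).filter (fun a => ordz f a = u)).card ≤ u := by
      have hsub : ((univ : Finset (ZMod f)).erase 0).filter (fun a => ordz f a = u) ⊆
          (range u).image (fun m => ((f / u * m : ℕ) : ZMod f)) := by
        intro a ha
        have ha2 := (mem_filter.mp ha).2
        set d := Nat.gcd a.val f with hd
        have hdpos : 0 < d := Nat.gcd_pos_of_pos_right _ hf0
        have hdf : d ∣ f := Nat.gcd_dvd_right _ _
        have hda : d ∣ a.val := Nat.gcd_dvd_left _ _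
        have hfd : f = d * u := by
          rw [← ha2, ordz, ← hd]
          exact (Nat.mul_div_cancel' hdf).symm
        have hfu : f / u = d := by
          rw [hfd]
          exact Nat.mul_div_cancel _ hu0
        obtain ⟨m, hm⟩ := hda
        refine mem_image.mpr ⟨m, mem_range.mpr ?_, ?_⟩
        · have h2 : a.val < f := ZMod.val_lt a
          rw [hm, hfd] at h2
          exact Nat.lt_of_mul_lt_mul_left h2
        · rw [hfu, ← hm]
          exact ZMod.natCast_zmod_val a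
      have h2 := card_le_card hsub
      have h3 := card_image_le (s := range u) (f := fun m => ((f / u * m : ℕ) : ZMod f))
      rw [card_range] at h3
      exact h2.trans h3
    have h2 : ((((univ : Finset (ZMod f)).erase 0).filter (fun a => ordz f a = u)).card : ℝ) ≤ u := by
      exact_mod_cast hcard
    calc _ ≤ (u : ℝ) * (1 / (u : ℝ) ^ 3) := mul_le_mul_of_nonneg_right h2 (by positivity)
      _ = 1 / (u : ℝ) ^ 2 := by field_simp
  have h3 := (sum_le_sum hfib).trans (sum_inv_sq_lt Z N hZ)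
  have hZR : (2 : ℝ) ≤ Z := by exact_mod_cast hZ
  have h1Z : 1 / (Z : ℝ) < 1 := by
    rw [div_lt_one (by linarith)]
    linarith
  linarith

/-- Evaluating the character at a multiple of `a` through the order of `a`. -/
lemma char_ordz (f : ℕ) [NeZero f] (a : ZMod f) (d u α : ℕ) [NeZero u] (hfd : f = d * u)
    (hα : a.val = d * α) (n : ℕ) :
    (ZMod.stdAddChar (a * ((n : ℕ) : ZMod f)) : ℂ)
      = ZMod.stdAddChar (((α : ℕ) : ZMod u) * ((n : ℕ) : ZMod u)) := by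
  have h1 : a * ((n : ℕ) : ZMod f) = ((d * (α * n) : ℕ) : ZMod f) := by
    have h2 : a = ((a.val : ℕ) : ZMod f) := (ZMod.natCast_zmod_val a).symm
    conv_lhs => rw [h2, hα]
    push_cast
    ring
  rw [h1, stdAddChar_scale f u d hfd]
  congr 1
  push_cast
  ring

section Split

variable {Y : Type} {L : ℕ}

/-- The product of the values along a tuple. -/
def bigV (v : Fin L → Y → ℕ) (x : Fin L → Y) : ℕ := ∏ l, v l (x l)

/-- The product off one coordinate. -/
def offV (v : Fin L → Y → ℕ) (l₀ : Fin L) (x : {j : Fin L // j ≠ l₀} → Y) : ℕ :=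
  ∏ j, v j.1 (x j)

lemma bigV_split (v : Fin L → Y → ℕ) (l₀ : Fin L) (σ : Y) (x : {j : Fin L // j ≠ l₀} → Y) :
    bigV v ((Equiv.piSplitAt l₀ (fun _ => Y)).symm (σ, x)) = v l₀ σ * offV v l₀ x := by
  unfold bigV offV
  rw [Fintype.prod_eq_mul_prod_subtype_ne _ l₀]
  congr 1
  · simp [Equiv.piSplitAt_symm_apply]
  · refine prod_congr rfl (fun j _ => ?_)
    have hj : (j : Fin L) ≠ l₀ := j.2
    simp [Equiv.piSplitAt_symm_apply, hj]

lemma card_split [Fintype Y] (l₀ : Fin L) :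
    Fintype.card (Fin L → Y) = Fintype.card Y * Fintype.card ({j : Fin L // j ≠ l₀} → Y) := by
  rw [Fintype.card_congr (Equiv.piSplitAt l₀ (fun _ => Y)), Fintype.card_prod]

/-- The block bound modulo `u`. -/
theorem exp_level_u [Fintype Y] (u : ℕ) [NeZero u] (c : ZMod u) (hc : IsUnit c) (v : Fin L → Y → ℕ)
    (hv : ∀ l y, Nat.Coprime (v l y) u) (l₀ : Fin L) (B : ℝ) (hB : 0 ≤ B)
    (hflat : (u : ℝ) * icoll u (v l₀) * icoll u (v l₀) ≤ B ^ 2) :
    (Fintype.card Y : ℝ) ^ 2 *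
      ‖∑ x : Fin L → Y, ∑ y : Fin L → Y,
        (ZMod.stdAddChar (c * ((bigV v x * bigV v y : ℕ) : ZMod u)) : ℂ)‖ ≤
      (Fintype.card (Fin L → Y) : ℝ) ^ 2 * B := by
  classical
  set X' := {j : Fin L // j ≠ l₀} → Y with hX'
  set e := Equiv.piSplitAt l₀ (fun _ => Y) with he
  have hunit : ∀ x' y' : X', IsUnit
      (c * ((offV v l₀ x' : ℕ) : ZMod u) * ((offV v l₀ y' : ℕ) : ZMod u)) := by
    intro x' y'
    have hcop : ∀ z : X', IsUnit ((offV v l₀ z : ℕ) : ZMod u) := by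
      intro z
      rw [ZMod.isUnit_iff_coprime]
      exact Nat.Coprime.prod_left (fun j _ => hv _ _)
    exact (hc.mul (hcop x')).mul (hcop y')
  have hinner : ∀ x' y' : X', ‖∑ σ : Y, ∑ τ : Y,
      (ZMod.stdAddChar ((c * ((offV v l₀ x' : ℕ) : ZMod u) * ((offV v l₀ y' : ℕ) : ZMod u)) *
        ((v l₀ σ : ℕ) : ZMod u) * ((v l₀ τ : ℕ) : ZMod u)) : ℂ)‖ ≤ B := by
    intro x' y'
    have h1 := ibilinear_bound u _ (hunit x' y') (v l₀) (v l₀)
    have h2 := h1.trans hflat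
    exact (pow_le_pow_iff_left₀ (norm_nonneg _) hB (by norm_num)).mp h2
  have hsplit : ∑ x : Fin L → Y, ∑ y : Fin L → Y,
        (ZMod.stdAddChar (c * ((bigV v x * bigV v y : ℕ) : ZMod u)) : ℂ)
      = ∑ x' : X', ∑ y' : X', ∑ σ : Y, ∑ τ : Y,
      (ZMod.stdAddChar ((c * ((offV v l₀ x' : ℕ) : ZMod u) * ((offV v l₀ y' : ℕ) : ZMod u)) *
        ((v l₀ σ : ℕ) : ZMod u) * ((v l₀ τ : ℕ) : ZMod u)) : ℂ) := by
    have h1 : ∀ F : (Fin L → Y) → ℂ, ∑ x, F x = ∑ σ : Y, ∑ x' : X', F (e.symm (σ, x')) := by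
      intro F
      calc ∑ x, F x = ∑ z : Y × X', F (e.symm z) := (Equiv.sum_comp e.symm F).symm
        _ = _ := Fintype.sum_prod_type _
    rw [h1]
    simp_rw [h1]
    rw [sum_comm]
    refine sum_congr rfl (fun x' _ => ?_)
    have h2 : ∀ σ : Y, ∑ σ' : Y, ∑ y' : X',
        (ZMod.stdAddChar (c * ((bigV v (e.symm (σ, x')) * bigV v (e.symm (σ', y')) : ℕ) : ZMod u)) : ℂ)
        = ∑ y' : X', ∑ σ' : Y,
        (ZMod.stdAddChar (c * ((bigV v (e.symm (σ, x')) * bigV v (e.symm (σ', y')) : ℕ) : ZMod u)) : ℂ) :=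
      fun σ => sum_comm
    simp_rw [h2]
    rw [sum_comm]
    refine sum_congr rfl (fun y' _ => ?_)
    refine sum_congr rfl (fun σ _ => sum_congr rfl (fun τ _ => ?_))
    rw [he, bigV_split, bigV_split]
    congr 1
    push_cast
    ring
  rw [hsplit]
  have hnorm : ‖∑ x' : X', ∑ y' : X', ∑ σ : Y, ∑ τ : Y,
      (ZMod.stdAddChar ((c * ((offV v l₀ x' : ℕ) : ZMod u) * ((offV v l₀ y' : ℕ) : ZMod u)) *
        ((v l₀ σ : ℕ) : ZMod u) * ((v l₀ τ : ℕ) : ZMod u)) : ℂ)‖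
      ≤ ∑ _x' : X', ∑ _y' : X', B := by
    refine (norm_sum_le _ _).trans (sum_le_sum (fun x' _ => ?_))
    refine (norm_sum_le _ _).trans (sum_le_sum (fun y' _ => ?_))
    exact hinner x' y'
  have hcount : ∑ _x' : X', ∑ _y' : X', B = (Fintype.card X' : ℝ) ^ 2 * B := by
    simp only [sum_const, card_univ, nsmul_eq_mul]
    ring
  rw [hcount] at hnorm
  have hcard : (Fintype.card (Fin L → Y) : ℝ) = (Fintype.card Y : ℝ) * Fintype.card X' := by
    rw [card_split l₀]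
    push_cast
    rfl
  rw [hcard]
  calc (Fintype.card Y : ℝ) ^ 2 * _ ≤ (Fintype.card Y : ℝ) ^ 2 * ((Fintype.card X' : ℝ) ^ 2 * B) :=
        mul_le_mul_of_nonneg_left hnorm (by positivity)
    _ = _ := by ring

end Split

end

end Vale.Agent.helper7.Eg
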