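import Vale.Agent.helper7.Eg.Fourier
import Vale.Agent.helper7.Eg.Defs

open Finset

namespace Vale.Agent.helper7.Eg

open Vale.Agent.Egypt

noncomputable section

/-- The twelve multipliers. -/
def lm : Fin 12 → ℕ := ![5, 7, 11, 13, 17, 19, 23, 29, 31, 37, 41, 43]

lemma lm_prime (k : Fin 12) : (lm k).Prime := by
  fin_cases k <;> simp [lm] <;> norm_num

lemma lm_le (k : Fin 12) : lm k ≤ 43 := by
  fin_cases k <;> simp [lm]

lemma lm_inj : Function.Injective lm := by
  intro a b h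
  revert a b
  decide

/-- The product of the multipliers. -/
def Lam : ℕ := ∏ k, lm k

lemma Lam_pos : 0 < Lam := prod_pos (fun k _ => (lm_prime k).pos)

lemma lm_dvd (k : Fin 12) : lm k ∣ Lam := dvd_prod_of_mem lm (mem_univ k)

/-- The index set of a level. -/
abbrev XX (L s g : ℕ) := Fin L → (Fin s → Fin g)

/-- The value of a tuple. -/
def VV {L s g : ℕ} (r : Fin L → Idx s g → ℕ) (x : XX L s g) : ℕ := bigV (fun l => val (r l)) x

/-- The product of all entries. -/
def rho {L s g : ℕ} (r : Fin L → Idx s g → ℕ) : ℕ := ∏ l, ∏ i, r l i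

lemma val_dvd {s g : ℕ} (r : Idx s g → ℕ) (σ : Fin s → Fin g) : val r σ ∣ ∏ i, r i := by
  classical
  have h1 : val r σ = ∏ i ∈ (univ : Finset (Fin s)).image (fun t => (t, σ t)), r i := by
    rw [prod_image]
    · rfl
    · intro a _ b _ hab
      exact (Prod.ext_iff.mp hab).1
  rw [h1]
  exact prod_dvd_prod_of_subset _ _ _ (subset_univ _)

lemma VV_dvd {L s g : ℕ} (r : Fin L → Idx s g → ℕ) (x : XX L s g) : VV r x ∣ rho r :=
  prod_dvd_prod_of_dvd _ _ (fun l _ => val_dvd (r l) (x l))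

lemma entry_dvd {L s g : ℕ} (r : Fin L → Idx s g → ℕ) (l : Fin L) (i : Idx s g) :
    r l i ∣ rho r :=
  (dvd_prod_of_mem (r l) (mem_univ i)).trans (dvd_prod_of_mem (fun l => ∏ i, r l i) (mem_univ l))

lemma icoll_eq_Coll {s g : ℕ} (u : ℕ) (r : Idx s g → ℕ) : icoll u (val r) = Coll u r := by
  classical
  unfold icoll Coll
  rw [univ_product_univ]
  congr 1
  ext p
  simp only [mem_filter, mem_univ, true_and]
  exact ZMod.natCast_eq_natCast_iff _ _ _

lemma ordz_mem (f Z N : ℕ) [NeZero f] (hfN : f ≤ N) (hfZ : ∀ p : ℕ, p.Prime → p ∣ f → Z < p)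
    (a : ZMod f) (ha : a ≠ 0) : ordz f a ∈ Ioc Z N := by
  have hf0 : 0 < f := Nat.pos_of_ne_zero (NeZero.ne f)
  set d := Nat.gcd a.val f with hd
  have hdf : d ∣ f := Nat.gcd_dvd_right _ _
  have hda : d ∣ a.val := Nat.gcd_dvd_left _ _
  have hdpos : 0 < d := Nat.gcd_pos_of_pos_right _ hf0
  have hval : a.val ≠ 0 := by
    intro h0
    exact ha ((ZMod.val_eq_zero a).mp h0)
  have hlt : a.val < f := ZMod.val_lt a
  have hdle : d ≤ a.val := Nat.le_of_dvd (Nat.pos_of_ne_zero hval) hda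
  have hu : ordz f a = f / d := rfl
  rw [hu]
  have hudvd : f / d ∣ f := Nat.div_dvd_of_dvd hdf
  have hune : f / d ≠ 1 := by
    intro h1
    have h2 : f = d := by
      have := Nat.mul_div_cancel' hdf
      rw [h1] at this
      omega
    omega
  have hu0 : f / d ≠ 0 := by
    intro h0
    rw [h0] at hudvd
    have := Nat.eq_zero_of_zero_dvd hudvd
    omega
  have hpr := Nat.minFac_prime hune
  have h3 := hfZ _ hpr ((Nat.minFac_dvd _).trans hudvd)
  have h4 := Nat.minFac_le (Nat.pos_of_ne_zero hu0)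
  refine mem_Ioc.mpr ⟨by omega, (Nat.le_of_dvd hf0 hudvd).trans hfN⟩

/-- The representation of every residue at one level. -/
theorem level_repr {L s g : ℕ} (hg : 0 < g) (r : Fin L → Idx s g → ℕ) (Z N f : ℕ) [NeZero f]
    (hZ : 2 ≤ Z) (hfN : f ≤ N) (hfZ : ∀ p : ℕ, p.Prime → p ∣ f → Z < p)
    (hcop : ∀ l i, Nat.Coprime (r l i) f) (hcopl : ∀ k, Nat.Coprime (lm k) f)
    (hflat : ∀ u ∈ Ioc Z N, (∀ l, Good u (r l)) →
      ∃ l, (Coll u (r l) : ℝ) * th u ^ 6 < ((g : ℝ) ^ s) ^ 2) (c : ZMod f) :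
    ∃ p : Fin 12 → XX L s g × XX L s g, ∑ k, ((lm k : ℕ) : ZMod f) *
      ((VV r (p k).1 * VV r (p k).2 : ℕ) : ZMod f) = c := by
  classical
  haveI : NeZero g := ⟨by omega⟩
  have hf0 : 0 < f := Nat.pos_of_ne_zero (NeZero.ne f)
  set h : XX L s g × XX L s g → ZMod f := fun z => ((VV r z.1 * VV r z.2 : ℕ) : ZMod f) with hh
  set β : ZMod f → ℝ := fun a => 1 / th (ordz f a) ^ 2 with hβ
  have hmem : ∀ a : ZMod f, a ≠ 0 → ordz f a ∈ Ioc Z N := fun a ha => ordz_mem f Z N hfN hfZ a ha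
  have hordpos : ∀ a : ZMod f, a ≠ 0 → 0 < ordz f a := by
    intro a ha
    have := (mem_Ioc.mp (hmem a ha)).1
    omega
  have hβ0 : ∀ a, 0 ≤ β a := fun a => by
    simp only [hβ]
    positivity
  have hsum : ∑ a ∈ (univ : Finset (ZMod f)).erase 0, β a ^ 12 < 1 := by
    have h1 := sum_ordz_lt f Z N hZ hmem
    refine lt_of_le_of_lt (le_of_eq ?_) h1
    refine sum_congr rfl (fun a ha => ?_)
    have ha0 : a ≠ 0 := (mem_erase.mp ha).1
    simp only [hβ]
    have hp := th_pow (ordz f a)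
    have hth := th_pos (hordpos a ha0)
    rw [← hp]
    field_simp
  have hF : ∀ a : ZMod f, a ≠ 0 → ∀ k : Fin 12,
      ‖iSum f h (((lm k : ℕ) : ZMod f) * a)‖ ≤
        (Fintype.card (XX L s g × XX L s g) : ℝ) * β a := by
    intro a ha k
    have huIoc := hmem a ha
    set u := ordz f a with hu
    have hupos : 0 < u := hordpos a ha
    haveI : NeZero u := ⟨by omega⟩
    have huR : (0 : ℝ) < u := by exact_mod_cast hupos
    set d := Nat.gcd a.val f with hd
    have hdf : d ∣ f := Nat.gcd_dvd_right _ _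
    have hda : d ∣ a.val := Nat.gcd_dvd_left _ _
    have hdpos : 0 < d := Nat.gcd_pos_of_pos_right _ hf0
    have hfd : f = d * u := (Nat.mul_div_cancel' hdf).symm
    obtain ⟨α, hα⟩ := hda
    have hudvd : u ∣ f := ⟨d, by rw [hfd]; ring⟩
    have hαcop : Nat.Coprime α u := by
      have h1 := Nat.coprime_div_gcd_div_gcd (m := a.val) (n := f) hdpos
      have h2 : a.val / Nat.gcd a.val f = α := by
        rw [← hd, hα]
        exact Nat.mul_div_cancel_left _ hdpos
      rw [h2] at h1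
      exact h1
    have hlmcop : Nat.Coprime (lm k) u := Nat.Coprime.coprime_dvd_right hudvd (hcopl k)
    have hgood : ∀ l, Good u (r l) := fun l i => Nat.Coprime.coprime_dvd_right hudvd (hcop l i)
    obtain ⟨l₀, hl₀⟩ := hflat u huIoc hgood
    set c' : ZMod u := ((α * lm k : ℕ) : ZMod u) with hc'
    have hunit : IsUnit c' := by
      rw [hc', ZMod.isUnit_iff_coprime]
      exact Nat.Coprime.mul_left hαcop hlmcop
    set G : ℝ := (g : ℝ) ^ s with hG
    have hgR : (0 : ℝ) < g := by exact_mod_cast hg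
    have hGpos : 0 < G := by
      rw [hG]
      positivity
    have hθ := th_pos hupos
    have hv : ∀ (l : Fin L) (y : Fin s → Fin g), Nat.Coprime (val (r l) y) u :=
      fun l y => Nat.Coprime.prod_left (fun t _ => hgood l _)
    have hbound := exp_level_u u c' hunit (fun l => val (r l)) hv l₀ (G ^ 2 / th u ^ 2)
      (by positivity) (by
        rw [icoll_eq_Coll]
        have h1 : (Coll u (r l₀) : ℝ) ≤ G ^ 2 / th u ^ 6 := by
          rw [le_div_iff₀ (by positivity)]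
          exact hl₀.le
        have h2 : (0 : ℝ) ≤ Coll u (r l₀) := by positivity
        calc (u : ℝ) * (Coll u (r l₀) : ℝ) * (Coll u (r l₀) : ℝ)
            ≤ (u : ℝ) * (G ^ 2 / th u ^ 6) * (G ^ 2 / th u ^ 6) := by
              apply mul_le_mul _ h1 h2 (by positivity)
              exact mul_le_mul_of_nonneg_left h1 huR.le
          _ = (G ^ 2 / th u ^ 2) ^ 2 := by
              rw [← th_pow u]
              field_simp)
    -- rewriting the exponential sum
    have hrew : iSum f h (((lm k : ℕ) : ZMod f) * a) = ∑ x : XX L s g, ∑ y : XX L s g,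
        (ZMod.stdAddChar (c' * ((bigV (fun l => val (r l)) x * bigV (fun l => val (r l)) y : ℕ) : ZMod u)) : ℂ) := by
      unfold iSum
      rw [Fintype.sum_prod_type]
      refine sum_congr rfl (fun x _ => sum_congr rfl (fun y _ => ?_))
      simp only [hh, VV]
      set n := bigV (fun l => val (r l)) x * bigV (fun l => val (r l)) y with hn
      have h1 : ((lm k : ℕ) : ZMod f) * a * ((n : ℕ) : ZMod f) = a * ((lm k * n : ℕ) : ZMod f) := by
        push_cast
        ring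
      rw [h1, char_ordz f a d u α hfd hα]
      congr 1
      rw [hc']
      push_cast
      ring
    rw [hrew]
    have hcardY : (Fintype.card (Fin s → Fin g) : ℝ) = G := by
      rw [Fintype.card_fun, Fintype.card_fin, Fintype.card_fin, hG]
      push_cast
      rfl
    rw [hcardY] at hbound
    have hcardX : (Fintype.card (XX L s g × XX L s g) : ℝ) = (Fintype.card (XX L s g) : ℝ) ^ 2 := by
      rw [Fintype.card_prod]
      push_cast
      ring
    rw [hcardX]
    simp only [hβ]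
    have hG2 : 0 < G ^ 2 := by positivity
    refine le_of_mul_le_mul_left ?_ hG2
    refine hbound.trans (le_of_eq ?_)
    rw [hu]
    field_simp
  haveI : Nonempty (XX L s g × XX L s g) := inferInstance
  obtain ⟨p, hp⟩ := cover12 f h (fun k => ((lm k : ℕ) : ZMod f)) β hβ0 hF hsum c
  exact ⟨p, hp⟩

lemma val_le {s g : ℕ} (r : Idx s g → ℕ) (B : ℕ) (hr : ∀ i, r i ≤ B) (σ : Fin s → Fin g) :
    val r σ ≤ B ^ s := by
  calc val r σ ≤ ∏ _t : Fin s, B := prod_le_prod' (fun t _ => hr _)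
    _ = B ^ s := by simp

lemma VV_le {L s g : ℕ} (r : Fin L → Idx s g → ℕ) (B : ℕ) (hr : ∀ l i, r l i ≤ B) (x : XX L s g) :
    VV r x ≤ (B ^ s) ^ L := by
  unfold VV bigV
  calc ∏ l, val (r l) (x l) ≤ ∏ _l : Fin L, B ^ s := prod_le_prod' (fun l _ => val_le (r l) B (hr l) (x l))
    _ = (B ^ s) ^ L := by simp

lemma rho_le {L s g : ℕ} (r : Fin L → Idx s g → ℕ) (B : ℕ) (hr : ∀ l i, r l i ≤ B) :
    rho r ≤ B ^ (L * (s * g)) := by
  calc rho r ≤ ∏ _l : Fin L, ∏ _i : Idx s g, B :=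
        prod_le_prod' (fun l _ => prod_le_prod' (fun i _ => hr l i))
    _ = B ^ (L * (s * g)) := by
        simp [Fintype.card_prod, ← pow_mul]
        ring_nf

lemma coprime_lm_val {L s g : ℕ} (r : Fin L → Idx s g → ℕ) (hr : ∀ l i, (r l i).Prime ∧ 43 < r l i)
    (k : Fin 12) (x : XX L s g) : Nat.Coprime (lm k) (VV r x) := by
  unfold VV bigV
  apply Nat.Coprime.prod_right
  intro l _
  apply Nat.Coprime.prod_right
  intro t _
  have h1 := hr l (t, x l t)
  rw [Nat.coprime_primes (lm_prime k) h1.1]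
  have := lm_le k
  omega

/-- Cover at one level. -/
theorem level_cover {L s g : ℕ} (hg : 0 < g) (r : Fin L → Idx s g → ℕ) (Z N f Wid B b : ℕ)
    (hZ : 2 ≤ Z) (hf1 : 1 < f) (hfN : f ≤ N) (hfZ : ∀ p : ℕ, p.Prime → p ∣ f → Z < p)
    (hr : ∀ l i, (r l i).Prime ∧ 43 < r l i) (hB : B = 2 ^ b) (hrB : ∀ l i, r l i ≤ B)
    (hWid : 6 + 2 * (L * (s * b)) ≤ Wid)
    (hflat : ∀ u ∈ Ioc Z N, (∀ l, Good u (r l)) →
      ∃ l, (Coll u (r l) : ℝ) * th u ^ 6 < ((g : ℝ) ^ s) ^ 2)
    (hcop : Nat.Coprime f (Lam * rho r ^ 2)) : Cover (Lam * rho r ^ 2) f Wid := by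
  classical
  intro c
  haveI : NeZero f := ⟨by omega⟩
  have hcop1 : ∀ l i, Nat.Coprime (r l i) f := by
    intro l i
    apply Nat.Coprime.symm
    apply Nat.Coprime.coprime_dvd_right _ hcop
    exact (entry_dvd r l i).trans ((dvd_pow_self _ (by norm_num)).trans (dvd_mul_left _ _))
  have hcop2 : ∀ k, Nat.Coprime (lm k) f := by
    intro k
    apply Nat.Coprime.symm
    apply Nat.Coprime.coprime_dvd_right _ hcop
    exact (lm_dvd k).trans (dvd_mul_right _ _)
  obtain ⟨p, hp⟩ := level_repr hg r Z N f hZ hfN hfZ hcop1 hcop2 hflat ((c : ℕ) : ZMod f)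
  set t : Fin 12 → ℕ := fun k => lm k * (VV r (p k).1 * VV r (p k).2) with ht
  have hinj : Function.Injective t := by
    intro k k' hkk
    have h1 : lm k ∣ t k' := by
      rw [← hkk]
      exact dvd_mul_right _ _
    have h2 : Nat.Coprime (lm k) (VV r (p k').1 * VV r (p k').2) :=
      Nat.Coprime.mul_right (coprime_lm_val r hr k _) (coprime_lm_val r hr k _)
    have h3 : lm k ∣ lm k' := h2.dvd_of_dvd_mul_right h1
    exact lm_inj ((Nat.prime_dvd_prime_iff_eq (lm_prime k) (lm_prime k')).mp h3)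
  refine ⟨univ.image t, ?_, ?_, ?_⟩
  · rw [card_image_of_injective _ hinj]
    simp
  · intro w hw
    obtain ⟨k, _, rfl⟩ := mem_image.mp hw
    have hdvd : t k ∣ Lam * rho r ^ 2 := by
      simp only [ht]
      rw [sq]
      exact mul_dvd_mul (lm_dvd k) (mul_dvd_mul (VV_dvd r _) (VV_dvd r _))
    refine ⟨hdvd, ?_, ?_⟩
    · have h1 : lm k < 2 ^ 6 := by
        have := lm_le k
        norm_num
        omega
      have h2 : ∀ x : XX L s g, VV r x ≤ 2 ^ (L * (s * b)) := by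
        intro x
        have h3 := VV_le r B hrB x
        rw [hB, ← pow_mul, ← pow_mul] at h3
        refine h3.trans (le_of_eq ?_)
        congr 1
        ring
      have h3 : t k < 2 ^ 6 * (2 ^ (L * (s * b)) * 2 ^ (L * (s * b))) := by
        simp only [ht]
        apply Nat.mul_lt_mul_of_lt_of_le h1 (Nat.mul_le_mul (h2 _) (h2 _)) (by positivity)
      have h4 : 2 ^ 6 * (2 ^ (L * (s * b)) * 2 ^ (L * (s * b))) = 2 ^ (6 + 2 * (L * (s * b))) := by
        rw [← pow_add, ← pow_add]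
        congr 1
        ring
      rw [h4] at h3
      exact h3.trans_le (Nat.pow_le_pow_right (by norm_num) hWid)
    · exact Nat.Coprime.symm (Nat.Coprime.coprime_dvd_right hdvd hcop)
  · rw [sum_image (fun a _ b _ h => hinj h)]
    have h1 : (((∑ k, t k : ℕ)) : ZMod f) = ((c : ℕ) : ZMod f) := by
      rw [← hp]
      push_cast
      simp only [ht]
      refine sum_congr rfl (fun k _ => ?_)
      push_cast
      ring
    exact (ZMod.natCast_eq_natCast_iff' _ _ _).mp h1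

/-- Existence of a flat level. -/
theorem level_exists (s g v₁ Z Cap : ℕ) (hv₁ : 1 ≤ v₁) (hg : 0 < g)
    (hZ : (4 * (32 * v₁)) ^ 8 ≤ Z) (hG : 2 * 2 ^ Cap ≤ g ^ s)
    (hsmall : 2 * s * g * (Cap + 1) ≤ (cand (8 * v₁) ∅).card)
    (hv : 2 * (Cap + 1) * (32 * v₁) ≤ 2 ^ v₁) :
    ∃ r : Fin 32 → Idx s g → ℕ, (∀ l i, r l i ∈ cand (8 * v₁) ∅) ∧
      ∀ u ∈ Ioc Z (2 ^ Cap), (∀ l, Good u (r l)) →
        ∃ l, (Coll u (r l) : ℝ) * th u ^ 6 < ((g : ℝ) ^ s) ^ 2 := by
  have hZ4 : 4 ^ 8 ≤ Z := by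
    refine le_trans (Nat.pow_le_pow_left ?_ 8) hZ
    omega
  have hZ2 : 2 ≤ Z := by
    norm_num at hZ4
    omega
  have hPoolLarge := pool_large (8 * v₁) (by omega)
  have hPoolPos : 0 < (cand (8 * v₁) ∅).card := by
    by_contra h0
    have h1 : (cand (8 * v₁) ∅).card = 0 := by omega
    rw [h1] at hPoolLarge
    have : 0 < 16 ^ (8 * v₁) := by positivity
    omega
  have hgR : (0 : ℝ) < g := by exact_mod_cast hg
  apply level_blocks (cand (8 * v₁) ∅) (card_pos.mp hPoolPos) Z (2 ^ Cap) hZ2 _ (by positivity)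
  · intro u hu
    have h1 := mem_Ioc.mp hu
    exact havg s g v₁ u Cap hv₁ hg (hZ.trans h1.1.le) h1.2
      ((Nat.mul_le_mul_left 2 h1.2).trans hG) hsmall hv
  · intro u hu
    have h1 := mem_Ioc.mp hu
    have hupos : 0 < u := by omega
    apply le_th hupos _ (by norm_num)
    have h2 : 4 ^ 8 ≤ u := by omega
    exact_mod_cast h2

/-- A complete level. -/
theorem level_complete (s g v₁ Z Cap Wid : ℕ) (hv₁ : 1 ≤ v₁) (hg : 0 < g)
    (hZ : (4 * (32 * v₁)) ^ 8 ≤ Z) (hG : 2 * 2 ^ Cap ≤ g ^ s)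
    (hsmall : 2 * s * g * (Cap + 1) ≤ (cand (8 * v₁) ∅).card)
    (hv : 2 * (Cap + 1) * (32 * v₁) ≤ 2 ^ v₁)
    (hWid : 6 + 2 * (32 * (s * (32 * v₁))) ≤ Wid) :
    ∃ ρ : ℕ, 0 < ρ ∧ ρ ≤ 2 ^ (32 * v₁ * (32 * (s * g))) ∧
      (∀ p : ℕ, p.Prime → p ∣ ρ → 4 ^ (8 * v₁) < p) ∧
      ∀ f : ℕ, 1 < f → f ≤ 2 ^ Cap → (∀ p : ℕ, p.Prime → p ∣ f → Z < p) →
        Nat.Coprime f (Lam * ρ ^ 2) → Cover (Lam * ρ ^ 2) f Wid := by
  classical
  obtain ⟨r, hr, hflat⟩ := level_exists s g v₁ Z Cap hv₁ hg hZ hG hsmall hv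
  have hentry : ∀ l i, (r l i).Prime ∧ 4 ^ (8 * v₁) < r l i ∧ r l i < 16 ^ (8 * v₁) :=
    fun l i => cand_prime_lt _ (by omega) _ (hr l i)
  have hB : (16 : ℕ) ^ (8 * v₁) = 2 ^ (32 * v₁) := by
    rw [show 32 * v₁ = 4 * (8 * v₁) by ring, pow_mul 2 4]
    norm_num
  have h43 : 43 < 4 ^ (8 * v₁) := by
    calc 43 < 4 ^ 8 := by norm_num
      _ ≤ 4 ^ (8 * v₁) := Nat.pow_le_pow_right (by norm_num) (by omega)
  have hZ4 : 2 ≤ Z := by
    have h1 : 4 ^ 8 ≤ Z := by
      refine le_trans (Nat.pow_le_pow_left ?_ 8) hZ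
      omega
    norm_num at h1
    omega
  refine ⟨rho r, ?_, ?_, ?_, ?_⟩
  · exact prod_pos (fun l _ => prod_pos (fun i _ => (hentry l i).1.pos))
  · have h1 := rho_le r (2 ^ (32 * v₁)) (fun l i => by
      rw [← hB]
      exact (hentry l i).2.2.le)
    rw [← pow_mul] at h1
    exact h1
  · intro p hp hdvd
    obtain ⟨l, _, h1⟩ := (Prime.dvd_finsetProd_iff hp.prime _).mp hdvd
    obtain ⟨i, _, h2⟩ := (Prime.dvd_finsetProd_iff hp.prime _).mp h1
    have h3 := (Nat.prime_dvd_prime_iff_eq hp (hentry l i).1).mp h2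
    rw [h3]
    exact (hentry l i).2.1
  · intro f hf1 hfN hfZ hcop
    exact level_cover hg r Z (2 ^ Cap) f Wid (2 ^ (32 * v₁)) (32 * v₁) hZ4 hf1 hfN hfZ
      (fun l i => ⟨(hentry l i).1, by have := (hentry l i).2.1; omega⟩) rfl
      (fun l i => by
        rw [← hB]
        exact (hentry l i).2.2.le) hWid hflat hcop

end

end Vale.Agent.helper7.Eg
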