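import Vale.Agent.helper7.Eg.Clearing

open Finset

namespace Vale.Agent.helper7.Eg

open Vale.Agent.Egypt

lemma Rep.mono {q : ℚ} {k k' : ℕ} (h : Rep q k) (hk : k ≤ k') : Rep q k' := by
  obtain ⟨F, h1, h2, h3⟩ := h
  exact ⟨F, h1, h2, h3.trans hk⟩

lemma rep_zero : Rep 0 0 := ⟨∅, by simp, by simp, by simp⟩

lemma Rep.step {x : ℚ} {k n : ℕ} (h : Rep x k) (hn : 0 < n) (hx : x < 1 / (n : ℚ)) :
    Rep (x + 1 / (n : ℚ)) (k + 1) := by
  classical
  obtain ⟨F, hpos, hsum, hcard⟩ := h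
  have hnF : n ∉ F := by
    intro hnF
    have h1 : (1 : ℚ) / n ≤ ∑ m ∈ F, (1 : ℚ) / m :=
      Finset.single_le_sum (f := fun m : ℕ => (1 : ℚ) / m) (fun i _ => by positivity) hnF
    rw [hsum] at h1
    exact absurd hx (not_lt.mpr h1)
  refine ⟨insert n F, ?_, ?_, ?_⟩
  · intro m hm
    rcases mem_insert.mp hm with rfl | hm
    · exact hn
    · exact hpos m hm
  · rw [sum_insert hnF, hsum, add_comm]
  · rw [card_insert_of_notMem hnF]
    omega

lemma exists_ceil (a w : ℕ) (ha : 0 < a) (hw : 0 < w) : ∃ q, a * q < w ∧ w ≤ a * (q + 1) := by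
  refine ⟨(w - 1) / a, ?_, ?_⟩
  · have h1 := Nat.div_mul_le_self (w - 1) a
    have h2 : a * ((w - 1) / a) ≤ w - 1 := by
      rw [mul_comm]
      exact h1
    omega
  · have h1 := Nat.div_add_mod (w - 1) a
    have h2 := Nat.mod_lt (w - 1) ha
    rw [mul_add, mul_one]
    omega

lemma greedy_step (a c : ℕ) (ha : 1 ≤ a) (hac : a < c) :
    ∃ n a', 2 ≤ n ∧ a' < a ∧ a' + c = a * n ∧ a * (n - 1) < c := by
  obtain ⟨q, h1, h2⟩ := exists_ceil a c (by omega) (by omega)
  refine ⟨q + 1, a * (q + 1) - c, ?_, ?_, ?_, ?_⟩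
  · by_contra h
    have hq : q = 0 := by omega
    subst hq
    simp at h2
    omega
  · rw [mul_add, mul_one] at h2 ⊢
    omega
  · omega
  · simpa using h1

lemma rep_of_step {a c n a' k : ℕ} (hc : 0 < c) (hn : 0 < n) (h : a' + c = a * n) (hlt : a' < c)
    (hr : Rep ((a' : ℚ) / ((c * n : ℕ) : ℚ)) k) : Rep ((a : ℚ) / c) (k + 1) := by
  have hc' : (0 : ℚ) < c := by exact_mod_cast hc
  have hn' : (0 : ℚ) < n := by exact_mod_cast hn
  have hid : (a : ℚ) / c = (a' : ℚ) / ((c * n : ℕ) : ℚ) + 1 / (n : ℚ) := by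
    have h' : (a' : ℚ) + c = a * n := by exact_mod_cast h
    push_cast
    field_simp
    linarith
  rw [hid]
  apply hr.step hn
  have hlt' : (a' : ℚ) < c := by exact_mod_cast hlt
  push_cast
  rw [div_lt_div_iff₀ (by positivity) hn']
  nlinarith

theorem greedy_core (E : ℕ) : ∀ (g m a c : ℕ), 1 ≤ m → 1 ≤ a → 2 ^ m * a ≤ c → E + 1 ≤ m * 2 ^ g →
    ∃ s a' c' : ℕ, s ≤ g ∧ 0 < c' ∧ c' ≤ c * (2 ^ (E + 1)) ^ s ∧
      (a' = 0 ∨ (1 ≤ a' ∧ 2 ^ (E + 1) * a' ≤ c')) ∧
      ∀ k, Rep ((a' : ℚ) / c') k → Rep ((a : ℚ) / c) (k + s) := by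
  intro g
  induction g with
  | zero =>
    intro m a c hm ha h hE
    have h2 : 0 < 2 ^ m * a := Nat.mul_pos (by positivity) ha
    refine ⟨0, a, c, le_refl _, by omega, by simp, Or.inr ⟨ha, ?_⟩, fun k hk => hk⟩
    have h3 : 2 ^ (E + 1) ≤ 2 ^ m := Nat.pow_le_pow_right (by norm_num) (by simpa using hE)
    exact (Nat.mul_le_mul_right a h3).trans h
  | succ g ih =>
    intro m a c hm ha h hE
    have h2 : 0 < 2 ^ m * a := Nat.mul_pos (by positivity) ha
    by_cases hstop : 2 ^ (E + 1) * a ≤ c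
    · exact ⟨0, a, c, by omega, by omega, by simp, Or.inr ⟨ha, hstop⟩, fun k hk => hk⟩
    · push Not at hstop
      have hm2 : 2 ≤ 2 ^ m := by
        calc 2 = 2 ^ 1 := by norm_num
          _ ≤ 2 ^ m := Nat.pow_le_pow_right (by norm_num) hm
      have hac : a < c := by
        have : 2 * a ≤ 2 ^ m * a := Nat.mul_le_mul_right a hm2
        omega
      have hcpos : 0 < c := by omega
      obtain ⟨n, a1, hn2, ha1, hid, hlt⟩ := greedy_step a c ha hac
      have hnpos : 0 < n := by omega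
      have hnm : 2 ^ m ≤ n := by
        have h3 : 2 ^ m * a ≤ n * a := by
          calc 2 ^ m * a ≤ c := h
            _ ≤ a * n := by omega
            _ = n * a := mul_comm _ _
        exact Nat.le_of_mul_le_mul_right h3 (by omega)
      have hnE : n ≤ 2 ^ (E + 1) := by
        have h3 : (n - 1) * a < 2 ^ (E + 1) * a := by
          calc (n - 1) * a = a * (n - 1) := mul_comm _ _
            _ < c := hlt
            _ < 2 ^ (E + 1) * a := hstop
        have h4 : n - 1 < 2 ^ (E + 1) := Nat.lt_of_mul_lt_mul_right h3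
        omega
      rcases Nat.eq_zero_or_pos a1 with h0 | h1
      · subst h0
        refine ⟨1, 0, c * n, by omega, Nat.mul_pos hcpos hnpos, ?_, Or.inl rfl, ?_⟩
        · rw [pow_one]
          exact Nat.mul_le_mul_left c hnE
        · intro k hk
          exact rep_of_step hcpos hnpos hid (by omega) (by simpa using hk)
      · have hlevel : 2 ^ (2 * m) * a1 ≤ c * n := by
          calc 2 ^ (2 * m) * a1 = 2 ^ m * (2 ^ m * a1) := by
                rw [two_mul, pow_add, mul_assoc]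
            _ ≤ 2 ^ m * (2 ^ m * a) :=
                Nat.mul_le_mul_left _ (Nat.mul_le_mul_left _ ha1.le)
            _ ≤ 2 ^ m * c := Nat.mul_le_mul_left _ h
            _ ≤ n * c := Nat.mul_le_mul_right _ hnm
            _ = c * n := mul_comm _ _
        have hE' : E + 1 ≤ 2 * m * 2 ^ g := by
          calc E + 1 ≤ m * 2 ^ (g + 1) := hE
            _ = 2 * m * 2 ^ g := by rw [pow_succ]; ring
        obtain ⟨s, a', c', hs, hc'pos, hc'le, hdisj, hrep⟩ :=
          ih (2 * m) a1 (c * n) (by omega) h1 hlevel hE'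
        refine ⟨s + 1, a', c', by omega, hc'pos, ?_, hdisj, ?_⟩
        · calc c' ≤ c * n * (2 ^ (E + 1)) ^ s := hc'le
            _ ≤ c * 2 ^ (E + 1) * (2 ^ (E + 1)) ^ s :=
                Nat.mul_le_mul_right _ (Nat.mul_le_mul_left _ hnE)
            _ = c * (2 ^ (E + 1)) ^ (s + 1) := by rw [pow_succ]; ring
        · intro k hk
          have h3 := hrep k hk
          exact rep_of_step hcpos hnpos hid (by omega) h3

theorem greedy_start (E G a b : ℕ) (ha : 1 ≤ a) (hab : a < b) (hG : E + 1 ≤ 2 ^ G) :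
    ∃ s a' c' : ℕ, s ≤ G + 1 ∧ 0 < c' ∧ c' ≤ b * (2 ^ (E + 1)) ^ s ∧
      (a' = 0 ∨ (1 ≤ a' ∧ 2 ^ (E + 1) * a' ≤ c')) ∧
      ∀ k, Rep ((a' : ℚ) / c') k → Rep ((a : ℚ) / b) (k + s) := by
  have hbpos : 0 < b := by omega
  by_cases hstop : 2 ^ (E + 1) * a ≤ b
  · exact ⟨0, a, b, by omega, hbpos, by simp, Or.inr ⟨ha, hstop⟩, fun k hk => hk⟩
  · push Not at hstop
    obtain ⟨n, a1, hn2, ha1, hid, hlt⟩ := greedy_step a b ha hab
    have hnpos : 0 < n := by omega
    have hnE : n ≤ 2 ^ (E + 1) := by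
      have h3 : (n - 1) * a < 2 ^ (E + 1) * a := by
        calc (n - 1) * a = a * (n - 1) := mul_comm _ _
          _ < b := hlt
          _ < 2 ^ (E + 1) * a := hstop
      have h4 : n - 1 < 2 ^ (E + 1) := Nat.lt_of_mul_lt_mul_right h3
      omega
    rcases Nat.eq_zero_or_pos a1 with h0 | h1
    · subst h0
      refine ⟨1, 0, b * n, by omega, Nat.mul_pos hbpos hnpos, ?_, Or.inl rfl, ?_⟩
      · rw [pow_one]
        exact Nat.mul_le_mul_left b hnE
      · intro k hk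
        exact rep_of_step hbpos hnpos hid (by omega) (by simpa using hk)
    · have hlevel : 2 ^ 1 * a1 ≤ b * n := by
        have h3 : b * 2 ≤ b * n := Nat.mul_le_mul_left b hn2
        omega
      obtain ⟨s, a', c', hs, hc'pos, hc'le, hdisj, hrep⟩ :=
        greedy_core E G 1 a1 (b * n) (le_refl _) h1 hlevel (by simpa using hG)
      refine ⟨s + 1, a', c', by omega, hc'pos, ?_, hdisj, ?_⟩
      · calc c' ≤ b * n * (2 ^ (E + 1)) ^ s := hc'le
          _ ≤ b * 2 ^ (E + 1) * (2 ^ (E + 1)) ^ s :=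
              Nat.mul_le_mul_right _ (Nat.mul_le_mul_left _ hnE)
          _ = b * (2 ^ (E + 1)) ^ (s + 1) := by rw [pow_succ]; ring
      · intro k hk
        have h3 := hrep k hk
        exact rep_of_step hbpos hnpos hid (by omega) h3

lemma normalise (a c E : ℕ) (ha : 1 ≤ a) (h : 2 ^ (E + 1) * a ≤ c) :
    ∃ e, c ≤ 2 ^ e * a ∧ 2 ^ e * a < 2 * c := by
  classical
  have hex : ∃ e, c ≤ 2 ^ e * a := by
    refine ⟨c, ?_⟩
    have h1 : c < 2 ^ c := Nat.lt_two_pow_self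
    have h2 : 2 ^ c * 1 ≤ 2 ^ c * a := Nat.mul_le_mul_left _ ha
    omega
  refine ⟨Nat.find hex, Nat.find_spec hex, ?_⟩
  obtain hz | hp := Nat.eq_zero_or_pos (Nat.find hex)
  · have h1 := Nat.find_spec hex
    rw [hz] at h1 ⊢
    simp only [pow_zero, one_mul] at h1 ⊢
    have h2 : 2 ^ 1 * a ≤ 2 ^ (E + 1) * a :=
      Nat.mul_le_mul_right a (Nat.pow_le_pow_right (by norm_num) (by omega))
    omega
  · have hmin := Nat.find_min hex (m := Nat.find hex - 1) (by omega)
    push Not at hmin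
    have h1 : 2 ^ Nat.find hex = 2 * 2 ^ (Nat.find hex - 1) := by
      rw [← pow_succ']
      congr 1
      omega
    rw [h1, mul_assoc]
    omega

/-- Every real `A / K` in the range `[lo, B]` is within a factor two below a divisor of `B`. -/
def DenseDiv (B lo : ℕ) : Prop :=
  ∀ A K : ℕ, 0 < K → lo * K ≤ A → A ≤ B * K → ∃ w, w ∣ B ∧ A ≤ w * K ∧ w * K < 2 * A

lemma dense_base (e lo : ℕ) (hlo : 0 < lo) : DenseDiv (2 ^ e * lo) lo := by
  classical
  intro A K hK h1 h2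
  have hex : ∃ i, A ≤ 2 ^ i * lo * K := ⟨e, h2⟩
  have hle : Nat.find hex ≤ e := Nat.find_min' hex h2
  have hspec := Nat.find_spec hex
  refine ⟨2 ^ Nat.find hex * lo, Nat.mul_dvd_mul_right (pow_dvd_pow 2 hle) lo, hspec, ?_⟩
  obtain hz | hp := Nat.eq_zero_or_pos (Nat.find hex)
  · rw [hz] at hspec ⊢
    have h3 : 0 < lo * K := Nat.mul_pos hlo hK
    simp only [pow_zero, one_mul] at hspec ⊢
    omega
  · have hmin := Nat.find_min hex (m := Nat.find hex - 1) (by omega)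
    push Not at hmin
    have h3 : 2 ^ Nat.find hex = 2 * 2 ^ (Nat.find hex - 1) := by
      rw [← pow_succ']
      congr 1
      omega
    rw [h3, mul_assoc, mul_assoc]
    rw [mul_assoc] at hmin
    omega

lemma dense_step {B lo f : ℕ} (hf : 0 < f) (h : DenseDiv B lo) (hle : f * lo ≤ B) :
    DenseDiv (B * f) lo := by
  intro A K hK h1 h2
  by_cases hA : A ≤ B * K
  · obtain ⟨w, hw, hw1, hw2⟩ := h A K hK h1 hA
    exact ⟨w, Dvd.dvd.mul_right hw f, hw1, hw2⟩
  · push Not at hA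
    have h3 : lo * (K * f) ≤ A := by
      calc lo * (K * f) = f * lo * K := by ring
        _ ≤ B * K := Nat.mul_le_mul_right K hle
        _ ≤ A := hA.le
    have h4 : A ≤ B * (K * f) := by
      calc A ≤ B * f * K := h2
        _ = B * (K * f) := by ring
    obtain ⟨w, hw, hw1, hw2⟩ := h A (K * f) (Nat.mul_pos hK hf) h3 h4
    refine ⟨w * f, Nat.mul_dvd_mul_right hw f, ?_, ?_⟩
    · calc A ≤ w * (K * f) := hw1
        _ = w * f * K := by ring
    · calc w * f * K = w * (K * f) := by ring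
        _ < 2 * A := hw2

lemma coprime_candidate (D M Nb f0 : ℕ) (hD : 0 < D) (hM : 0 < M)
    (hprimes : ∀ p : ℕ, p.Prime → p ∣ D → p ∣ M ∨ Nb < p)
    (hcard : D.primeFactors.card ≤ Nb) (hf0 : f0 % M = 1 % M) :
    ∃ m, m ≤ Nb ∧ Nat.Coprime (f0 + m * M) D := by
  classical
  by_contra hcon
  push Not at hcon
  have hbad : ∀ m ∈ Finset.range (Nb + 1), ∃ p, p ∈ D.primeFactors ∧ p ∣ f0 + m * M := by
    intro m hm
    have hm' : m ≤ Nb := by
      have := Finset.mem_range.mp hm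
      omega
    have h := hcon m hm'
    obtain ⟨p, hp, hp1, hp2⟩ := Nat.Prime.not_coprime_iff_dvd.mp h
    exact ⟨p, Nat.mem_primeFactors.mpr ⟨hp, hp2, hD.ne'⟩, hp1⟩
  choose! g hg1 hg2 using hbad
  have hcardlt : D.primeFactors.card < (Finset.range (Nb + 1)).card := by
    rw [Finset.card_range]
    omega
  obtain ⟨m1, hm1, m2, hm2, hne, heq⟩ :=
    Finset.exists_ne_map_eq_of_card_lt_of_maps_to hcardlt hg1
  have hp : (g m1).Prime := Nat.prime_of_mem_primeFactors (hg1 m1 hm1)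
  have hpD : g m1 ∣ D := Nat.dvd_of_mem_primeFactors (hg1 m1 hm1)
  have h1 : g m1 ∣ f0 + m1 * M := hg2 m1 hm1
  have h2 : g m1 ∣ f0 + m2 * M := heq ▸ hg2 m2 hm2
  have hnotM : ¬ g m1 ∣ M := by
    intro hpM
    have hf0p : g m1 ∣ f0 := (Nat.dvd_add_left (Dvd.dvd.mul_left hpM m1)).mp h1
    have h3 : f0 ≡ 1 [MOD M] := hf0
    have h4 : f0 ≡ 1 [MOD g m1] := h3.of_dvd hpM
    have h5 : f0 % g m1 = 0 := Nat.mod_eq_zero_of_dvd hf0p
    have h6 : 1 % g m1 = 1 := Nat.mod_eq_of_lt hp.one_lt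
    have h7 : f0 % g m1 = 1 % g m1 := h4
    omega
  have hNb : Nb < g m1 := (hprimes _ hp hpD).resolve_left hnotM
  have hm1' : m1 ≤ Nb := by
    have := Finset.mem_range.mp hm1
    omega
  have hm2' : m2 ≤ Nb := by
    have := Finset.mem_range.mp hm2
    omega
  have key : ∀ x y : ℕ, x < y → y ≤ Nb → g m1 ∣ f0 + x * M → g m1 ∣ f0 + y * M → False := by
    intro x y hxy hy hx' hy'
    have h3 : g m1 ∣ (f0 + y * M) - (f0 + x * M) := Nat.dvd_sub hy' hx'
    have h4 : (f0 + y * M) - (f0 + x * M) = (y - x) * M := by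
      rw [Nat.sub_mul]
      have : x * M ≤ y * M := Nat.mul_le_mul_right M hxy.le
      omega
    rw [h4] at h3
    have h5 : g m1 ∣ y - x := (hp.dvd_mul.mp h3).resolve_right hnotM
    have h6 := Nat.le_of_dvd (by omega) h5
    omega
  rcases lt_or_gt_of_ne hne with hlt | hgt
  · exact key m1 m2 hlt hm2' h1 h2
  · exact key m2 m1 hgt hm1' h2 h1

theorem slot_step (D M Nb F E lo a B : ℕ) (hD : 0 < D) (hM : 0 < M)
    (hprimes : ∀ p : ℕ, p.Prime → p ∣ D → p ∣ M ∨ Nb < p)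
    (hcard : D.primeFactors.card ≤ Nb)
    (hF : M * (Nb + 2) + 1 ≤ 2 ^ F) (hFE : F + 3 ≤ E)
    (ha : lo ≤ a) (hlo : 0 < lo) (hB : a * 2 ^ (E + 1) ≤ B) (hdense : DenseDiv B lo) :
    ∃ f a' : ℕ, 2 ^ (F + 1) ≤ f ∧ f < 2 ^ (F + 3) ∧ f % M = 1 % M ∧ Nat.Coprime f D ∧
      lo ≤ a' ∧ a' ≤ a * (M * (Nb + 2)) ∧ a' * 2 ^ (E + 1) ≤ B * f ∧ DenseDiv (B * f) lo ∧
      ∀ k, Rep ((a' : ℚ) / ((B * f : ℕ) : ℚ)) k → Rep ((a : ℚ) / B) (k + 1) := by
  have hapos : 0 < a := by omega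
  have h2F : 2 ^ (F + 1) = 2 * 2 ^ F := pow_succ' 2 F
  have h3F : 2 ^ (F + 3) = 8 * 2 ^ F := by rw [pow_add]; ring
  have hFE' : 2 ^ (F + 1) ≤ 2 ^ (E + 1) := Nat.pow_le_pow_right (by norm_num) (by omega)
  have hFE3 : 2 ^ (F + 3) ≤ 2 ^ (E + 1) := Nat.pow_le_pow_right (by norm_num) (by omega)
  have hFpos : 0 < 2 ^ F := by positivity
  have hBF : a * 2 ^ (F + 1) ≤ B := (Nat.mul_le_mul_left a hFE').trans hB
  have hBpos : 0 < B := by
    have : 0 < a * 2 ^ (F + 1) := Nat.mul_pos hapos (by positivity)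
    omega
  have hlo1 : lo * 1 ≤ a * 2 ^ (F + 1) := by
    calc lo * 1 = lo := mul_one _
      _ ≤ a := ha
      _ = a * 1 := (mul_one _).symm
      _ ≤ a * 2 ^ (F + 1) := Nat.mul_le_mul_left a (by omega)
  obtain ⟨w, hwB, hw1, hw2⟩ := hdense (a * 2 ^ (F + 1)) 1 (by norm_num) hlo1 (by simpa using hBF)
  simp only [mul_one] at hw1 hw2
  have hwpos : 0 < w := by
    have : 0 < a * 2 ^ (F + 1) := Nat.mul_pos hapos (by positivity)
    omega
  obtain ⟨q, hq1, hq2⟩ := exists_ceil a w hapos hwpos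
  have hf0mod : (M * ((q + 1 + M + M - 2) / M) + 1) % M = 1 % M := Nat.mul_add_mod _ _ _
  have hdiv := Nat.div_add_mod (q + 1 + M + M - 2) M
  have hmodlt := Nat.mod_lt (q + 1 + M + M - 2) hM
  obtain ⟨m, hm, hcop⟩ := coprime_candidate D M Nb _ hD hM hprimes hcard hf0mod
  have hmM : m * M ≤ Nb * M := Nat.mul_le_mul_right M hm
  have hNbM : M * (Nb + 2) = Nb * M + 2 * M := by ring
  obtain ⟨f, hf⟩ : ∃ f, f = M * ((q + 1 + M + M - 2) / M) + 1 + m * M := ⟨_, rfl⟩
  rw [← hf] at hcop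
  have hfmod : f % M = 1 % M := by
    rw [hf, Nat.add_mul_mod_self_right]
    exact hf0mod
  have hf1 : q + 1 + M ≤ f := by omega
  have hf2 : f ≤ q + M * (Nb + 2) := by omega
  have hafl : w + a * M ≤ a * f := by
    calc w + a * M ≤ a * (q + 1) + a * M := Nat.add_le_add_right hq2 _
      _ = a * (q + 1 + M) := by ring
      _ ≤ a * f := Nat.mul_le_mul_left a hf1
  have hafu : a * f < w + a * (M * (Nb + 2)) := by
    calc a * f ≤ a * (q + M * (Nb + 2)) := Nat.mul_le_mul_left a hf2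
      _ = a * q + a * (M * (Nb + 2)) := by ring
      _ < w + a * (M * (Nb + 2)) := Nat.add_lt_add_right hq1 _
  have haM : a ≤ a * M := Nat.le_mul_of_pos_right a hM
  obtain ⟨a', ha'⟩ : ∃ a', a' + w = a * f := ⟨a * f - w, by omega⟩
  have ha'1 : a * M ≤ a' := by omega
  have ha'2 : a' < a * (M * (Nb + 2)) := by omega
  have hfF : 2 ^ (F + 1) ≤ f := by
    apply Nat.le_of_mul_le_mul_left _ hapos
    omega
  have hM2F : M * (Nb + 2) < 2 ^ F := by omega
  have hfF3 : f < 2 ^ (F + 3) := by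
    have h1 : a * f < a * (2 * 2 ^ (F + 1) + M * (Nb + 2)) := by
      calc a * f < w + a * (M * (Nb + 2)) := hafu
        _ < 2 * (a * 2 ^ (F + 1)) + a * (M * (Nb + 2)) := Nat.add_lt_add_right hw2 _
        _ = a * (2 * 2 ^ (F + 1) + M * (Nb + 2)) := by ring
    have h2 := Nat.lt_of_mul_lt_mul_left h1
    omega
  have hfpos : 0 < f := by omega
  have ha'w : a' < w := by
    have h1 : a * (M * (Nb + 2)) ≤ a * 2 ^ (F + 1) := Nat.mul_le_mul_left a (by omega)
    omega
  refine ⟨f, a', hfF, hfF3, hfmod, hcop, by omega, ha'2.le, ?_, ?_, ?_⟩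
  · calc a' * 2 ^ (E + 1) ≤ (a * (M * (Nb + 2))) * 2 ^ (E + 1) :=
          Nat.mul_le_mul_right _ ha'2.le
      _ = (a * 2 ^ (E + 1)) * (M * (Nb + 2)) := by ring
      _ ≤ B * (M * (Nb + 2)) := Nat.mul_le_mul_right _ hB
      _ ≤ B * f := Nat.mul_le_mul_left B (by omega)
  · apply dense_step hfpos hdense
    calc f * lo ≤ 2 ^ (E + 1) * a := Nat.mul_le_mul (by omega) ha
      _ = a * 2 ^ (E + 1) := mul_comm _ _
      _ ≤ B := hB
  · intro k hk
    obtain ⟨u, hu⟩ := hwB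
    have hupos : 0 < u := by
      rcases Nat.eq_zero_or_pos u with h | h
      · subst h
        simp at hu
        omega
      · exact h
    have hw' : (0 : ℚ) < w := by exact_mod_cast hwpos
    have hu' : (0 : ℚ) < u := by exact_mod_cast hupos
    have hf' : (0 : ℚ) < f := by exact_mod_cast hfpos
    have hid : (a : ℚ) / B = (a' : ℚ) / ((B * f : ℕ) : ℚ) + 1 / ((u * f : ℕ) : ℚ) := by
      have h' : (a' : ℚ) + w = a * f := by exact_mod_cast ha'
      rw [hu]
      push_cast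
      field_simp
      linarith
    rw [hid]
    apply hk.step (Nat.mul_pos hupos hfpos)
    have hlt' : (a' : ℚ) < w := by exact_mod_cast ha'w
    rw [hu]
    push_cast
    rw [div_lt_div_iff₀ (by positivity) (by positivity)]
    have h5 : (0 : ℚ) < u * f := by positivity
    nlinarith [mul_lt_mul_of_pos_right hlt' h5]

/-- Each digit has the width of its slot and is at least as large as the slot demands. -/
abbrev DigitRel (d s : ℕ × ℕ) : Prop := d.2 = s.2 ∧ 2 ^ (s.1 + 1) ≤ d.1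

theorem slots_run (D M Nb E lo : ℕ) (hD : 0 < D) (hM : 0 < M)
    (hprimes : ∀ p : ℕ, p.Prime → p ∣ D → p ∣ M ∨ Nb < p)
    (hcard : D.primeFactors.card ≤ Nb) (hlo : 0 < lo) :
    ∀ (slots : List (ℕ × ℕ)) (a B : ℕ),
      (∀ s ∈ slots, ∀ f : ℕ, 2 ^ (s.1 + 1) ≤ f → f < 2 ^ (s.1 + 3) → f % M = 1 % M →
        Nat.Coprime f D → Cover D f s.2) →
      (∀ s ∈ slots, M * (Nb + 2) + 1 ≤ 2 ^ s.1 ∧ s.1 + 3 ≤ E) →
      lo ≤ a → a * 2 ^ (E + 1) ≤ B → DenseDiv B lo →
      ∃ (digits : List (ℕ × ℕ)) (a' : ℕ),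
        List.Forall₂ DigitRel digits slots ∧
        (∀ d ∈ digits, 1 < d.1 ∧ Cover D d.1 d.2) ∧
        lo ≤ a' ∧ a' ≤ a * (M * (Nb + 2)) ^ slots.length ∧
        ∀ k, Rep ((a' : ℚ) / ((B * (digits.map Prod.fst).prod : ℕ) : ℚ)) k →
          Rep ((a : ℚ) / B) (k + slots.length) := by
  intro slots
  induction slots with
  | nil =>
    intro a B _ _ ha _ _
    refine ⟨[], a, List.Forall₂.nil, by simp, ha, by simp, ?_⟩
    intro k hk
    simpa using hk
  | cons s rest ih =>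
    intro a B hcov hsz ha hB hdense
    obtain ⟨F, W⟩ := s
    have hsz0 := hsz (F, W) (List.mem_cons_self)
    obtain ⟨f, a1, hf1, hf2, hfmod, hfcop, ha1, ha1u, hB1, hdense1, hrep1⟩ :=
      slot_step D M Nb F E lo a B hD hM hprimes hcard hsz0.1 hsz0.2 ha hlo hB hdense
    obtain ⟨digits, a', hrel, hdig, hlo', hup, hrep⟩ :=
      ih a1 (B * f) (fun s hs => hcov s (List.mem_cons_of_mem _ hs))
        (fun s hs => hsz s (List.mem_cons_of_mem _ hs)) ha1 hB1 hdense1
    refine ⟨(f, W) :: digits, a', List.Forall₂.cons ⟨rfl, hf1⟩ hrel, ?_, hlo', ?_, ?_⟩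
    · intro d hd
      rcases List.mem_cons.mp hd with rfl | hd
      · constructor
        · have h1 : 2 ^ 1 ≤ 2 ^ (F + 1) := Nat.pow_le_pow_right (by norm_num) (by omega)
          simp only
          omega
        · exact hcov (F, W) List.mem_cons_self f hf1 hf2 hfmod hfcop
      · exact hdig d hd
    · calc a' ≤ a1 * (M * (Nb + 2)) ^ rest.length := hup
        _ ≤ (a * (M * (Nb + 2))) * (M * (Nb + 2)) ^ rest.length := Nat.mul_le_mul_right _ ha1u
        _ = a * (M * (Nb + 2)) ^ ((F, W) :: rest).length := by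
            rw [List.length_cons, pow_succ]
            ring
    · intro k hk
      have h1 : B * ((f, W) :: digits |>.map Prod.fst).prod
          = B * f * (digits.map Prod.fst).prod := by
        simp only [List.map_cons, List.prod_cons]
        ring
      rw [h1] at hk
      have h2 := hrep k hk
      have h3 := hrep1 _ h2
      rw [List.length_cons]
      exact h3

lemma prod_ge (digits slots : List (ℕ × ℕ)) (h : List.Forall₂ DigitRel digits slots) :
    2 ^ (slots.map (fun x => x.1 + 1)).sum ≤ (digits.map Prod.fst).prod := by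
  induction h with
  | nil => simp
  | cons hd _ ih =>
    simp only [List.map_cons, List.sum_cons, List.prod_cons, pow_add (2 : ℕ)] at ih ⊢
    exact Nat.mul_le_mul (by simpa [pow_add] using hd.2) ih

lemma low_le (Wend : ℕ) (digits slots : List (ℕ × ℕ)) (h : List.Forall₂ DigitRel digits slots) :
    WidthOK Wend slots →
      Low digits ≤ 12 * slots.length * 2 ^ Wend * (digits.map Prod.fst).prod := by
  induction h with
  | nil => simp [Low]
  | @cons d s l1 l2 hd hrest ih =>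
    intro hw
    obtain ⟨f, W⟩ := d
    obtain ⟨F, W'⟩ := s
    obtain ⟨hdW, hdf⟩ := hd
    simp only at hdW hdf
    subst hdW
    have ih' := ih hw.2
    have hW : W ≤ Wend + (l2.map (fun x => x.1 + 1)).sum := hw.1
    have hP := prod_ge l1 l2 hrest
    have h1 : 2 ^ W ≤ 2 ^ Wend * (l1.map Prod.fst).prod := by
      calc 2 ^ W ≤ 2 ^ (Wend + (l2.map (fun x => x.1 + 1)).sum) :=
            Nat.pow_le_pow_right (by norm_num) hW
        _ = 2 ^ Wend * 2 ^ (l2.map (fun x => x.1 + 1)).sum := pow_add _ _ _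
        _ ≤ 2 ^ Wend * (l1.map Prod.fst).prod := Nat.mul_le_mul_left _ hP
    have hf1 : 1 ≤ f := by
      have : 0 < 2 ^ (F + 1) := by positivity
      omega
    simp only [Low, List.map_cons, List.prod_cons, List.length_cons]
    obtain ⟨X, hX⟩ : ∃ X, X = 2 ^ Wend * (l1.map Prod.fst).prod := ⟨_, rfl⟩
    have h2 : 12 * l2.length * 2 ^ Wend * (l1.map Prod.fst).prod = 12 * l2.length * X := by
      rw [hX]
      ring
    have h3 : 12 * (l2.length + 1) * 2 ^ Wend * (f * (l1.map Prod.fst).prod)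
        = 12 * (l2.length + 1) * f * X := by
      rw [hX]
      ring
    rw [h2] at ih'
    rw [h3]
    rw [← hX] at h1
    calc 12 * 2 ^ W + f * Low l1 ≤ 12 * X + f * (12 * l2.length * X) :=
          Nat.add_le_add (Nat.mul_le_mul_left _ h1) (Nat.mul_le_mul_left _ ih')
      _ ≤ 12 * (l2.length + 1) * f * X := by
          have h4 : X ≤ f * X := Nat.le_mul_of_pos_left X hf1
          nlinarith

/-- The arithmetic scheme: abstract statement. -/
theorem scheme (a b : ℕ) (ha : 1 ≤ a) (hab : a < b)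
    (D M Nb H₁ t₁ Wend E G : ℕ) (slots : List (ℕ × ℕ))
    (hD : 0 < D) (hM : 0 < M)
    (hprimes : ∀ p : ℕ, p.Prime → p ∣ D → p ∣ M ∨ Nb < p)
    (hcard : D.primeFactors.card ≤ Nb)
    (hcover : ∀ s ∈ slots, ∀ f : ℕ, 2 ^ (s.1 + 1) ≤ f → f < 2 ^ (s.1 + 3) → f % M = 1 % M →
      Nat.Coprime f D → Cover D f s.2)
    (hsize : ∀ s ∈ slots, M * (Nb + 2) + 1 ≤ 2 ^ s.1 ∧ s.1 + 3 ≤ E)
    (hwidth : WidthOK Wend slots)
    (hsums : Sums H₁ t₁) (hH₁ : 24 * slots.length * 2 ^ Wend ≤ H₁)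
    (hG : E + 1 ≤ 2 ^ G)
    (hbig : 4 * b * (2 ^ (E + 1) + 1) ^ (G + 1) * (M * (Nb + 2) + 1) ^ slots.length * D * 2 ≤
      2 ^ (slots.map (fun x => x.1 + 1)).sum) :
    Rep ((a : ℚ) / b) (G + 1 + 13 * slots.length + t₁) := by
  obtain ⟨s, a', c', hs, hcpos, hcle, hdisj, hrep⟩ := greedy_start E G a b ha hab hG
  rcases hdisj with h0 | ⟨ha', hratio⟩
  · subst h0
    have h1 : Rep (((0 : ℕ) : ℚ) / c') 0 := by simpa using rep_zero
    exact (hrep 0 h1).mono (by omega)
  · obtain ⟨e, he1, he2⟩ := normalise a' c' E ha' hratio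
    have hB0 : (2 ^ e * a') * 2 ^ (E + 1) ≤ 2 ^ e * c' := by
      calc (2 ^ e * a') * 2 ^ (E + 1) = 2 ^ e * (2 ^ (E + 1) * a') := by ring
        _ ≤ 2 ^ e * c' := Nat.mul_le_mul_left _ hratio
    obtain ⟨digits, aT, hrel, hdig, hloT, hupT, hrepT⟩ :=
      slots_run D M Nb E c' hD hM hprimes hcard hcpos slots (2 ^ e * a') (2 ^ e * c')
        hcover hsize he1 hB0 (dense_base e c' hcpos)
    have hlen : digits.length = slots.length := hrel.length_eq
    have hPge := prod_ge _ _ hrel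
    have hLow := low_le Wend digits slots hrel hwidth
    obtain ⟨P, hP⟩ : ∃ P, P = (digits.map Prod.fst).prod := ⟨_, rfl⟩
    rw [← hP] at hPge hLow hrepT
    obtain ⟨T, hT⟩ : ∃ T, T = slots.length := ⟨_, rfl⟩
    rw [← hT] at hbig hH₁ hLow hupT hrepT ⊢
    obtain ⟨M2, hM2⟩ : ∃ M2, M2 = M * (Nb + 2) := ⟨_, rfl⟩
    rw [← hM2] at hbig hupT
    have hbpos : 0 < b := by omega
    have hM21 : 0 < M2 := by
      rw [hM2]
      exact Nat.mul_pos hM (by omega)
    -- the bound on `c'`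
    have hc2 : c' ≤ b * (2 ^ (E + 1) + 1) ^ (G + 1) := by
      calc c' ≤ b * (2 ^ (E + 1)) ^ s := hcle
        _ ≤ b * (2 ^ (E + 1) + 1) ^ s :=
            Nat.mul_le_mul_left _ (Nat.pow_le_pow_left (Nat.le_succ _) _)
        _ ≤ b * (2 ^ (E + 1) + 1) ^ (G + 1) :=
            Nat.mul_le_mul_left _ (Nat.pow_le_pow_right (Nat.succ_pos _) hs)
    have hbig2 : 4 * c' * (M2 + 1) ^ T * D * 2 ≤ P := by
      refine le_trans ?_ (hbig.trans hPge)
      have h1 : 4 * c' ≤ 4 * b * (2 ^ (E + 1) + 1) ^ (G + 1) := by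
        calc 4 * c' ≤ 4 * (b * (2 ^ (E + 1) + 1) ^ (G + 1)) := Nat.mul_le_mul_left _ hc2
          _ = 4 * b * (2 ^ (E + 1) + 1) ^ (G + 1) := by ring
      exact Nat.mul_le_mul_right _ (Nat.mul_le_mul_right _ (Nat.mul_le_mul_right _ h1))
    have hPpos : 0 < P := by
      have : 0 < 4 * c' * (M2 + 1) ^ T * D * 2 :=
        Nat.mul_pos (Nat.mul_pos (Nat.mul_pos (Nat.mul_pos (by norm_num) hcpos) (by positivity)) hD)
          (by norm_num)
      omega
    have hH₁pos : 0 < H₁ := by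
      by_contra hH
      have hH0 : H₁ = 0 := by omega
      have hT0 : T = 0 := by
        by_contra hTne
        have h1 : 0 < 24 * T * 2 ^ Wend := Nat.mul_pos (by omega) (by positivity)
        omega
      have hsl : slots = [] := List.eq_nil_of_length_eq_zero (by omega)
      subst hsl
      have h1 : 0 < 4 * b * (2 ^ (E + 1) + 1) ^ (G + 1) * (M2 + 1) ^ T * D :=
        Nat.mul_pos (Nat.mul_pos (Nat.mul_pos (Nat.mul_pos (by norm_num) hbpos) (by positivity))
          (by positivity)) hD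
      simp only [List.map_nil, List.sum_nil, pow_zero] at hbig
      omega
    -- the upper bound on the numerator
    have haT : aT < 2 * c' * (M2 + 1) ^ T := by
      have hpow : M2 ^ T ≤ (M2 + 1) ^ T := Nat.pow_le_pow_left (by omega) _
      have hppos : 0 < M2 ^ T := by positivity
      calc aT ≤ 2 ^ e * a' * M2 ^ T := hupT
        _ < 2 * c' * M2 ^ T := Nat.mul_lt_mul_of_pos_right he2 hppos
        _ ≤ 2 * c' * (M2 + 1) ^ T := Nat.mul_le_mul_left _ hpow
    have haTpos : 0 < aT := by omega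
    obtain ⟨Y, hY⟩ : ∃ Y, Y = 2 * c' * (M2 + 1) ^ T * D := ⟨_, rfl⟩
    have hY1 : aT * D ≤ Y := by
      rw [hY]
      exact Nat.mul_le_mul_right _ haT.le
    have hY2 : 4 * Y ≤ P := by
      refine le_trans (le_of_eq ?_) hbig2
      rw [hY]
      ring
    have hQ : 2 * (aT * D) ≤ P := by omega
    obtain ⟨Q0, hQ0⟩ : ∃ Q0, Q0 = aT * D * H₁ := ⟨_, rfl⟩
    have hQ0pos : 0 < Q0 := by
      rw [hQ0]
      exact Nat.mul_pos (Nat.mul_pos haTpos hD) hH₁pos
    obtain ⟨m', hm'⟩ : ∃ m', m' = Low digits / Q0 + 1 := ⟨_, rfl⟩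
    have hm'pos : 0 < m' := by
      rw [hm']
      exact Nat.succ_pos _
    have hA1 : Low digits ≤ Q0 * m' := by
      have h1 := Nat.div_add_mod (Low digits) Q0
      have h2 := Nat.mod_lt (Low digits) hQ0pos
      rw [hm', mul_add, mul_one]
      generalize Q0 * (Low digits / Q0) = X at h1 ⊢
      generalize Low digits % Q0 = Y' at h1 h2
      omega
    have hA2 : Q0 * m' ≤ Low digits + Q0 := by
      have h1 : Q0 * (Low digits / Q0) ≤ Low digits := Nat.mul_div_le _ _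
      rw [hm', mul_add, mul_one]
      generalize Q0 * (Low digits / Q0) = X at h1 ⊢
      omega
    have hA3 : Q0 * m' < H₁ * P := by
      have h1 : 2 * Low digits ≤ H₁ * P := by
        calc 2 * Low digits ≤ 2 * (12 * T * 2 ^ Wend * P) := Nat.mul_le_mul_left _ hLow
          _ = 24 * T * 2 ^ Wend * P := by ring
          _ ≤ H₁ * P := Nat.mul_le_mul_right _ hH₁
      have h2 : 2 * Q0 ≤ H₁ * P := by
        calc 2 * Q0 = H₁ * (2 * (aT * D)) := by rw [hQ0]; ring
          _ ≤ H₁ * P := Nat.mul_le_mul_left _ hQ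
      have h3 : 2 * (2 * Q0) ≤ H₁ * P := by
        have h4 : 2 * (2 * (aT * D)) ≤ P := by omega
        calc 2 * (2 * Q0) = H₁ * (2 * (2 * (aT * D))) := by rw [hQ0]; ring
          _ ≤ H₁ * P := Nat.mul_le_mul_left _ h4
      have h4 : 0 < H₁ * P := Nat.mul_pos hH₁pos hPpos
      omega
    obtain ⟨BB, hBB⟩ : ∃ BB, BB = 2 ^ e * c' * D * H₁ * m' := ⟨_, rfl⟩
    have hBBpos : 0 < BB := by
      rw [hBB]
      exact Nat.mul_pos (Nat.mul_pos (Nat.mul_pos (Nat.mul_pos (by positivity) hcpos) hD) hH₁pos)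
        hm'pos
    have hDBB : D ∣ BB := by
      rw [hBB]
      exact Dvd.dvd.mul_right (Dvd.dvd.mul_right (Dvd.intro_left _ rfl) _) _
    have hHBB : H₁ ∣ BB := by
      rw [hBB]
      exact Dvd.dvd.mul_right (Dvd.intro_left _ rfl) _
    obtain ⟨F, hF1, hF2, hF3⟩ := clearing D H₁ t₁ hD hH₁pos hsums digits hdig (Q0 * m') BB hBBpos
      hDBB hHBB hA1 (by rw [← hP]; exact hA3)
    rw [← hP] at hF1 hF2
    have hRepEnd : Rep ((aT : ℚ) / ((2 ^ e * c' * P : ℕ) : ℚ)) (12 * T + t₁) := by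
      refine ⟨F, fun n hn => (hF1 n hn).1, ?_, ?_⟩
      · rw [hF2, hBB, hQ0]
        have hc' : (c' : ℚ) ≠ 0 := by exact_mod_cast hcpos.ne'
        have hD' : (D : ℚ) ≠ 0 := by exact_mod_cast hD.ne'
        have hH' : (H₁ : ℚ) ≠ 0 := by exact_mod_cast hH₁pos.ne'
        have hm2 : (m' : ℚ) ≠ 0 := by exact_mod_cast hm'pos.ne'
        have hP' : (P : ℚ) ≠ 0 := by exact_mod_cast hPpos.ne'
        push_cast
        field_simp
      · rw [hlen, ← hT] at hF3
        exact hF3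
    have h1 := hrepT _ hRepEnd
    have h2 : ((2 ^ e * a' : ℕ) : ℚ) / ((2 ^ e * c' : ℕ) : ℚ) = (a' : ℚ) / c' := by
      have hc' : (c' : ℚ) ≠ 0 := by exact_mod_cast hcpos.ne'
      push_cast
      field_simp
    rw [h2] at h1
    exact (hrep _ h1).mono (by omega)

end Vale.Agent.helper7.Eg
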