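import Vale.Agent.helper7.Eg.Slots
import Vale.Agent.helper7.Eg.Scheme
import Mathlib.NumberTheory.Primorial

open Finset

namespace Vale.Agent.helper7.Eg

open Vale.Agent.Egypt

lemma four_pow_eq (n : ℕ) : (4 : ℕ) ^ n = 2 ^ (2 * n) := by
  rw [pow_mul]
  norm_num

lemma card_primeFactors_le_of_le (D B : ℕ) (hD : 0 < D) (h : D ≤ 2 ^ B) : D.primeFactors.card ≤ B := by
  have h1 : 2 ^ D.primeFactors.card ≤ ∏ p ∈ D.primeFactors, p := by
    calc 2 ^ D.primeFactors.card = ∏ _p ∈ D.primeFactors, 2 := by simp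
      _ ≤ ∏ p ∈ D.primeFactors, p :=
          prod_le_prod' (fun p hp => (Nat.prime_of_mem_primeFactors hp).two_le)
  have h2 : ∏ p ∈ D.primeFactors, p ≤ D :=
    Nat.le_of_dvd hD (Nat.prod_primeFactors_dvd D)
  have h3 := (h1.trans h2).trans h
  exact (Nat.pow_le_pow_iff_right (by norm_num)).mp h3

lemma prime_dvd_primorial (Z p : ℕ) (hp : p.Prime) (h : p ≤ Z) : p ∣ primorial Z := by
  unfold primorial
  apply dvd_prod_of_mem (fun p => p)
  simp only [mem_filter, mem_range]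
  exact ⟨by omega, hp⟩

lemma primes_large_of_mod (Z f : ℕ) (hf : f % primorial Z = 1 % primorial Z) (p : ℕ) (hp : p.Prime)
    (hdvd : p ∣ f) : Z < p := by
  by_contra hcon
  push Not at hcon
  have h1 := prime_dvd_primorial Z p hp hcon
  have h2 : f ≡ 1 [MOD primorial Z] := hf
  have h3 : f ≡ 1 [MOD p] := h2.of_dvd h1
  have h4 : f % p = 0 := Nat.mod_eq_zero_of_dvd hdvd
  have h5 : 1 % p = 1 := Nat.mod_eq_of_lt hp.one_lt
  have h6 : f % p = 1 % p := h3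
  omega

lemma M_bound' (Z Y I : ℕ) (h : 2 * Z + I + 2 ≤ Y) (hI : 1 ≤ I) :
    primorial Z * (2 ^ I + 2) + 1 ≤ 2 ^ Y := by
  have h1 : primorial Z ≤ 2 ^ (2 * Z) := (primorial_le_four_pow Z).trans (le_of_eq (four_pow_eq Z))
  have hp : 0 < primorial Z := primorial_pos _
  have h2 : 2 ^ I + 2 ≤ 2 ^ (I + 1) := by
    have : 2 ≤ 2 ^ I := by
      calc 2 = 2 ^ 1 := by norm_num
        _ ≤ 2 ^ I := Nat.pow_le_pow_right (by norm_num) hI
    rw [pow_succ]
    omega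
  have h3 : primorial Z * (2 ^ I + 2) ≤ 2 ^ (2 * Z + I + 1) := by
    rw [add_assoc, pow_add]
    exact Nat.mul_le_mul h1 h2
  have hpos : 0 < primorial Z * (2 ^ I + 2) := Nat.mul_pos hp (by positivity)
  have h4 : primorial Z * (2 ^ I + 2) + 1 ≤ 2 ^ (2 * Z + I + 2) := by
    rw [show 2 * Z + I + 2 = (2 * Z + I + 1) + 1 by ring, pow_succ]
    omega
  exact h4.trans (Nat.pow_le_pow_right (by norm_num) h)

lemma self_le_pow2 (q : ℕ) (hq : 8 ≤ q) : 11 * q + 114 ≤ 2 ^ q := by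
  induction q, hq using Nat.le_induction with
  | base => norm_num
  | succ n hn ih =>
    rw [pow_succ]
    omega

lemma pow_split (I c : ℕ) (hc : c ≤ 14) (h : 14 ≤ I) : 2 ^ (I - c) = 2 ^ (14 - c) * 2 ^ (I - 14) := by
  rw [← pow_add]
  congr 1
  omega

lemma num_card (I : ℕ) (hI : 100 ≤ I) : 72 + (2 ^ (I - 1) + 2 ^ (I - 3)) ≤ 2 ^ I := by
  have h0 := pow_split I 0 (by norm_num) (by omega)
  have h1 := pow_split I 1 (by norm_num) (by omega)
  have h3 := pow_split I 3 (by norm_num) (by omega)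
  have h72 : 72 ≤ 2 ^ (I - 14) := by
    calc 72 ≤ 2 ^ 7 := by norm_num
      _ ≤ 2 ^ (I - 14) := Nat.pow_le_pow_right (by norm_num) (by omega)
  simp only [Nat.sub_zero] at h0
  rw [h0, h1, h3]
  norm_num
  omega

/-- Combining the factors of the main inequality. -/
lemma big_combine (b E G Mb T D x B₁ B₂ B₃ B₄ B₅ : ℕ)
    (hb : b ≤ 2 ^ B₁) (hE : (E + 2) * (G + 1) ≤ B₂) (hM : Mb ≤ 2 ^ B₃) (hT : B₃ * T ≤ B₄)
    (hD : D ≤ 2 ^ 72 * 2 ^ B₅) (hx : 2 + B₁ + B₂ + B₄ + 72 + B₅ + 1 ≤ x) :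
    4 * b * (2 ^ (E + 1) + 1) ^ (G + 1) * Mb ^ T * D * 2 ≤ 2 ^ x := by
  have h1 : (2 ^ (E + 1) + 1) ^ (G + 1) ≤ 2 ^ B₂ := by
    have h2 : 2 ^ (E + 1) + 1 ≤ 2 ^ (E + 2) := by
      have : 1 ≤ 2 ^ (E + 1) := Nat.one_le_two_pow
      rw [show E + 2 = (E + 1) + 1 by ring, pow_succ]
      omega
    calc (2 ^ (E + 1) + 1) ^ (G + 1) ≤ (2 ^ (E + 2)) ^ (G + 1) := Nat.pow_le_pow_left h2 _
      _ = 2 ^ ((E + 2) * (G + 1)) := (pow_mul _ _ _).symm
      _ ≤ 2 ^ B₂ := Nat.pow_le_pow_right (by norm_num) hE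
  have h3 : Mb ^ T ≤ 2 ^ B₄ := by
    calc Mb ^ T ≤ (2 ^ B₃) ^ T := Nat.pow_le_pow_left hM _
      _ = 2 ^ (B₃ * T) := (pow_mul _ _ _).symm
      _ ≤ 2 ^ B₄ := Nat.pow_le_pow_right (by norm_num) hT
  calc 4 * b * (2 ^ (E + 1) + 1) ^ (G + 1) * Mb ^ T * D * 2
      ≤ 4 * 2 ^ B₁ * 2 ^ B₂ * 2 ^ B₄ * (2 ^ 72 * 2 ^ B₅) * 2 := by gcongr
    _ = 2 ^ (2 + B₁ + B₂ + B₄ + 72 + B₅ + 1) := by
        simp only [pow_add]
        norm_num
        ring
    _ ≤ 2 ^ x := Nat.pow_le_pow_right (by norm_num) hx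

/-- The exponents in the main inequality. -/
lemma num_big (q I x W : ℕ) (hI : 11 * q + 114 ≤ I) (hW : W = 9 * q + 100)
    (hx : 2 ^ I ≤ x + 2 ^ W) :
    2 + 2 ^ (I - 4) + 2 ^ (I - 14) + 2 ^ (10 * q + 82) + 72 + (2 ^ (I - 1) + 2 ^ (I - 3)) + 1 ≤ x := by
  have h0 := pow_split I 0 (by norm_num) (by omega)
  have h1 := pow_split I 1 (by norm_num) (by omega)
  have h3 := pow_split I 3 (by norm_num) (by omega)
  have h4 := pow_split I 4 (by norm_num) (by omega)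
  simp only [Nat.sub_zero] at h0
  have h5 : 2 ^ (10 * q + 82) ≤ 2 ^ (I - 14) := Nat.pow_le_pow_right (by norm_num) (by omega)
  have h6 : 2 ^ W ≤ 2 ^ (I - 14) := Nat.pow_le_pow_right (by norm_num) (by omega)
  have h7 : 75 ≤ 2 ^ (I - 14) := by
    calc 75 ≤ 2 ^ 7 := by norm_num
      _ ≤ 2 ^ (I - 14) := Nat.pow_le_pow_right (by norm_num) (by omega)
  rw [h0] at hx
  rw [h1, h3, h4]
  norm_num at hx ⊢
  omega

lemma num_EG (q I : ℕ) (hI : I = 2 ^ q) (hq : 11 * q + 114 ≤ I) :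
    (2 ^ (I - q - 15) + 2) * ((I - q - 14) + 1) ≤ 2 ^ (I - 14) := by
  have h1 : 2 ≤ 2 ^ (I - q - 15) := by
    calc 2 = 2 ^ 1 := by norm_num
      _ ≤ 2 ^ (I - q - 15) := Nat.pow_le_pow_right (by norm_num) (by omega)
  have h2 : 2 ^ (I - q - 15) + 2 ≤ 2 ^ (I - q - 14) := by
    have : I - q - 14 = (I - q - 15) + 1 := by omega
    rw [this, pow_succ]
    omega
  have h3 : (I - q - 14) + 1 ≤ 2 ^ q := by omega
  calc (2 ^ (I - q - 15) + 2) * ((I - q - 14) + 1) ≤ 2 ^ (I - q - 14) * 2 ^ q :=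
        Nat.mul_le_mul h2 h3
    _ = 2 ^ (I - 14) := by
        rw [← pow_add]
        congr 1
        omega

lemma num_T (q T : ℕ) (hq : 8 ≤ q) (hT : T ≤ 2 ^ (q + 16) * (q + 2)) : T ≤ 2 ^ (2 * q + 16) := by
  have h1 : q + 2 ≤ 2 ^ q := by
    have := self_le_pow2 q hq
    omega
  refine hT.trans ?_
  calc 2 ^ (q + 16) * (q + 2) ≤ 2 ^ (q + 16) * 2 ^ q := Nat.mul_le_mul_left _ h1
    _ = 2 ^ (2 * q + 16) := by
        rw [← pow_add]
        congr 1
        ring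

lemma num_H (W T H₁ : ℕ) (q : ℕ) (hT : T ≤ 2 ^ (2 * q + 16)) (hW : 2 * q + 21 ≤ W)
    (hH : 2 ^ (2 * W) ≤ H₁) : 24 * T * 2 ^ W ≤ H₁ := by
  have h1 : 24 * T ≤ 2 ^ W := by
    calc 24 * T ≤ 2 ^ 5 * 2 ^ (2 * q + 16) := Nat.mul_le_mul (by norm_num) hT
      _ = 2 ^ (2 * q + 21) := by
          rw [← pow_add]
          congr 1
          ring
      _ ≤ 2 ^ W := Nat.pow_le_pow_right (by norm_num) hW
  calc 24 * T * 2 ^ W ≤ 2 ^ W * 2 ^ W := Nat.mul_le_mul_right _ h1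
    _ = 2 ^ (2 * W) := by
        rw [← pow_add]
        congr 1
        ring
    _ ≤ H₁ := hH

lemma num_size (q : ℕ) (Z Nb M c : ℕ) (hZ : Z = 2 ^ (8 * q + 64)) (hNb : Nb = 2 ^ (2 ^ q))
    (hM : M = primorial Z) (hq : 8 ≤ q) (hc : 2 ^ (8 * q + 86) ≤ c + 1) :
    M * (Nb + 2) + 1 ≤ 2 ^ (c - 3) := by
  subst hM hNb
  apply M_bound' Z (c - 3) (2 ^ q) _ Nat.one_le_two_pow
  have h1 : 2 ^ (8 * q + 86) = 2 ^ 22 * 2 ^ (8 * q + 64) := by
    rw [← pow_add]
    congr 1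
    ring
  have h2 : 2 ^ q ≤ 2 ^ (8 * q + 64) := Nat.pow_le_pow_right (by norm_num) (by omega)
  have h3 : 8 ≤ 2 ^ (8 * q + 64) := by
    calc 8 = 2 ^ 3 := by norm_num
      _ ≤ 2 ^ (8 * q + 64) := Nat.pow_le_pow_right (by norm_num) (by omega)
  rw [← hZ] at h1 h2 h3
  norm_num at h1
  omega

lemma two_mul_pow (W W' : ℕ) (h : W' = W + 1) : 2 ^ (2 * 2 ^ W) = 2 ^ (2 ^ W') := by
  subst h
  rw [pow_succ, mul_comm]

/-- The main representation. -/
theorem main_rep (e t₀ : ℕ) (hlev : ∀ ℓ, 7 ≤ ℓ → ∃ S : Finset ℕ, Vale.Agent.Egypt.Good ℓ S ∧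
      Sums (Mult e * ∏ p ∈ S, p) (t₀ + ℓ * (144 * ℓ + 432)))
    (q : ℕ) (hq : 8 ≤ q) (a b : ℕ) (ha : 1 ≤ a) (hab : a < b) (hb : b ≤ 2 ^ (2 ^ (2 ^ q - 4))) :
    Rep ((a : ℚ) / b) ((2 ^ q - q - 14) + 1 + 13 * (slotsUpTo q (nLev q)).length +
      (t₀ + (9 * q + 101) * (144 * (9 * q + 101) + 432))) := by
  have hself := self_le_pow q hq
  have hself2 := self_le_pow2 q hq
  obtain ⟨D, hD0, hDle, hDp, hDc⟩ := system q hq
  obtain ⟨S, hS, hSums⟩ := hlev (9 * q + 101) (by omega)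
  have hTle : (slotsUpTo q (nLev q)).length ≤ 2 ^ (q + 16) * (q + 2) := length_le q hq
  have hTle2 := num_T q _ hq hTle
  have hMb : primorial (2 ^ (8 * q + 64)) * (2 ^ (2 ^ q) + 2) + 1 ≤ 2 ^ (2 ^ (8 * q + 66)) := by
    apply M_bound' _ _ _ _ Nat.one_le_two_pow
    have h5 : 2 ^ (8 * q + 66) = 4 * 2 ^ (8 * q + 64) := by
      rw [pow_add, pow_add]
      ring
    have h6 : 2 ^ q ≤ 2 ^ (8 * q + 64) := Nat.pow_le_pow_right (by norm_num) (by omega)
    have h7 : 2 ≤ 2 ^ (8 * q + 64) := by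
      calc 2 = 2 ^ 1 := by norm_num
        _ ≤ 2 ^ (8 * q + 64) := Nat.pow_le_pow_right (by norm_num) (by omega)
    omega
  have hmain := scheme a b ha hab D (primorial (2 ^ (8 * q + 64))) (2 ^ (2 ^ q)) (Mult e * ∏ p ∈ S, p)
    (t₀ + (9 * q + 101) * (144 * (9 * q + 101) + 432)) (2 ^ (9 * q + 100)) (2 ^ (2 ^ q - q - 15))
    (2 ^ q - q - 14) (slotsUpTo q (nLev q)) hD0 (primorial_pos _) ?_ ?_ ?_ ?_ ?_ hSums ?_ ?_ ?_
  · exact hmain
  · -- the primes of `D`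
    intro p hp hdvd
    rcases hDp p hp hdvd with h | h
    · left
      apply prime_dvd_primorial _ _ hp
      refine h.trans ?_
      calc 43 ≤ 2 ^ 6 := by norm_num
        _ ≤ 2 ^ (8 * q + 64) := Nat.pow_le_pow_right (by norm_num) (by omega)
    · right
      refine lt_of_le_of_lt ?_ h
      refine le_trans ?_ (le_of_eq (four_pow_eq (2 ^ (q + 4))).symm)
      apply Nat.pow_le_pow_right (by norm_num)
      have h2 : 2 ^ (q + 4) = 16 * 2 ^ q := by
        rw [pow_add]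
        ring
      omega
  · -- number of primes
    apply card_primeFactors_le_of_le D _ hD0
    refine hDle.trans ?_
    rw [← pow_add]
    apply Nat.pow_le_pow_right (by norm_num)
    exact num_card _ (by omega)
  · -- the cover
    intro s hs f hf1 hf2 hfM hcop
    obtain ⟨i, hi, rfl⟩ := mem_slotsUpTo q _ s hs
    obtain ⟨e', _, he, _, _, hle⟩ := cap_large q i hq hi
    have h3 : 3 ≤ capL q i := by
      have : 8 ≤ 2 ^ e' := by
        calc 8 = 2 ^ 3 := by norm_num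
          _ ≤ 2 ^ e' := Nat.pow_le_pow_right (by norm_num) (by omega)
      omega
    simp only at hf1 hf2 ⊢
    have h4 : capL q i - 3 + 3 = capL q i := by omega
    rw [h4] at hf2
    have h5 : 1 < f := by
      have : 2 ≤ 2 ^ (capL q i - 3 + 1) := by
        calc 2 = 2 ^ 1 := by norm_num
          _ ≤ 2 ^ (capL q i - 3 + 1) := Nat.pow_le_pow_right (by norm_num) (by omega)
      omega
    exact hDc i hi f h5 hf2.le (primes_large_of_mod _ f hfM) hcop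
  · -- sizes
    intro s hs
    obtain ⟨i, hi, rfl⟩ := mem_slotsUpTo q _ s hs
    obtain ⟨e', hI, he, _, hcap, hle⟩ := cap_large q i hq hi
    have h8 : 2 ^ (8 * q + 86) ≤ 2 ^ e' := Nat.pow_le_pow_right (by norm_num) he
    have h3 : 3 ≤ capL q i := by
      have : 8 ≤ 2 ^ e' := by
        calc 8 = 2 ^ 3 := by norm_num
          _ ≤ 2 ^ e' := Nat.pow_le_pow_right (by norm_num) (by omega)
      omega
    refine ⟨num_size q _ _ _ (capL q i) rfl rfl rfl hq (h8.trans hle), ?_⟩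
    simp only
    have h4 : capL q i + 1 ≤ 2 ^ (2 ^ q - q - 15) := by
      rw [hcap]
      calc gam q i * 2 ^ e' ≤ 2 ^ i * 2 ^ e' := Nat.mul_le_mul_right _ (gam_le q i)
        _ = 2 ^ (2 ^ q - q - 15) := by
            rw [← pow_add]
            congr 1
            omega
    omega
  · -- width
    have h1 := width_slots q hq (nLev q) le_rfl
    have h2 : 2 ^ q - nLev q = 9 * q + 100 := by
      unfold nLev
      omega
    rw [h2] at h1
    exact h1
  · -- size of the modulus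
    apply num_H _ _ _ q hTle2
    · have : 9 * q + 100 < 2 ^ (9 * q + 100) := Nat.lt_two_pow_self
      omega
    · exact le_trans (le_of_eq (two_mul_pow _ _ (by ring))) (good_size e _ S hS)
  · -- `G`
    have h1 : 2 ^ q - q - 14 = (2 ^ q - q - 15) + 1 := by omega
    rw [h1, pow_succ]
    have : 1 ≤ 2 ^ (2 ^ q - q - 15) := Nat.one_le_two_pow
    omega
  · -- the main inequality
    have hsum := sum_slots q hq (nLev q) le_rfl
    have h2 : 2 ^ q - nLev q = 9 * q + 100 := by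
      unfold nLev
      omega
    rw [h2] at hsum
    apply big_combine b _ _ _ _ D _ (2 ^ (2 ^ q - 4)) (2 ^ (2 ^ q - 14)) (2 ^ (8 * q + 66))
      (2 ^ (10 * q + 82)) (2 ^ (2 ^ q - 1) + 2 ^ (2 ^ q - 3)) hb _ hMb _ hDle
    · exact num_big q _ _ _ hself2 rfl hsum
    · exact num_EG q _ rfl hself2
    · calc 2 ^ (8 * q + 66) * (slotsUpTo q (nLev q)).length
          ≤ 2 ^ (8 * q + 66) * 2 ^ (2 * q + 16) := Nat.mul_le_mul_left _ hTle2
        _ = 2 ^ (10 * q + 82) := by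
            rw [← pow_add]
            congr 1
            ring

/-- The representation with the final count. -/
theorem main_count : ∃ C₀ : ℕ, ∀ q : ℕ, 8 ≤ q → ∀ b a : ℕ, 1 ≤ a → a < b →
    b ≤ 2 ^ (2 ^ (2 ^ q - 4)) → Rep ((a : ℚ) / b) (C₀ * (2 ^ q * q)) := by
  obtain ⟨e, t₀, hlev⟩ := all_levels
  refine ⟨t₀ + 1774822, ?_⟩
  intro q hq b a ha hab hb
  obtain ⟨F, h1, h2, h3⟩ := main_rep e t₀ hlev q hq a b ha hab hb
  refine ⟨F, h1, h2, h3.trans ?_⟩
  have hTle : (slotsUpTo q (nLev q)).length ≤ 2 ^ (q + 16) * (q + 2) := length_le q hq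
  set P := 2 ^ q with hP
  have hq2 : q ≤ P := Nat.lt_two_pow_self.le
  have hP1 : 1 ≤ P := Nat.one_le_two_pow
  have h4 : 2 ^ (q + 16) = 65536 * P := by
    rw [pow_add]
    norm_num
    ring
  rw [h4] at hTle
  have h5 : P - q - 14 + 1 ≤ P * q := by
    have : P ≤ P * q := Nat.le_mul_of_pos_right _ (by omega)
    omega
  have h6 : 13 * (65536 * P * (q + 2)) ≤ 1703936 * (P * q) := by
    have : q + 2 ≤ 2 * q := by omega
    calc 13 * (65536 * P * (q + 2)) ≤ 13 * (65536 * P * (2 * q)) := by gcongr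
      _ = 1703936 * (P * q) := by ring
  have h7 : (9 * q + 101) * (144 * (9 * q + 101) + 432) ≤ 70884 * (P * q) := by
    have h8 : 9 * q + 101 ≤ 22 * q := by omega
    have h9 : 144 * (9 * q + 101) + 432 ≤ 3222 * q := by omega
    calc (9 * q + 101) * (144 * (9 * q + 101) + 432) ≤ (22 * q) * (3222 * q) := Nat.mul_le_mul h8 h9
      _ = 70884 * (q * q) := by ring
      _ ≤ 70884 * (P * q) := by gcongr
  have h10 : t₀ ≤ t₀ * (P * q) := Nat.le_mul_of_pos_right _ (Nat.mul_pos (by omega) (by omega))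
  have h11 : 13 * (slotsUpTo q (nLev q)).length ≤ 13 * (65536 * P * (q + 2)) :=
    Nat.mul_le_mul_left _ hTle
  calc P - q - 14 + 1 + 13 * (slotsUpTo q (nLev q)).length + (t₀ + (9 * q + 101) * (144 * (9 * q + 101) + 432))
      ≤ P * q + 1703936 * (P * q) + (t₀ * (P * q) + 70884 * (P * q)) := by
        have := h11.trans h6
        omega
    _ ≤ (t₀ + 1774822) * (P * q) := by nlinarith

end Vale.Agent.helper7.Eg
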