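import Vale.Agent.helper7.Eg.Scheme

open Finset

namespace Vale.Agent.helper7.Eg

open Vale.Agent.Egypt

/-- `q` is a sum of at most `k` unit fractions, repetitions allowed, all with denominators
divisible by `2 ^ N`. -/
def MR (N : ℕ) (q : ℚ) (k : ℕ) : Prop :=
  ∃ l : List ℕ, (∀ n ∈ l, 0 < n ∧ 2 ^ N ∣ n) ∧
    (l.map (fun n : ℕ => (1 : ℚ) / (n : ℚ))).sum = q ∧ l.length ≤ k

lemma MR.mono {N : ℕ} {q : ℚ} {k k' : ℕ} (h : MR N q k) (hk : k ≤ k') : MR N q k' := by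
  obtain ⟨l, h1, h2, h3⟩ := h
  exact ⟨l, h1, h2, h3.trans hk⟩

lemma MR.add {N : ℕ} {q q' : ℚ} {k k' : ℕ} (h : MR N q k) (h' : MR N q' k') :
    MR N (q + q') (k + k') := by
  obtain ⟨l, h1, h2, h3⟩ := h
  obtain ⟨l', h1', h2', h3'⟩ := h'
  refine ⟨l ++ l', ?_, ?_, ?_⟩
  · intro n hn
    rcases List.mem_append.mp hn with hn | hn
    · exact h1 n hn
    · exact h1' n hn
  · rw [List.map_append, List.sum_append, h2, h2']
  · rw [List.length_append]
    omega

/-- Adding one unit fraction to a set of distinct ones: collisions are merged, halving the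
denominator. -/
lemma insert_chain : ∀ (j : ℕ) (F : Finset ℕ) (n : ℕ), F.card ≤ j → 2 ^ j ∣ n → 0 < n →
    (∀ x ∈ F, 0 < x) →
    ∃ F' : Finset ℕ, (∀ x ∈ F', 0 < x ∧ (x ∈ F ∨ ∃ l, l ≤ j ∧ x * 2 ^ l = n)) ∧
      ∑ x ∈ F', (1 : ℚ) / (x : ℚ) = ∑ x ∈ F, (1 : ℚ) / (x : ℚ) + 1 / (n : ℚ) ∧
      F'.card ≤ F.card + 1 := by
  intro j
  induction j with
  | zero =>
    intro F n hF _ hn _
    have hF0 : F = ∅ := Finset.card_eq_zero.mp (by omega)
    subst hF0
    refine ⟨{n}, ?_, by simp, by simp⟩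
    intro x hx
    have hx' : x = n := Finset.mem_singleton.mp hx
    subst hx'
    exact ⟨hn, Or.inr ⟨0, le_refl _, by simp⟩⟩
  | succ j ih =>
    intro F n hF hdiv hn hpos
    by_cases hnF : n ∈ F
    · obtain ⟨m, hm⟩ : 2 ∣ n := Dvd.dvd.trans (dvd_pow_self 2 (by omega)) hdiv
      have hmpos : 0 < m := by omega
      have hcard : (F.erase n).card = F.card - 1 := Finset.card_erase_of_mem hnF
      have hFpos : 0 < F.card := Finset.card_pos.mpr ⟨n, hnF⟩
      have hdiv' : 2 ^ j ∣ m := by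
        rw [hm, pow_succ'] at hdiv
        exact Nat.dvd_of_mul_dvd_mul_left (by norm_num) hdiv
      obtain ⟨F', h1, h2, h3⟩ := ih (F.erase n) m (by omega) hdiv' hmpos
        (fun x hx => hpos x (Finset.mem_of_mem_erase hx))
      refine ⟨F', ?_, ?_, by omega⟩
      · intro x hx
        obtain ⟨hx0, hx1⟩ := h1 x hx
        refine ⟨hx0, ?_⟩
        rcases hx1 with hx1 | ⟨l, hl, hxl⟩
        · exact Or.inl (Finset.mem_of_mem_erase hx1)
        · refine Or.inr ⟨l + 1, by omega, ?_⟩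
          rw [pow_succ, ← mul_assoc, hxl, hm, mul_comm]
      · rw [h2]
        have h4 := Finset.add_sum_erase F (fun x : ℕ => (1 : ℚ) / (x : ℚ)) hnF
        rw [← h4, hm]
        have hm' : (m : ℚ) ≠ 0 := by exact_mod_cast hmpos.ne'
        push_cast
        field_simp
        ring
    · refine ⟨insert n F, ?_, ?_, ?_⟩
      · intro x hx
        rcases Finset.mem_insert.mp hx with rfl | hx
        · exact ⟨hn, Or.inr ⟨0, by omega, by simp⟩⟩
        · exact ⟨hpos x hx, Or.inl hx⟩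
      · rw [Finset.sum_insert hnF, add_comm]
      · rw [Finset.card_insert_of_notMem hnF]

lemma mr_to_rep_aux (N : ℕ) : ∀ l : List ℕ, l.length ≤ N → (∀ n ∈ l, 0 < n ∧ 2 ^ N ∣ n) →
    ∃ F : Finset ℕ, (∀ x ∈ F, 0 < x ∧ 2 ^ (N - l.length) ∣ x) ∧
      ∑ x ∈ F, (1 : ℚ) / (x : ℚ) = (l.map (fun n : ℕ => (1 : ℚ) / (n : ℚ))).sum ∧
      F.card ≤ l.length := by
  intro l
  induction l with
  | nil =>
    intro _ _
    exact ⟨∅, by simp, by simp, by simp⟩
  | cons n l ih =>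
    intro hl hn
    rw [List.length_cons] at hl
    obtain ⟨F, h1, h2, h3⟩ := ih (by omega) (fun m hm => hn m (List.mem_cons_of_mem _ hm))
    obtain ⟨hn0, hn1⟩ := hn n List.mem_cons_self
    have hdiv : 2 ^ l.length ∣ n := Dvd.dvd.trans (pow_dvd_pow 2 (by omega)) hn1
    obtain ⟨F', h4, h5, h6⟩ := insert_chain l.length F n h3 hdiv hn0 (fun x hx => (h1 x hx).1)
    refine ⟨F', ?_, ?_, ?_⟩
    · intro x hx
      obtain ⟨hx0, hx1⟩ := h4 x hx
      refine ⟨hx0, ?_⟩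
      rw [List.length_cons]
      rcases hx1 with hx1 | ⟨j, hj, hxj⟩
      · exact Dvd.dvd.trans (pow_dvd_pow 2 (by omega)) (h1 x hx1).2
      · have h7 : 2 ^ (N - j) * 2 ^ j ∣ x * 2 ^ j := by
          rw [← pow_add, hxj]
          have : N - j + j = N := by omega
          rw [this]
          exact hn1
        have h8 : 2 ^ (N - j) ∣ x := Nat.dvd_of_mul_dvd_mul_right (by positivity) h7
        exact Dvd.dvd.trans (pow_dvd_pow 2 (by omega)) h8
    · rw [h5, h2, List.map_cons, List.sum_cons, add_comm]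
    · rw [List.length_cons]
      omega

lemma MR.to_rep {N k : ℕ} {q : ℚ} (h : MR N q k) (hk : k ≤ N) : Rep q k := by
  obtain ⟨l, h1, h2, h3⟩ := h
  obtain ⟨F, h4, h5, h6⟩ := mr_to_rep_aux N l (h3.trans hk) h1
  refine ⟨F, fun x hx => (h4 x hx).1, ?_, by omega⟩
  rw [h5, h2]

/-- The zero-sum step: a nice numerator over a multiple of `D` is at most thirteen unit fractions,
whatever the sizes of the divisors used. -/
lemma piece (D f W y H₁ N : ℕ) (hD : 0 < D) (hy : 0 < y) (hH : 0 < H₁) (hf : 0 < f)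
    (hc : Cover D f W) :
    MR N ((f : ℚ) / ((y * (D * H₁ * 2 ^ N) : ℕ) : ℚ)) 13 := by
  classical
  obtain ⟨T, hT1, hT2, hT3⟩ := hc (f * D - D)
  have hfD : D ≤ f * D := Nat.le_mul_of_pos_left D hf
  have hsum : f ∣ (∑ t ∈ T, t) + D := by
    have h1 : ((∑ t ∈ T, t) + D) % f = ((f * D - D) + D) % f := by
      rw [Nat.add_mod, hT3, ← Nat.add_mod]
    have h2 : (f * D - D) + D = f * D := by omega
    rw [h2] at h1
    have h3 : f * D % f = 0 := Nat.mul_mod_right f D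
    rw [h3] at h1
    exact Nat.dvd_of_mod_eq_zero h1
  obtain ⟨n, hn⟩ := hsum
  have hnpos : 0 < n := by
    rcases Nat.eq_zero_or_pos n with h | h
    · subst h
      simp at hn
      omega
    · exact h
  -- the denominators
  let den : ℕ → ℕ := fun t => y * H₁ * 2 ^ N * (D / t) * n
  have hdenpos : ∀ t, t ∣ D → 0 < den t := by
    intro t ht
    have h1 : 0 < D / t := Nat.div_pos (Nat.le_of_dvd hD ht) (Nat.pos_of_dvd_of_pos ht hD)
    exact Nat.mul_pos (Nat.mul_pos (Nat.mul_pos (Nat.mul_pos hy hH) (by positivity)) h1) hnpos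
  have hdendvd : ∀ t, 2 ^ N ∣ den t := by
    intro t
    exact Dvd.dvd.mul_right (Dvd.dvd.mul_right (Dvd.intro_left _ rfl) _) _
  have hdenval : ∀ t, t ∣ D → (1 : ℚ) / (den t : ℚ) =
      (t : ℚ) / ((y * H₁ * 2 ^ N * D * n : ℕ) : ℚ) := by
    intro t ht
    obtain ⟨u, hu⟩ := ht
    have htpos : 0 < t := Nat.pos_of_ne_zero (by
      rintro rfl
      simp at hu
      omega)
    have hupos : 0 < u := Nat.pos_of_ne_zero (by
      rintro rfl
      simp at hu
      omega)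
    have h1 : D / t = u := by
      rw [hu]
      exact Nat.mul_div_cancel_left u htpos
    simp only [den]
    rw [h1, hu]
    have hy' : (y : ℚ) ≠ 0 := by exact_mod_cast hy.ne'
    have hH' : (H₁ : ℚ) ≠ 0 := by exact_mod_cast hH.ne'
    have ht' : (t : ℚ) ≠ 0 := by exact_mod_cast htpos.ne'
    have hu' : (u : ℚ) ≠ 0 := by exact_mod_cast hupos.ne'
    have hn' : (n : ℚ) ≠ 0 := by exact_mod_cast hnpos.ne'
    push_cast
    field_simp
  refine ⟨den D :: T.toList.map den, ?_, ?_, ?_⟩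
  · intro m hm
    rcases List.mem_cons.mp hm with rfl | hm
    · exact ⟨hdenpos D (dvd_refl D), hdendvd D⟩
    · obtain ⟨t, ht, rfl⟩ := List.mem_map.mp hm
      have ht' : t ∈ T := Finset.mem_toList.mp ht
      exact ⟨hdenpos t (hT2 t ht').1, hdendvd t⟩
  · rw [List.map_cons, List.sum_cons, List.map_map]
    have h1 : (T.toList.map ((fun n : ℕ => (1 : ℚ) / (n : ℚ)) ∘ den)).sum
        = ∑ t ∈ T, (1 : ℚ) / (den t : ℚ) := Finset.sum_map_toList T _
    rw [h1, hdenval D (dvd_refl D)]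
    have h2 : ∑ t ∈ T, (1 : ℚ) / (den t : ℚ)
        = ∑ t ∈ T, (t : ℚ) / ((y * H₁ * 2 ^ N * D * n : ℕ) : ℚ) :=
      Finset.sum_congr rfl (fun t ht => hdenval t (hT2 t ht).1)
    rw [h2, ← Finset.sum_div, ← add_div]
    have hn' : (n : ℚ) ≠ 0 := by exact_mod_cast hnpos.ne'
    have hy' : (y : ℚ) ≠ 0 := by exact_mod_cast hy.ne'
    have hH' : (H₁ : ℚ) ≠ 0 := by exact_mod_cast hH.ne'
    have hD' : (D : ℚ) ≠ 0 := by exact_mod_cast hD.ne'
    have hsumQ : (D : ℚ) + ∑ t ∈ T, (t : ℚ) = f * n := by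
      have h3 : D + ∑ t ∈ T, t = f * n := by omega
      have h4 := congrArg (Nat.cast : ℕ → ℚ) h3
      push_cast at h4
      exact h4
    rw [hsumQ]
    push_cast
    field_simp
  · rw [List.length_cons, List.length_map, Finset.length_toList]
    omega

/-- The end piece, from the divisor sums of `H₁`. -/
lemma end_piece (B₀ D H₁ N t₁ rem : ℕ) (hB₀ : 0 < B₀) (hD : 0 < D) (hH : 0 < H₁)
    (hs : Sums H₁ t₁) (hrem : rem < H₁) :
    MR N ((rem : ℚ) / ((B₀ * (D * H₁ * 2 ^ N) : ℕ) : ℚ)) t₁ := by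
  classical
  obtain ⟨F, h1, h2, h3⟩ := hs rem hrem
  let den : ℕ → ℕ := fun d => B₀ * D * (H₁ / d) * 2 ^ N
  have hdenpos : ∀ d, d ∣ H₁ → 0 < den d := by
    intro d hd
    have h4 : 0 < H₁ / d := Nat.div_pos (Nat.le_of_dvd hH hd) (Nat.pos_of_dvd_of_pos hd hH)
    exact Nat.mul_pos (Nat.mul_pos (Nat.mul_pos hB₀ hD) h4) (by positivity)
  have hdenval : ∀ d, d ∣ H₁ → (1 : ℚ) / (den d : ℚ) =
      (d : ℚ) / ((B₀ * (D * H₁ * 2 ^ N) : ℕ) : ℚ) := by
    intro d hd
    obtain ⟨u, hu⟩ := hd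
    have hdpos : 0 < d := Nat.pos_of_ne_zero (by
      rintro rfl
      simp at hu
      omega)
    have hupos : 0 < u := Nat.pos_of_ne_zero (by
      rintro rfl
      simp at hu
      omega)
    have h4 : H₁ / d = u := by
      rw [hu]
      exact Nat.mul_div_cancel_left u hdpos
    simp only [den]
    rw [h4, hu]
    have hB' : (B₀ : ℚ) ≠ 0 := by exact_mod_cast hB₀.ne'
    have hD' : (D : ℚ) ≠ 0 := by exact_mod_cast hD.ne'
    have hd' : (d : ℚ) ≠ 0 := by exact_mod_cast hdpos.ne'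
    have hu' : (u : ℚ) ≠ 0 := by exact_mod_cast hupos.ne'
    push_cast
    field_simp
  refine ⟨F.toList.map den, ?_, ?_, ?_⟩
  · intro m hm
    obtain ⟨d, hd, rfl⟩ := List.mem_map.mp hm
    have hd' : d ∈ F := Finset.mem_toList.mp hd
    exact ⟨hdenpos d (h1 d hd'), Dvd.intro_left _ rfl⟩
  · rw [List.map_map]
    have h4 : (F.toList.map ((fun n : ℕ => (1 : ℚ) / (n : ℚ)) ∘ den)).sum
        = ∑ d ∈ F, (1 : ℚ) / (den d : ℚ) := Finset.sum_map_toList F _
    rw [h4]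
    have h5 : ∑ d ∈ F, (1 : ℚ) / (den d : ℚ)
        = ∑ d ∈ F, (d : ℚ) / ((B₀ * (D * H₁ * 2 ^ N) : ℕ) : ℚ) :=
      Finset.sum_congr rfl (fun d hd => hdenval d (h1 d hd))
    rw [h5, ← Finset.sum_div]
    have h6 : (∑ d ∈ F, (d : ℚ)) = rem := by
      have h7 := congrArg (Nat.cast : ℕ → ℚ) h3
      push_cast at h7
      exact h7
    rw [h6]
  · rw [List.length_map, Finset.length_toList]
    exact h2

/-- Every `τ` in `[1, c 2 ^ e]` has a divisor of `c 2 ^ e` within a factor two below it. -/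
lemma dense_below (c e τ : ℕ) (hc : 0 < c) (hce : c ≤ 2 ^ e) (h1 : 1 ≤ τ) (h2 : τ ≤ c * 2 ^ e) :
    ∃ g, g ∣ c * 2 ^ e ∧ g ≤ τ ∧ τ < 2 * g := by
  have hlog : ∀ x : ℕ, 1 ≤ x → ∃ i, 2 ^ i ≤ x ∧ x < 2 ^ (i + 1) := fun x hx =>
    ⟨Nat.log 2 x, Nat.pow_log_le_self 2 (by omega), Nat.lt_pow_succ_log_self (by norm_num) x⟩
  by_cases hτ : τ < c
  · obtain ⟨i, hi1, hi2⟩ := hlog τ h1
    have hie : i ≤ e := by
      have h3 : 2 ^ i < 2 ^ e := by omega
      exact ((Nat.pow_lt_pow_iff_right (by norm_num)).mp h3).le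
    refine ⟨2 ^ i, Dvd.dvd.mul_left (pow_dvd_pow 2 hie) c, hi1, ?_⟩
    rw [pow_succ] at hi2
    omega
  · push Not at hτ
    have hq : 1 ≤ τ / c := (Nat.one_le_div_iff hc).mpr hτ
    obtain ⟨i, hi1, hi2⟩ := hlog (τ / c) hq
    have hqe : τ / c ≤ 2 ^ e := Nat.div_le_of_le_mul h2
    have hie : i ≤ e := by
      have h3 : 2 ^ i ≤ 2 ^ e := hi1.trans hqe
      exact (Nat.pow_le_pow_iff_right (by norm_num)).mp h3
    have hd1 := Nat.div_add_mod τ c
    have hd2 := Nat.mod_lt τ hc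
    refine ⟨c * 2 ^ i, Nat.mul_dvd_mul_left c (pow_dvd_pow 2 hie), ?_, ?_⟩
    · calc c * 2 ^ i ≤ c * (τ / c) := Nat.mul_le_mul_left c hi1
        _ ≤ τ := Nat.mul_div_le τ c
    · have h3 : τ / c + 1 ≤ 2 ^ (i + 1) := hi2
      calc τ = c * (τ / c) + τ % c := hd1.symm
        _ < c * (τ / c) + c := by omega
        _ = c * (τ / c + 1) := by ring
        _ ≤ c * 2 ^ (i + 1) := Nat.mul_le_mul_left c h3
        _ = 2 * (c * 2 ^ i) := by rw [pow_succ]; ring

/-- A nice numerator just below `rem / g`. -/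
lemma slot_choice (D M Nb F g rem : ℕ) (hD : 0 < D) (hM : 0 < M)
    (hprimes : ∀ p : ℕ, p.Prime → p ∣ D → p ∣ M ∨ Nb < p)
    (hcard : D.primeFactors.card ≤ Nb)
    (hF : M * (Nb + 2) + 1 ≤ 2 ^ F) (hg : 0 < g)
    (h1 : g * 2 ^ (F + 2) ≤ rem) (h2 : rem < g * 2 ^ (F + 3)) :
    ∃ f, 2 ^ (F + 1) ≤ f ∧ f < 2 ^ (F + 3) ∧ f % M = 1 % M ∧ Nat.Coprime f D ∧
      g * f ≤ rem ∧ rem - g * f ≤ g * (M * (Nb + 2)) := by
  have hp1 : 2 ^ (F + 1) = 2 * 2 ^ F := pow_succ' 2 F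
  have hp2 : 2 ^ (F + 2) = 4 * 2 ^ F := by rw [pow_add]; ring
  have hp3 : 2 ^ (F + 3) = 8 * 2 ^ F := by rw [pow_add]; ring
  obtain ⟨q, hq⟩ : ∃ q, q = rem / g := ⟨_, rfl⟩
  have hq1 : 2 ^ (F + 2) ≤ q := by
    rw [hq]
    exact (Nat.le_div_iff_mul_le hg).mpr (by rw [mul_comm]; exact h1)
  have hq2 : q < 2 ^ (F + 3) := by
    rw [hq]
    exact Nat.div_lt_of_lt_mul h2
  have hd1 : g * q + rem % g = rem := by
    rw [hq]
    exact Nat.div_add_mod rem g
  have hd2 := Nat.mod_lt rem hg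
  have hNbM : M * (Nb + 2) = Nb * M + 2 * M := by ring
  obtain ⟨x, hx⟩ : ∃ x, x = q - 1 - Nb * M := ⟨_, rfl⟩
  have hx1 : x + 1 + Nb * M = q := by omega
  have hf0mod : (M * (x / M) + 1) % M = 1 % M := Nat.mul_add_mod _ _ _
  have hdx := Nat.div_add_mod x M
  have hmx := Nat.mod_lt x hM
  obtain ⟨m, hm, hcop⟩ := coprime_candidate D M Nb _ hD hM hprimes hcard hf0mod
  have hmM : m * M ≤ Nb * M := Nat.mul_le_mul_right M hm
  obtain ⟨f, hf⟩ : ∃ f, f = M * (x / M) + 1 + m * M := ⟨_, rfl⟩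
  rw [← hf] at hcop
  have hfmod : f % M = 1 % M := by
    rw [hf, Nat.add_mul_mod_self_right]
    exact hf0mod
  have hfq : f ≤ q := by omega
  have hfq2 : q ≤ f + M * (Nb + 2) - 1 := by omega
  have hfl : 2 ^ (F + 1) ≤ f := by omega
  have hgf : g * f ≤ g * q := Nat.mul_le_mul_left g hfq
  refine ⟨f, hfl, by omega, hfmod, hcop, by omega, ?_⟩
  have h3 : g * q ≤ g * (f + M * (Nb + 2) - 1) := Nat.mul_le_mul_left g hfq2
  have h4 : g * (f + M * (Nb + 2) - 1) + g = g * f + g * (M * (Nb + 2)) := by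
    have h5 : f + M * (Nb + 2) - 1 + 1 = f + M * (Nb + 2) := by omega
    calc g * (f + M * (Nb + 2) - 1) + g = g * (f + M * (Nb + 2) - 1 + 1) := by ring
      _ = g * (f + M * (Nb + 2)) := by rw [h5]
      _ = g * f + g * (M * (Nb + 2)) := by ring
  omega

/-- The bit bound after one slot. -/
def rstep (m2 r F : ℕ) : ℕ := max (F + 2) (r + m2 - (F + 2))

/-- The bit bound after a list of slots. -/
def rfold (m2 : ℕ) : ℕ → List (ℕ × ℕ) → ℕ
  | r, [] => r
  | r, s :: l => rfold m2 (rstep m2 r s.1) l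

theorem descend (D M Nb H₁ t₁ N m2 c e : ℕ) (hD : 0 < D) (hM : 0 < M) (hc : 0 < c)
    (hce : c ≤ 2 ^ e)
    (hprimes : ∀ p : ℕ, p.Prime → p ∣ D → p ∣ M ∨ Nb < p)
    (hcard : D.primeFactors.card ≤ Nb) (hsums : Sums H₁ t₁) (hH : 0 < H₁)
    (hm2 : M * (Nb + 2) ≤ 2 ^ m2) :
    ∀ (slots : List (ℕ × ℕ)) (r rem : ℕ),
      (∀ s ∈ slots, ∀ f : ℕ, 2 ^ (s.1 + 1) ≤ f → f < 2 ^ (s.1 + 3) → f % M = 1 % M →
        Nat.Coprime f D → Cover D f s.2) →
      (∀ s ∈ slots, M * (Nb + 2) + 1 ≤ 2 ^ s.1) →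
      rem < 2 ^ r → rem ≤ c * 2 ^ e → 2 ^ rfold m2 r slots ≤ H₁ →
      MR N ((rem : ℚ) / ((c * 2 ^ e * (D * H₁ * 2 ^ N) : ℕ) : ℚ)) (13 * slots.length + t₁) := by
  have hB₀ : 0 < c * 2 ^ e := Nat.mul_pos hc (by positivity)
  intro slots
  induction slots with
  | nil =>
    intro r rem _ _ hr _ hfin
    exact (end_piece _ D H₁ N t₁ rem hB₀ hD hH hsums (lt_of_lt_of_le hr hfin)).mono (by simp)
  | cons s l ih =>
    intro r rem hcov hsz hr hrem hfin
    obtain ⟨F, W⟩ := s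
    have hcov' := fun s hs => hcov s (List.mem_cons_of_mem _ hs)
    have hsz' := fun s hs => hsz s (List.mem_cons_of_mem _ hs)
    have hfin' : 2 ^ rfold m2 (rstep m2 r F) l ≤ H₁ := hfin
    have hR1 : F + 2 ≤ rstep m2 r F := le_max_left _ _
    have hR2 : r + m2 ≤ rstep m2 r F + (F + 2) := by
      have : r + m2 - (F + 2) ≤ rstep m2 r F := le_max_right _ _
      omega
    rw [List.length_cons]
    by_cases hτ : rem < 2 ^ (F + 2)
    · have hr' : rem < 2 ^ rstep m2 r F :=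
        lt_of_lt_of_le hτ (Nat.pow_le_pow_right (by norm_num) hR1)
      exact (ih _ rem hcov' hsz' hr' hrem hfin').mono (by omega)
    · push Not at hτ
      have hτ1 : 1 ≤ rem / 2 ^ (F + 2) := (Nat.one_le_div_iff (by positivity)).mpr hτ
      have hτ2 : rem / 2 ^ (F + 2) ≤ c * 2 ^ e := (Nat.div_le_self _ _).trans hrem
      obtain ⟨g, hg1, hg2, hg3⟩ := dense_below c e _ hc hce hτ1 hτ2
      have hgpos : 0 < g := Nat.pos_of_dvd_of_pos hg1 hB₀
      have hd1 := Nat.div_add_mod rem (2 ^ (F + 2))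
      have hd2 := Nat.mod_lt rem (show 0 < 2 ^ (F + 2) by positivity)
      have hrg1 : g * 2 ^ (F + 2) ≤ rem := by
        calc g * 2 ^ (F + 2) ≤ (rem / 2 ^ (F + 2)) * 2 ^ (F + 2) := Nat.mul_le_mul_right _ hg2
          _ ≤ rem := Nat.div_mul_le_self _ _
      have hrg2 : rem < g * 2 ^ (F + 3) := by
        have h3 : rem / 2 ^ (F + 2) + 1 ≤ 2 * g := hg3
        calc rem = 2 ^ (F + 2) * (rem / 2 ^ (F + 2)) + rem % 2 ^ (F + 2) := hd1.symm
          _ < 2 ^ (F + 2) * (rem / 2 ^ (F + 2)) + 2 ^ (F + 2) := by omega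
          _ = 2 ^ (F + 2) * (rem / 2 ^ (F + 2) + 1) := by ring
          _ ≤ 2 ^ (F + 2) * (2 * g) := Nat.mul_le_mul_left _ h3
          _ = g * 2 ^ (F + 3) := by rw [pow_succ 2 (F + 2)]; ring
      have hsz0 := hsz (F, W) List.mem_cons_self
      obtain ⟨f, hf1, hf2, hf3, hf4, hf5, hf6⟩ :=
        slot_choice D M Nb F g rem hD hM hprimes hcard hsz0 hgpos hrg1 hrg2
      have hfpos : 0 < f := lt_of_lt_of_le (by positivity) hf1
      have hcover := hcov (F, W) List.mem_cons_self f hf1 hf2 hf3 hf4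
      obtain ⟨y, hy⟩ := hg1
      have hypos : 0 < y := Nat.pos_of_ne_zero (by
        rintro rfl
        simp at hy
        omega)
      have hrem' : rem - g * f < 2 ^ rstep m2 r F := by
        have h3 : (rem - g * f) * 2 ^ (F + 2) < 2 ^ rstep m2 r F * 2 ^ (F + 2) := by
          calc (rem - g * f) * 2 ^ (F + 2) ≤ (g * (M * (Nb + 2))) * 2 ^ (F + 2) :=
                Nat.mul_le_mul_right _ hf6
            _ = (g * 2 ^ (F + 2)) * (M * (Nb + 2)) := by ring
            _ ≤ rem * 2 ^ m2 := Nat.mul_le_mul hrg1 hm2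
            _ < 2 ^ r * 2 ^ m2 := Nat.mul_lt_mul_of_pos_right hr (by positivity)
            _ = 2 ^ (r + m2) := (pow_add _ _ _).symm
            _ ≤ 2 ^ (rstep m2 r F + (F + 2)) := Nat.pow_le_pow_right (by norm_num) hR2
            _ = 2 ^ rstep m2 r F * 2 ^ (F + 2) := pow_add _ _ _
        exact Nat.lt_of_mul_lt_mul_right h3
      have hrec := ih _ (rem - g * f) hcov' hsz' hrem' (by omega) hfin'
      have hpiece := piece D f W y H₁ N hD hypos hH hfpos hcover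
      have hadd := hrec.add hpiece
      have hid : (rem : ℚ) / ((c * 2 ^ e * (D * H₁ * 2 ^ N) : ℕ) : ℚ)
          = ((rem - g * f : ℕ) : ℚ) / ((c * 2 ^ e * (D * H₁ * 2 ^ N) : ℕ) : ℚ)
            + (f : ℚ) / ((y * (D * H₁ * 2 ^ N) : ℕ) : ℚ) := by
        have h3 : ((rem - g * f : ℕ) : ℚ) = (rem : ℚ) - g * f := by
          rw [Nat.cast_sub hf5]
          push_cast
          ring
        have hgq : (g : ℚ) ≠ 0 := by exact_mod_cast hgpos.ne'
        have hyq : (y : ℚ) ≠ 0 := by exact_mod_cast hypos.ne'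
        have hZ : (D : ℚ) * H₁ * 2 ^ N ≠ 0 := by
          have hD' : (D : ℚ) ≠ 0 := by exact_mod_cast hD.ne'
          have hH' : (H₁ : ℚ) ≠ 0 := by exact_mod_cast hH.ne'
          positivity
        rw [h3, hy]
        push_cast
        field_simp
        ring
      rw [hid]
      exact hadd.mono (by omega)

theorem greedy_core2 (E : ℕ) : ∀ (g m a c : ℕ), 1 ≤ m → 1 ≤ a → 2 ^ m * a ≤ c →
    E + 1 ≤ m * 2 ^ g →
    ∃ s a' c' : ℕ, s ≤ g ∧ 0 < c' ∧
      (a' = 0 ∨ (1 ≤ a' ∧ a' ≤ a ∧ 2 ^ (E + 1) * a' ≤ c' ∧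
        (c' = c ∨ c' ≤ a * 2 ^ (2 * (E + 1))))) ∧
      ∀ k, Rep ((a' : ℚ) / c') k → Rep ((a : ℚ) / c) (k + s) := by
  intro g
  induction g with
  | zero =>
    intro m a c hm ha h hE
    have h2 : 0 < 2 ^ m * a := Nat.mul_pos (by positivity) ha
    refine ⟨0, a, c, le_refl _, by omega, Or.inr ⟨ha, le_refl _, ?_, Or.inl rfl⟩, fun k hk => hk⟩
    have h3 : 2 ^ (E + 1) ≤ 2 ^ m := Nat.pow_le_pow_right (by norm_num) (by simpa using hE)
    exact (Nat.mul_le_mul_right a h3).trans h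
  | succ g ih =>
    intro m a c hm ha h hE
    have h2 : 0 < 2 ^ m * a := Nat.mul_pos (by positivity) ha
    by_cases hstop : 2 ^ (E + 1) * a ≤ c
    · exact ⟨0, a, c, by omega, by omega, Or.inr ⟨ha, le_refl _, hstop, Or.inl rfl⟩,
        fun k hk => hk⟩
    · push Not at hstop
      have hm2 : 2 ≤ 2 ^ m := by
        calc 2 = 2 ^ 1 := by norm_num
          _ ≤ 2 ^ m := Nat.pow_le_pow_right (by norm_num) hm
      have hac : a < c := by
        have : 2 * a ≤ 2 ^ m * a := Nat.mul_le_mul_right a hm2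
        omega
      have hcpos : 0 < c := by omega
      obtain ⟨n, a1, hn2, ha1, hid, hlt⟩ := greedy_step a c ha hac
      have hnpos : 0 < n := by omega
      have hnm : 2 ^ m ≤ n := by
        have h3 : 2 ^ m * a ≤ n * a := by
          calc 2 ^ m * a ≤ c := h
            _ ≤ a * n := by omega
            _ = n * a := mul_comm _ _
        exact Nat.le_of_mul_le_mul_right h3 (by omega)
      have hnE : n ≤ 2 ^ (E + 1) := by
        have h3 : (n - 1) * a < 2 ^ (E + 1) * a := by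
          calc (n - 1) * a = a * (n - 1) := mul_comm _ _
            _ < c := hlt
            _ < 2 ^ (E + 1) * a := hstop
        have h4 : n - 1 < 2 ^ (E + 1) := Nat.lt_of_mul_lt_mul_right h3
        omega
      rcases Nat.eq_zero_or_pos a1 with h0 | h1
      · subst h0
        refine ⟨1, 0, c * n, by omega, Nat.mul_pos hcpos hnpos, Or.inl rfl, ?_⟩
        intro k hk
        exact rep_of_step hcpos hnpos hid (by omega) (by simpa using hk)
      · have hlevel : 2 ^ (2 * m) * a1 ≤ c * n := by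
          calc 2 ^ (2 * m) * a1 = 2 ^ m * (2 ^ m * a1) := by
                rw [two_mul, pow_add, mul_assoc]
            _ ≤ 2 ^ m * (2 ^ m * a) :=
                Nat.mul_le_mul_left _ (Nat.mul_le_mul_left _ ha1.le)
            _ ≤ 2 ^ m * c := Nat.mul_le_mul_left _ h
            _ ≤ n * c := Nat.mul_le_mul_right _ hnm
            _ = c * n := mul_comm _ _
        have hE' : E + 1 ≤ 2 * m * 2 ^ g := by
          calc E + 1 ≤ m * 2 ^ (g + 1) := hE
            _ = 2 * m * 2 ^ g := by rw [pow_succ]; ring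
        obtain ⟨s, a', c', hs, hc'pos, hdisj, hrep⟩ :=
          ih (2 * m) a1 (c * n) (by omega) h1 hlevel hE'
        refine ⟨s + 1, a', c', by omega, hc'pos, ?_, ?_⟩
        · rcases hdisj with h3 | ⟨h3, h4, h5, h6⟩
          · exact Or.inl h3
          · refine Or.inr ⟨h3, by omega, h5, Or.inr ?_⟩
            rcases h6 with h6 | h6
            · rw [h6]
              calc c * n ≤ (2 ^ (E + 1) * a) * 2 ^ (E + 1) := Nat.mul_le_mul hstop.le hnE
                _ = a * 2 ^ (2 * (E + 1)) := by rw [two_mul, pow_add]; ring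
            · exact h6.trans (Nat.mul_le_mul_right _ ha1.le)
        · intro k hk
          have h3 := hrep k hk
          exact rep_of_step hcpos hnpos hid (by omega) h3

theorem greedy_start2 (E G a b : ℕ) (ha : 1 ≤ a) (hab : a < b) (hG : E + 1 ≤ 2 ^ G) :
    ∃ s a' c' : ℕ, s ≤ G + 1 ∧ 0 < c' ∧
      (a' = 0 ∨ (1 ≤ a' ∧ a' ≤ a ∧ 2 ^ (E + 1) * a' ≤ c' ∧
        (c' = b ∨ c' ≤ a * 2 ^ (2 * (E + 1))))) ∧
      ∀ k, Rep ((a' : ℚ) / c') k → Rep ((a : ℚ) / b) (k + s) := by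
  have hbpos : 0 < b := by omega
  by_cases hstop : 2 ^ (E + 1) * a ≤ b
  · exact ⟨0, a, b, by omega, hbpos, Or.inr ⟨ha, le_refl _, hstop, Or.inl rfl⟩, fun k hk => hk⟩
  · push Not at hstop
    obtain ⟨n, a1, hn2, ha1, hid, hlt⟩ := greedy_step a b ha hab
    have hnpos : 0 < n := by omega
    have hnE : n ≤ 2 ^ (E + 1) := by
      have h3 : (n - 1) * a < 2 ^ (E + 1) * a := by
        calc (n - 1) * a = a * (n - 1) := mul_comm _ _
          _ < b := hlt
          _ < 2 ^ (E + 1) * a := hstop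
      have h4 : n - 1 < 2 ^ (E + 1) := Nat.lt_of_mul_lt_mul_right h3
      omega
    rcases Nat.eq_zero_or_pos a1 with h0 | h1
    · subst h0
      refine ⟨1, 0, b * n, by omega, Nat.mul_pos hbpos hnpos, Or.inl rfl, ?_⟩
      intro k hk
      exact rep_of_step hbpos hnpos hid (by omega) (by simpa using hk)
    · have hlevel : 2 ^ 1 * a1 ≤ b * n := by
        have h3 : b * 2 ≤ b * n := Nat.mul_le_mul_left b hn2
        omega
      obtain ⟨s, a', c', hs, hc'pos, hdisj, hrep⟩ :=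
        greedy_core2 E G 1 a1 (b * n) (le_refl _) h1 hlevel (by simpa using hG)
      refine ⟨s + 1, a', c', by omega, hc'pos, ?_, ?_⟩
      · rcases hdisj with h3 | ⟨h3, h4, h5, h6⟩
        · exact Or.inl h3
        · refine Or.inr ⟨h3, by omega, h5, Or.inr ?_⟩
          rcases h6 with h6 | h6
          · rw [h6]
            calc b * n ≤ (2 ^ (E + 1) * a) * 2 ^ (E + 1) := Nat.mul_le_mul hstop.le hnE
              _ = a * 2 ^ (2 * (E + 1)) := by rw [two_mul, pow_add]; ring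
          · exact h6.trans (Nat.mul_le_mul_right _ ha1.le)
      · intro k hk
        have h3 := hrep k hk
        exact rep_of_step hbpos hnpos hid (by omega) h3

/-- The arithmetic scheme without any width condition. -/
theorem scheme2 (a b : ℕ) (ha : 1 ≤ a) (hab : a < b)
    (D M Nb H₁ t₁ E G N m2 β : ℕ) (slots : List (ℕ × ℕ))
    (hD : 0 < D) (hM : 0 < M)
    (hprimes : ∀ p : ℕ, p.Prime → p ∣ D → p ∣ M ∨ Nb < p)
    (hcard : D.primeFactors.card ≤ Nb)
    (hcover : ∀ s ∈ slots, ∀ f : ℕ, 2 ^ (s.1 + 1) ≤ f → f < 2 ^ (s.1 + 3) → f % M = 1 % M →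
      Nat.Coprime f D → Cover D f s.2)
    (hsize : ∀ s ∈ slots, M * (Nb + 2) + 1 ≤ 2 ^ s.1)
    (hsums : Sums H₁ t₁) (hH₁ : 0 < H₁)
    (hm2 : M * (Nb + 2) ≤ 2 ^ m2)
    (hN : 13 * slots.length + t₁ ≤ N)
    (hZ : D * H₁ * 2 ^ N ≤ 2 ^ (E + 1))
    (hG : E + 1 ≤ 2 ^ G)
    (hb : b ≤ 2 ^ β)
    (hfin : 2 ^ rfold m2 (2 * β + 3 * E + 4) slots ≤ H₁) :
    Rep ((a : ℚ) / b) (G + 1 + 13 * slots.length + t₁) := by
  obtain ⟨s, a', c', hs, hcpos, hdisj, hrep⟩ := greedy_start2 E G a b ha hab hG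
  rcases hdisj with h0 | ⟨ha', hale, hratio, hcb⟩
  · subst h0
    have h1 : Rep (((0 : ℕ) : ℚ) / c') 0 := by simpa using rep_zero
    exact (hrep 0 h1).mono (by omega)
  · have hcb' : c' ≤ b * 2 ^ (2 * (E + 1)) := by
      rcases hcb with h | h
      · rw [h]
        exact Nat.le_mul_of_pos_right _ (by positivity)
      · exact h.trans (Nat.mul_le_mul_right _ hab.le)
    have hratio1 : 2 ^ (E + 1) * 1 ≤ c' :=
      (Nat.mul_le_mul_left _ ha').trans hratio
    obtain ⟨e, he1, he2⟩ := normalise 1 c' E (le_refl _) hratio1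
    rw [mul_one] at he1 he2
    obtain ⟨Z, hZdef⟩ : ∃ Z, Z = D * H₁ * 2 ^ N := ⟨_, rfl⟩
    rw [← hZdef] at hZ
    have hZpos : 0 < Z := by
      rw [hZdef]
      exact Nat.mul_pos (Nat.mul_pos hD hH₁) (by positivity)
    have hremB : a' * Z * 2 ^ e ≤ c' * 2 ^ e := by
      apply Nat.mul_le_mul_right
      calc a' * Z ≤ a' * 2 ^ (E + 1) := Nat.mul_le_mul_left _ hZ
        _ = 2 ^ (E + 1) * a' := mul_comm _ _
        _ ≤ c' := hratio
    have hremr : a' * Z * 2 ^ e < 2 ^ (2 * β + 3 * E + 4) := by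
      have ha'β : a' ≤ 2 ^ β := by omega
      have h2e : 2 ^ e < 2 ^ (β + 2 * E + 3) := by
        calc 2 ^ e < 2 * c' := he2
          _ ≤ 2 * (2 ^ β * 2 ^ (2 * (E + 1))) :=
              Nat.mul_le_mul_left _ (hcb'.trans (Nat.mul_le_mul_right _ hb))
          _ = 2 ^ (β + 2 * E + 3) := by
              rw [show β + 2 * E + 3 = 1 + (β + 2 * (E + 1)) by ring, pow_add 2 1, pow_add 2 β]
              norm_num
      calc a' * Z * 2 ^ e ≤ 2 ^ β * 2 ^ (E + 1) * 2 ^ e := by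
            apply Nat.mul_le_mul_right
            exact Nat.mul_le_mul ha'β hZ
        _ < 2 ^ β * 2 ^ (E + 1) * 2 ^ (β + 2 * E + 3) :=
            Nat.mul_lt_mul_of_pos_left h2e (by positivity)
        _ = 2 ^ (2 * β + 3 * E + 4) := by
            rw [← pow_add, ← pow_add]
            congr 1
            ring
    have hdesc := descend D M Nb H₁ t₁ N m2 c' e hD hM hcpos he1 hprimes hcard hsums hH₁ hm2
      slots _ _ hcover hsize hremr hremB hfin
    have hrepR := hdesc.to_rep hN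
    have hval : ((a' * Z * 2 ^ e : ℕ) : ℚ) / ((c' * 2 ^ e * (D * H₁ * 2 ^ N) : ℕ) : ℚ)
        = (a' : ℚ) / c' := by
      rw [← hZdef]
      have hc' : (c' : ℚ) ≠ 0 := by exact_mod_cast hcpos.ne'
      have hZ' : (Z : ℚ) ≠ 0 := by exact_mod_cast hZpos.ne'
      push_cast
      field_simp
    rw [hval] at hrepR
    exact (hrep _ hrepR).mono (by omega)

end Vale.Agent.helper7.Eg
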