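import Vale.Agent.helper7.Eg.Main
import Vale.Agent.helper7.Eg.Scheme2

open Finset

namespace Vale.Agent.helper7.Eg

open Vale.Agent.Egypt

lemma rfold_append (m2 : ℕ) : ∀ (l₁ l₂ : List (ℕ × ℕ)) (r : ℕ),
    rfold m2 r (l₁ ++ l₂) = rfold m2 (rfold m2 r l₁) l₂ := by
  intro l₁
  induction l₁ with
  | nil =>
    intro l₂ r
    rfl
  | cons s l ih =>
    intro l₂ r
    exact ih l₂ _

lemma rfold_replicate (m2 F W : ℕ) (hm : m2 ≤ F + 2) : ∀ (n r : ℕ),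
    rfold m2 r (List.replicate n (F, W)) ≤ max (F + 2) (r - n * (F + 2 - m2)) := by
  intro n
  induction n with
  | zero =>
    intro r
    simp [rfold]
  | succ n ih =>
    intro r
    rw [List.replicate_succ]
    have h1 := ih (rstep m2 r F)
    have h2 : rfold m2 r ((F, W) :: List.replicate n (F, W))
        = rfold m2 (rstep m2 r F) (List.replicate n (F, W)) := rfl
    rw [h2]
    refine h1.trans ?_
    have h3 : (n + 1) * (F + 2 - m2) = n * (F + 2 - m2) + (F + 2 - m2) := by ring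
    rw [h3]
    unfold rstep
    generalize n * (F + 2 - m2) = x
    omega

/-- The slots of the levels below `j`, each once. -/
def lowSlots (q j : ℕ) : List (ℕ × ℕ) := (List.range j).map (fun i => (capL q i - 3, widL q i))

lemma mem_lowSlots (q j : ℕ) (s : ℕ × ℕ) (hs : s ∈ lowSlots q j) :
    ∃ i < j, s = (capL q i - 3, widL q i) := by
  unfold lowSlots at hs
  obtain ⟨i, hi, rfl⟩ := List.mem_map.mp hs
  exact ⟨i, List.mem_range.mp hi, rfl⟩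

lemma length_lowSlots (q j : ℕ) : (lowSlots q j).length = j := by
  simp [lowSlots]

lemma gam_mono (q i : ℕ) : gam q i ≤ gam q (i + 1) := by
  unfold gam
  omega

lemma cap_step (q j : ℕ) (hq : 8 ≤ q) (hj : j + 1 < nLev q) :
    capL q j + 1 ≤ 2 * (capL q (j + 1) + 1) := by
  obtain ⟨e, h1, _, _, h2, _⟩ := cap_large q j hq (by omega)
  obtain ⟨e', h3, _, _, h4, _⟩ := cap_large q (j + 1) hq hj
  have he : e = e' + 1 := by omega
  rw [h2, h4, he, pow_succ]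
  have h5 := gam_mono q j
  calc gam q j * (2 ^ e' * 2) = 2 * (gam q j * 2 ^ e') := by ring
    _ ≤ 2 * (gam q (j + 1) * 2 ^ e') :=
        Nat.mul_le_mul_left _ (Nat.mul_le_mul_right _ h5)

lemma cap_ge (q i : ℕ) (hq : 8 ≤ q) (hi : i < nLev q) : 3 ≤ capL q i := by
  obtain ⟨e', _, he, _, _, hle⟩ := cap_large q i hq hi
  have : 8 ≤ 2 ^ e' := by
    calc 8 = 2 ^ 3 := by norm_num
      _ ≤ 2 ^ e' := Nat.pow_le_pow_right (by norm_num) (by omega)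
  omega

lemma low_chain (q m2 r₁ : ℕ) (hq : 8 ≤ q) (hm2 : 2 ≤ m2) (hr : r₁ ≤ capL q 0 - 3 + 2) :
    ∀ j, j + 1 ≤ nLev q →
      rfold m2 r₁ (lowSlots q (j + 1)) ≤ capL q j - 3 + 2 + (2 * j + 1) * m2 := by
  intro j
  induction j with
  | zero =>
    intro _
    have h1 : rfold m2 r₁ (lowSlots q 1) = rstep m2 r₁ (capL q 0 - 3) := rfl
    rw [h1]
    unfold rstep
    simp only [mul_zero, zero_add, one_mul]
    omega
  | succ j ih =>
    intro hj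
    have h0 := ih (by omega)
    have h1 : lowSlots q (j + 1 + 1) = lowSlots q (j + 1) ++ [(capL q (j + 1) - 3, widL q (j + 1))] := by
      unfold lowSlots
      rw [List.range_succ (n := j + 1), List.map_append]
      rfl
    rw [h1, rfold_append]
    have h2 : rfold m2 (rfold m2 r₁ (lowSlots q (j + 1))) [(capL q (j + 1) - 3, widL q (j + 1))]
        = rstep m2 (rfold m2 r₁ (lowSlots q (j + 1))) (capL q (j + 1) - 3) := rfl
    rw [h2]
    have h3 := cap_step q j hq (by omega)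
    have h4 := cap_ge q j hq (by omega)
    have h5 := cap_ge q (j + 1) hq (by omega)
    unfold rstep
    have h6 : (2 * (j + 1) + 1) * m2 = (2 * j + 1) * m2 + 2 * m2 := by ring
    rw [h6]
    generalize (2 * j + 1) * m2 = x at h0 ⊢
    generalize rfold m2 r₁ (lowSlots q (j + 1)) = R at h0 ⊢
    omega

lemma pow_sq_le (q : ℕ) (hq : 4 ≤ q) : q * q ≤ 2 ^ q := by
  induction q, hq using Nat.le_induction with
  | base => norm_num
  | succ n hn ih =>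
    rw [pow_succ]
    nlinarith

/-- The upper bound on the modulus of the level system. -/
lemma H_le (e ℓ : ℕ) (S : Finset ℕ) (hS : Vale.Agent.Egypt.Good ℓ S) :
    Mult e * ∏ p ∈ S, p ≤ 2 ^ (e + 21 + 4 * (2 * ℓ + 6) * 2 ^ ℓ) := by
  have h1 : Mult e ≤ 2 ^ (e + 21) := by
    unfold Mult
    rw [pow_add]
    exact Nat.mul_le_mul_left _ (by norm_num)
  have h2 : ∏ p ∈ S, p ≤ 2 ^ (4 * (2 * ℓ + 6) * 2 ^ ℓ) := by
    calc ∏ p ∈ S, p ≤ ∏ _p ∈ S, 16 ^ (2 * ℓ + 6) := prod_le_prod' (fun p hp => (hS.2 p hp).2.2)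
      _ = (16 ^ (2 * ℓ + 6)) ^ S.card := by simp
      _ = 2 ^ (4 * (2 * ℓ + 6) * 2 ^ ℓ) := by
          rw [hS.1, ← pow_mul, mul_assoc, pow_mul 2 4]
          norm_num
  calc Mult e * ∏ p ∈ S, p ≤ 2 ^ (e + 21) * 2 ^ (4 * (2 * ℓ + 6) * 2 ^ ℓ) := Nat.mul_le_mul h1 h2
    _ = 2 ^ (e + 21 + 4 * (2 * ℓ + 6) * 2 ^ ℓ) := (pow_add _ _ _).symm

lemma num_V (q V ℓ : ℕ) (hq : 8 ≤ q) (hV : V = 2 ^ (2 ^ q - 4)) (hℓ : ℓ = 9 * q + 101) :
    4 * (2 * ℓ + 6) * 2 ^ ℓ ≤ V ∧ 2 ^ (q + 24) ≤ V ∧ ℓ * (144 * ℓ + 432) ≤ V ∧ 93 ≤ V := by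
  have hself2 := self_le_pow2 q hq
  obtain ⟨I, hI⟩ : ∃ I, I = 2 ^ q := ⟨_, rfl⟩
  rw [← hI] at hV hself2
  have hmono : ∀ k, k ≤ I - 4 → 2 ^ k ≤ V := by
    intro k hk
    rw [hV]
    exact Nat.pow_le_pow_right (by norm_num) hk
  refine ⟨?_, hmono _ (by omega), ?_, ?_⟩
  · have h1 : 2 * ℓ + 6 ≤ 2 ^ (q + 1) := by
      rw [pow_succ, ← hI, hℓ]
      omega
    calc 4 * (2 * ℓ + 6) * 2 ^ ℓ ≤ 2 ^ 2 * 2 ^ (q + 1) * 2 ^ ℓ := by
          apply Nat.mul_le_mul_right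
          exact Nat.mul_le_mul (by norm_num) h1
      _ = 2 ^ (2 + (q + 1) + ℓ) := by ring
      _ ≤ V := hmono _ (by omega)
  · have h1 : ℓ ≤ 2 ^ q := by
      rw [← hI, hℓ]
      omega
    have h2 : 144 * ℓ + 432 ≤ 2 ^ 8 * 2 ^ q := by
      rw [← hI, hℓ]
      norm_num
      omega
    calc ℓ * (144 * ℓ + 432) ≤ 2 ^ q * (2 ^ 8 * 2 ^ q) := Nat.mul_le_mul h1 h2
      _ = 2 ^ (q + (8 + q)) := by ring
      _ ≤ V := hmono _ (by omega)
  · have h1 := hmono 7 (by omega)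
    norm_num at h1
    omega

lemma num_Z (D H₁ e ℓ V N E ce t₀ t₁ q : ℕ) (hD : D ≤ 2 ^ (72 + (8 * V + 2 * V)))
    (hH : H₁ ≤ 2 ^ (e + 21 + 4 * (2 * ℓ + 6) * 2 ^ ℓ))
    (h1 : 4 * (2 * ℓ + 6) * 2 ^ ℓ ≤ V) (h2 : 2 ^ (q + 24) ≤ V) (h3 : ℓ * (144 * ℓ + 432) ≤ V)
    (h4 : 93 ≤ V) (hce : ce = e + t₀ + 1) (ht₁ : t₁ = t₀ + ℓ * (144 * ℓ + 432))
    (hN : N = 2 ^ (q + 24) + ce + t₁) (hE : E = 16 * V + 2 * ce) :
    D * H₁ * 2 ^ N ≤ 2 ^ (E + 1) := by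
  calc D * H₁ * 2 ^ N
      ≤ 2 ^ (72 + (8 * V + 2 * V)) * 2 ^ (e + 21 + 4 * (2 * ℓ + 6) * 2 ^ ℓ) * 2 ^ N := by
        apply Nat.mul_le_mul_right
        exact Nat.mul_le_mul hD hH
    _ = 2 ^ (72 + (8 * V + 2 * V) + (e + 21 + 4 * (2 * ℓ + 6) * 2 ^ ℓ) + N) := by
        rw [pow_add _ (72 + (8 * V + 2 * V) + (e + 21 + 4 * (2 * ℓ + 6) * 2 ^ ℓ)) N,
          pow_add _ (72 + (8 * V + 2 * V))]
    _ ≤ 2 ^ (E + 1) := by
        apply Nat.pow_le_pow_right (by norm_num)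
        rw [hN, ht₁, hE]
        generalize 4 * (2 * ℓ + 6) * 2 ^ ℓ = W at h1 ⊢
        generalize 2 ^ (q + 24) = Y at h2 ⊢
        generalize ℓ * (144 * ℓ + 432) = Z at h3 ⊢
        omega

lemma num_G (X k : ℕ) (hX : 1 ≤ X) : X + k ≤ X * 2 ^ k := by
  have h1 : k < 2 ^ k := Nat.lt_two_pow_self
  have h2 : X * (k + 1) ≤ X * 2 ^ k := Nat.mul_le_mul_left _ h1
  have h3 : k ≤ X * k := Nat.le_mul_of_pos_left k hX
  have h4 : X * (k + 1) = X * k + X := by ring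
  omega

lemma num_N (q V A ce n r₀ β E t₁ N : ℕ) (hq : 8 ≤ q) (hV : V = 2 ^ (2 ^ q - 4))
    (hA : A = 2 ^ (2 ^ q - q - 16)) (hβ : β = V) (hE : E = 16 * V + 2 * ce)
    (hr₀ : r₀ = 2 * β + 3 * E + 4) (hn : n = r₀ / A + 1) (hN : N = 2 ^ (q + 24) + ce + t₁) :
    13 * (n + nLev q) + t₁ ≤ N := by
  have hself2 := self_le_pow2 q hq
  have hVpos : 1 ≤ V := by
    rw [hV]
    exact Nat.one_le_two_pow
  have hApos : 0 < A := by
    rw [hA]
    positivity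
  have hnLev : nLev q ≤ 2 ^ q := Nat.sub_le _ _
  have h1 : A * 2 ^ (q + 18) = 64 * V := by
    rw [hA, hV, ← pow_add, show (64 : ℕ) = 2 ^ 6 by norm_num, ← pow_add]
    congr 1
    omega
  have hn1 : r₀ ≤ A * 2 ^ (q + 18) + 6 * ce := by
    rw [h1, hr₀, hE, hβ]
    omega
  have hn2 : r₀ / A ≤ 2 ^ (q + 18) + 6 * ce / A := by
    calc r₀ / A ≤ (A * 2 ^ (q + 18) + 6 * ce) / A := Nat.div_le_div_right hn1
      _ = 2 ^ (q + 18) + 6 * ce / A := Nat.mul_add_div hApos _ _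
  have hA78 : 78 ≤ A := by
    have h2 : 2 ^ 7 ≤ A := by
      rw [hA]
      apply Nat.pow_le_pow_right (by norm_num)
      omega
    norm_num at h2
    omega
  have hn3 : 6 * ce / A ≤ 6 * ce / 78 := Nat.div_le_div_left hA78 (by norm_num)
  have hpq : 2 ^ (q + 18) = 262144 * 2 ^ q := by
    rw [pow_add]
    norm_num
    ring
  have hpq24 : 2 ^ (q + 24) = 16777216 * 2 ^ q := by
    rw [pow_add]
    norm_num
    ring
  have hP : 1 ≤ 2 ^ q := Nat.one_le_two_pow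
  rw [hn, hN]
  rw [hpq] at hn2
  rw [hpq24]
  generalize r₀ / A = x at hn2 ⊢
  generalize 6 * ce / A = y at hn2 hn3 ⊢
  generalize nLev q = L at hnLev ⊢
  generalize 2 ^ q = P at hnLev hn2 hP ⊢
  omega

lemma fin_bits (q m2 r₀ n A : ℕ) (hq : 8 ≤ q) (hm2 : m2 = 2 ^ (8 * q + 66))
    (hcapA : capL q 0 + 1 = 2 * A) (hm2A : 2 * (m2 + 2) ≤ A) (hn : n = r₀ / A + 1) :
    rfold m2 r₀ (List.replicate n (capL q 0 - 3, widL q 0) ++ lowSlots q (nLev q))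
      ≤ 2 ^ (9 * q + 101) := by
  have hself2 := self_le_pow2 q hq
  have hm22 : 2 ≤ m2 := by
    rw [hm2]
    calc 2 = 2 ^ 1 := by norm_num
      _ ≤ 2 ^ (8 * q + 66) := Nat.pow_le_pow_right (by norm_num) (by omega)
  have hApos : 0 < A := by omega
  rw [rfold_append]
  have hstepA : A ≤ capL q 0 - 3 + 2 - m2 := by omega
  have h1 := rfold_replicate m2 (capL q 0 - 3) (widL q 0) (by omega) n r₀
  have h2 : r₀ ≤ n * (capL q 0 - 3 + 2 - m2) := by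
    have h3 : r₀ ≤ n * A := by
      rw [hn]
      have h4 := Nat.div_add_mod r₀ A
      have h5 := Nat.mod_lt r₀ hApos
      have h6 : (r₀ / A + 1) * A = A * (r₀ / A) + A := by ring
      rw [h6]
      omega
    exact h3.trans (Nat.mul_le_mul_left _ hstepA)
  have h4 : rfold m2 r₀ (List.replicate n (capL q 0 - 3, widL q 0)) ≤ capL q 0 - 3 + 2 := by
    refine h1.trans ?_
    have h5 : r₀ - n * (capL q 0 - 3 + 2 - m2) = 0 := Nat.sub_eq_zero_of_le h2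
    rw [h5]
    exact max_le (le_refl _) (Nat.zero_le _)
  have hL : 1 ≤ nLev q := by
    unfold nLev
    omega
  have h6 := low_chain q m2 _ hq hm22 h4 (nLev q - 1) (by omega)
  have h7 : nLev q - 1 + 1 = nLev q := by omega
  rw [h7] at h6
  refine h6.trans ?_
  obtain ⟨e1, he1I, he1, _, hcap1, _⟩ := cap_large q (nLev q - 1) hq (by omega)
  have he18 : e1 = 8 * q + 86 := by
    unfold nLev at *
    omega
  have hg1 : gam q (nLev q - 1) ≤ 2 ^ q := by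
    unfold gam
    apply max_le Nat.one_le_two_pow
    unfold nLev
    omega
  have h8 : capL q (nLev q - 1) + 1 ≤ 2 ^ (9 * q + 86) := by
    rw [hcap1, he18]
    calc gam q (nLev q - 1) * 2 ^ (8 * q + 86) ≤ 2 ^ q * 2 ^ (8 * q + 86) :=
          Nat.mul_le_mul_right _ hg1
      _ = 2 ^ (9 * q + 86) := by ring
  have h9 : (2 * (nLev q - 1) + 1) * m2 ≤ 2 ^ (9 * q + 67) := by
    have h10 : 2 * (nLev q - 1) + 1 ≤ 2 * 2 ^ q := by
      have : nLev q ≤ 2 ^ q := Nat.sub_le _ _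
      omega
    calc (2 * (nLev q - 1) + 1) * m2 ≤ (2 * 2 ^ q) * 2 ^ (8 * q + 66) := by
          rw [hm2]
          exact Nat.mul_le_mul_right _ h10
      _ = 2 ^ (9 * q + 67) := by ring
  have h12 : 2 ^ (9 * q + 86) ≤ 2 ^ (9 * q + 100) := Nat.pow_le_pow_right (by norm_num) (by omega)
  have h13 : 2 ^ (9 * q + 67) ≤ 2 ^ (9 * q + 100) := Nat.pow_le_pow_right (by norm_num) (by omega)
  have h14 : 2 ^ (9 * q + 101) = 2 * 2 ^ (9 * q + 100) := by ring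
  have h15 : 2 ≤ 2 ^ (9 * q + 100) := by
    calc 2 = 2 ^ 1 := by norm_num
      _ ≤ 2 ^ (9 * q + 100) := Nat.pow_le_pow_right (by norm_num) (by omega)
  omega

lemma num_count (q ℓ I ce t₀ t₁ N n L : ℕ) (hq : 8 ≤ q) (hI : I = 2 ^ q) (hℓ : ℓ = 9 * q + 101)
    (ht₁ : t₁ = t₀ + ℓ * (144 * ℓ + 432)) (hN : N = 2 ^ (q + 24) + ce + t₁)
    (hNb : 13 * (n + L) + t₁ ≤ N) :
    I + 2 * ce + 1 + 1 + 13 * (n + L) + t₁ ≤ (2 * ce + 3 + 2 ^ 24 + ce + t₀ + 70884 + 1) * 2 ^ q := by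
  have hq2 : q * q ≤ 2 ^ q := pow_sq_le q (by omega)
  have h8 : ℓ * (144 * ℓ + 432) ≤ 70884 * 2 ^ q := by
    have h9 : ℓ ≤ 22 * q := by
      rw [hℓ]
      omega
    have h10 : 144 * ℓ + 432 ≤ 3222 * q := by
      rw [hℓ]
      omega
    calc ℓ * (144 * ℓ + 432) ≤ (22 * q) * (3222 * q) := Nat.mul_le_mul h9 h10
      _ = 70884 * (q * q) := by ring
      _ ≤ 70884 * 2 ^ q := Nat.mul_le_mul_left _ hq2
  have hP : 1 ≤ 2 ^ q := Nat.one_le_two_pow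
  have hpq24 : 2 ^ (q + 24) = 16777216 * 2 ^ q := by
    rw [pow_add]
    norm_num
    ring
  have h10 : ce ≤ ce * 2 ^ q := Nat.le_mul_of_pos_right _ (by omega)
  have h11 : t₀ ≤ t₀ * 2 ^ q := Nat.le_mul_of_pos_right _ (by omega)
  have h12 : (2 * ce + 3 + 2 ^ 24 + ce + t₀ + 70884 + 1) * 2 ^ q
      = 2 * (ce * 2 ^ q) + 3 * 2 ^ q + 16777216 * 2 ^ q + ce * 2 ^ q + t₀ * 2 ^ q
        + 70884 * 2 ^ q + 2 ^ q := by ring
  rw [h12, hI]
  rw [hN, ht₁, hpq24] at hNb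
  rw [ht₁]
  generalize ce * 2 ^ q = c' at h10 ⊢
  generalize t₀ * 2 ^ q = t' at h11 ⊢
  generalize ℓ * (144 * ℓ + 432) = Z at h8 hNb ⊢
  generalize 2 ^ q = P at h8 hP hNb ⊢
  omega

/-- The main representation, with no width condition. -/
theorem main_rep2 (e t₀ : ℕ) (hlev : ∀ ℓ, 7 ≤ ℓ → ∃ S : Finset ℕ, Vale.Agent.Egypt.Good ℓ S ∧
      Sums (Mult e * ∏ p ∈ S, p) (t₀ + ℓ * (144 * ℓ + 432)))
    (q : ℕ) (hq : 8 ≤ q) (a b : ℕ) (ha : 1 ≤ a) (hab : a < b) (hb : b ≤ 2 ^ (2 ^ (2 ^ q - 4))) :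
    Rep ((a : ℚ) / b)
      ((2 * (e + t₀ + 1) + 3 + 2 ^ 24 + (e + t₀ + 1) + t₀ + 70884 + 1) * 2 ^ q) := by
  have hself2 := self_le_pow2 q hq
  obtain ⟨D, hD0, hDle, hDp, hDc⟩ := system q hq
  obtain ⟨ℓ, hℓ⟩ : ∃ ℓ, ℓ = 9 * q + 101 := ⟨_, rfl⟩
  obtain ⟨S, hS, hSums⟩ := hlev ℓ (by omega)
  obtain ⟨H₁, hH₁⟩ : ∃ H₁, H₁ = Mult e * ∏ p ∈ S, p := ⟨_, rfl⟩
  rw [← hH₁] at hSums
  have hHlow : 2 ^ (2 ^ ℓ) ≤ H₁ := by
    rw [hH₁]
    exact good_size e ℓ S hS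
  have hHup : H₁ ≤ 2 ^ (e + 21 + 4 * (2 * ℓ + 6) * 2 ^ ℓ) := by
    rw [hH₁]
    exact H_le e ℓ S hS
  have hHpos : 0 < H₁ := lt_of_lt_of_le (by positivity) hHlow
  obtain ⟨t₁, ht₁⟩ : ∃ t₁, t₁ = t₀ + ℓ * (144 * ℓ + 432) := ⟨_, rfl⟩
  rw [← ht₁] at hSums
  obtain ⟨ce, hce⟩ : ∃ ce, ce = e + t₀ + 1 := ⟨_, rfl⟩
  rw [← hce]
  obtain ⟨m2, hm2⟩ : ∃ m2, m2 = 2 ^ (8 * q + 66) := ⟨_, rfl⟩
  have hMb : primorial (2 ^ (8 * q + 64)) * (2 ^ (2 ^ q) + 2) + 1 ≤ 2 ^ m2 := by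
    rw [hm2]
    apply M_bound' _ _ _ _ Nat.one_le_two_pow
    have h5 : 2 ^ (8 * q + 66) = 4 * 2 ^ (8 * q + 64) := by ring
    have h6 : 2 ^ q ≤ 2 ^ (8 * q + 64) := Nat.pow_le_pow_right (by norm_num) (by omega)
    have h7 : 2 ≤ 2 ^ (8 * q + 64) := by
      calc 2 = 2 ^ 1 := by norm_num
        _ ≤ 2 ^ (8 * q + 64) := Nat.pow_le_pow_right (by norm_num) (by omega)
    omega
  -- powers of two
  obtain ⟨V, hV⟩ : ∃ V, V = 2 ^ (2 ^ q - 4) := ⟨_, rfl⟩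
  obtain ⟨hV1, hV2, hV3, hV4⟩ := num_V q V ℓ hq hV hℓ
  have hDbits : D ≤ 2 ^ (72 + (8 * V + 2 * V)) := by
    have h1 : 2 ^ (2 ^ q - 1) = 8 * V := by
      rw [hV, show 2 ^ q - 1 = (2 ^ q - 4) + 3 by omega, pow_add]
      norm_num
      ring
    have h2 : 2 ^ (2 ^ q - 3) = 2 * V := by
      rw [hV, show 2 ^ q - 3 = (2 ^ q - 4) + 1 by omega, pow_add]
      norm_num
      ring
    rw [h1, h2] at hDle
    rw [pow_add]
    exact hDle
  -- the top slot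
  obtain ⟨A, hA⟩ : ∃ A, A = 2 ^ (2 ^ q - q - 16) := ⟨_, rfl⟩
  obtain ⟨e0, he0I, he0, _, hcap0, _⟩ := cap_large q 0 hq (by unfold nLev; omega)
  have hgam0 : gam q 0 = 1 := by
    unfold gam
    omega
  have hcapA : capL q 0 + 1 = 2 * A := by
    rw [hcap0, hgam0, one_mul, hA]
    have h1 : e0 = (2 ^ q - q - 16) + 1 := by omega
    rw [h1, pow_succ]
    ring
  have hm2A : 2 * (m2 + 2) ≤ A := by
    have h1 : 2 ^ (8 * q + 68) ≤ A := by
      rw [hA]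
      apply Nat.pow_le_pow_right (by norm_num)
      omega
    have h2 : 2 ^ (8 * q + 68) = 4 * m2 := by
      rw [hm2]
      ring
    have h3 : 2 ≤ m2 := by
      rw [hm2]
      calc 2 = 2 ^ 1 := by norm_num
        _ ≤ 2 ^ (8 * q + 66) := Nat.pow_le_pow_right (by norm_num) (by omega)
    have h4 : 2 ^ (8 * q + 69) ≤ A := by
      rw [hA]
      apply Nat.pow_le_pow_right (by norm_num)
      omega
    have h5 : 2 ^ (8 * q + 69) = 8 * m2 := by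
      rw [hm2]
      ring
    omega
  -- the parameters
  obtain ⟨E, hE⟩ : ∃ E, E = 16 * V + 2 * ce := ⟨_, rfl⟩
  obtain ⟨β, hβ⟩ : ∃ β, β = V := ⟨_, rfl⟩
  have hb' : b ≤ 2 ^ β := by
    rw [hβ, hV]
    exact hb
  obtain ⟨r₀, hr₀⟩ : ∃ r₀, r₀ = 2 * β + 3 * E + 4 := ⟨_, rfl⟩
  obtain ⟨n, hn⟩ : ∃ n, n = r₀ / A + 1 := ⟨_, rfl⟩
  obtain ⟨N, hN⟩ : ∃ N, N = 2 ^ (q + 24) + ce + t₁ := ⟨_, rfl⟩
  obtain ⟨slots, hslots⟩ : ∃ slots,
      slots = List.replicate n (capL q 0 - 3, widL q 0) ++ lowSlots q (nLev q) := ⟨_, rfl⟩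
  have hlen : slots.length = n + nLev q := by
    rw [hslots, List.length_append, List.length_replicate, length_lowSlots]
  have hNb := num_N q V A ce n r₀ β E t₁ N hq hV hA hβ hE hr₀ hn hN
  have hZ := num_Z D H₁ e ℓ V N E ce t₀ t₁ q hDbits hHup hV1 hV2 hV3 hV4 hce ht₁ hN hE
  obtain ⟨G, hG⟩ : ∃ G, G = 2 ^ q + 2 * ce + 1 := ⟨_, rfl⟩
  have hGE : E + 1 ≤ 2 ^ G := by
    have h1 := num_G (2 ^ (2 ^ q)) (2 * ce + 1) Nat.one_le_two_pow
    have h2 : 2 ^ G = 2 ^ (2 ^ q) * 2 ^ (2 * ce + 1) := by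
      rw [hG, add_assoc, pow_add]
    have h3 : 2 ^ (2 ^ q) = 16 * V := by
      rw [hV, show 2 ^ q = (2 ^ q - 4) + 4 by omega, pow_add]
      norm_num
      ring
    rw [h2, hE]
    rw [h3] at h1 ⊢
    omega
  have hfin : 2 ^ rfold m2 (2 * β + 3 * E + 4) slots ≤ H₁ := by
    refine le_trans (Nat.pow_le_pow_right (by norm_num) ?_) hHlow
    rw [hslots, ← hr₀, hℓ]
    exact fin_bits q m2 r₀ n A hq hm2 hcapA hm2A hn
  have hsl : ∀ s ∈ slots, ∃ i < nLev q, s = (capL q i - 3, widL q i) := by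
    intro s hs
    rw [hslots] at hs
    rcases List.mem_append.mp hs with h | h
    · exact ⟨0, by unfold nLev; omega, List.eq_of_mem_replicate h⟩
    · exact mem_lowSlots q _ s h
  have hmain := scheme2 a b ha hab D (primorial (2 ^ (8 * q + 64))) (2 ^ (2 ^ q)) H₁ t₁ E G N m2 β
    slots hD0 (primorial_pos _) ?_ ?_ ?_ ?_ hSums hHpos (by omega) (by rw [hlen]; exact hNb)
    hZ hGE hb' hfin
  · -- the count
    refine hmain.mono ?_
    rw [hlen, hG]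
    exact num_count q ℓ _ ce t₀ t₁ N n (nLev q) hq rfl hℓ ht₁ hN hNb
  · -- the primes of `D`
    intro p hp hdvd
    rcases hDp p hp hdvd with h | h
    · left
      apply prime_dvd_primorial _ _ hp
      refine h.trans ?_
      calc 43 ≤ 2 ^ 6 := by norm_num
        _ ≤ 2 ^ (8 * q + 64) := Nat.pow_le_pow_right (by norm_num) (by omega)
    · right
      refine lt_of_le_of_lt ?_ h
      refine le_trans ?_ (le_of_eq (four_pow_eq (2 ^ (q + 4))).symm)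
      apply Nat.pow_le_pow_right (by norm_num)
      have h2 : 2 ^ (q + 4) = 16 * 2 ^ q := by
        rw [pow_add]
        ring
      omega
  · -- number of primes
    apply card_primeFactors_le_of_le D _ hD0
    refine hDle.trans ?_
    rw [← pow_add]
    apply Nat.pow_le_pow_right (by norm_num)
    exact num_card _ (by omega)
  · -- the cover
    intro s hs f hf1 hf2 hfM hcop
    obtain ⟨i, hi, rfl⟩ := hsl s hs
    have h3 := cap_ge q i hq hi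
    simp only at hf1 hf2 ⊢
    have h4 : capL q i - 3 + 3 = capL q i := by omega
    rw [h4] at hf2
    have h5 : 1 < f := by
      have : 2 ≤ 2 ^ (capL q i - 3 + 1) := by
        calc 2 = 2 ^ 1 := by norm_num
          _ ≤ 2 ^ (capL q i - 3 + 1) := Nat.pow_le_pow_right (by norm_num) (by omega)
      omega
    exact hDc i hi f h5 hf2.le (primes_large_of_mod _ f hfM) hcop
  · -- sizes
    intro s hs
    obtain ⟨i, hi, rfl⟩ := hsl s hs
    obtain ⟨e', hI', he, _, hcap, hle⟩ := cap_large q i hq hi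
    have h8 : 2 ^ (8 * q + 86) ≤ 2 ^ e' := Nat.pow_le_pow_right (by norm_num) he
    exact num_size q _ _ _ (capL q i) rfl rfl rfl hq (h8.trans hle)

/-- The representation with the final count. -/
theorem main_count2 : ∃ C₀ : ℕ, ∀ q : ℕ, 8 ≤ q → ∀ b a : ℕ, 1 ≤ a → a < b →
    b ≤ 2 ^ (2 ^ (2 ^ q - 4)) → Rep ((a : ℚ) / b) (C₀ * 2 ^ q) := by
  obtain ⟨e, t₀, hlev⟩ := all_levels
  exact ⟨_, fun q hq b a ha hab hb => main_rep2 e t₀ hlev q hq a b ha hab hb⟩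

end Vale.Agent.helper7.Eg
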