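import Vale.Agent.helper7.Eg.Level

open Finset

namespace Vale.Agent.helper7.Eg

open Vale.Agent.Egypt

/-- Number of levels. -/
def nLev (q : ℕ) : ℕ := 2 ^ q - (9 * q + 100)

/-- Number of groups in a block at level `i`. -/
def sLev (q i : ℕ) : ℕ := 2 ^ (2 ^ q - i - (q + 15))

/-- Logarithm of the size of a group at level `i`. -/
def gam (q i : ℕ) : ℕ := max 1 (i - q)

/-- Logarithm of the largest modulus at level `i`. -/
def capL (q i : ℕ) : ℕ := gam q i * sLev q i - 1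

/-- Logarithm of the size of the terms at level `i`. -/
def widL (q i : ℕ) : ℕ := 2 ^ (2 ^ q - i - 2)

lemma self_le_pow (q : ℕ) (hq : 8 ≤ q) : 10 * q + 100 ≤ 2 ^ q := by
  induction q, hq using Nat.le_induction with
  | base => norm_num
  | succ n hn ih =>
    rw [pow_succ]
    omega

lemma lev_param (q i : ℕ) (hq : 8 ≤ q) (hi : i < nLev q) :
    ∃ e, 2 ^ q = i + e + q + 15 ∧ 8 * q + 86 ≤ e := by
  have h1 := self_le_pow q hq
  unfold nLev at hi
  refine ⟨2 ^ q - i - q - 15, by omega, by omega⟩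

lemma gam_pos (q i : ℕ) : 1 ≤ gam q i := le_max_left _ _

lemma gam_le (q i : ℕ) : gam q i ≤ 2 ^ i := by
  unfold gam
  apply max_le Nat.one_le_two_pow
  exact (Nat.sub_le _ _).trans Nat.lt_two_pow_self.le

/-- The facts on one level. -/
theorem level_at (q i : ℕ) (hq : 8 ≤ q) (hi : i < nLev q) :
    ∃ ρ : ℕ, 0 < ρ ∧ ρ ^ 2 ≤ 2 ^ (2 ^ (2 ^ q - i - 3 + gam q i)) ∧
      (∀ p : ℕ, p.Prime → p ∣ ρ → 4 ^ (2 ^ (q + 4)) < p) ∧
      ∀ f : ℕ, 1 < f → f ≤ 2 ^ capL q i → (∀ p : ℕ, p.Prime → p ∣ f → 2 ^ (8 * q + 64) < p) →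
        Nat.Coprime f (Lam * ρ ^ 2) → Cover (Lam * ρ ^ 2) f (widL q i) := by
  obtain ⟨e, hI, he⟩ := lev_param q i hq hi
  have hself := self_le_pow q hq
  have hs : sLev q i = 2 ^ e := by
    unfold sLev
    congr 1
    omega
  have hw : widL q i = 2 ^ (e + q + 13) := by
    unfold widL
    congr 1
    omega
  have hcap : capL q i + 1 = gam q i * 2 ^ e := by
    unfold capL
    rw [hs]
    have : 0 < gam q i * 2 ^ e := Nat.mul_pos (gam_pos q i) (by positivity)
    omega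
  have hgle : gam q i ≤ 2 ^ i := gam_le q i
  have hcaple : capL q i + 1 ≤ 2 ^ (i + e) := by
    rw [hcap, pow_add]
    exact Nat.mul_le_mul_right _ hgle
  have hgI : gam q i ≤ 2 ^ q := by
    unfold gam
    apply max_le Nat.one_le_two_pow
    omega
  set I := 2 ^ q with hIdef
  have hv8 : 8 * 2 ^ (q + 1) = 2 ^ (q + 4) := by
    rw [pow_add, pow_add]
    norm_num
    ring
  -- the hypotheses of the level theorem
  have hB : (4 * (32 * 2 ^ (q + 1))) ^ 8 ≤ 2 ^ (8 * q + 64) := by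
    apply le_of_eq
    have : 4 * (32 * 2 ^ (q + 1)) = 2 ^ (q + 8) := by
      rw [pow_add, pow_add]
      norm_num
      ring
    rw [this, ← pow_mul]
    congr 1
    ring
  have hC : 2 * 2 ^ capL q i ≤ (2 ^ gam q i) ^ sLev q i := by
    rw [← pow_succ', ← pow_mul, hcap, hs]
  have hD : 2 * sLev q i * 2 ^ gam q i * (capL q i + 1) ≤ (cand (8 * 2 ^ (q + 1)) ∅).card := by
    have h1 := pool_large (8 * 2 ^ (q + 1)) (by
      have : 1 ≤ 2 ^ (q + 1) := Nat.one_le_two_pow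
      omega)
    have h2 : (16 : ℕ) ^ (8 * 2 ^ (q + 1)) = 2 ^ (64 * I) := by
      have : 64 * I = 4 * (8 * 2 ^ (q + 1)) := by
        rw [hIdef, pow_succ]
        ring
      rw [this, pow_mul 2 4]
      norm_num
    rw [h2] at h1
    have h3 : 2 * sLev q i * 2 ^ gam q i * (capL q i + 1) ≤ 2 ^ (3 * I + 1) := by
      have h4 : sLev q i ≤ 2 ^ I := by
        rw [hs]
        exact Nat.pow_le_pow_right (by norm_num) (by omega)
      have h5 : 2 ^ gam q i ≤ 2 ^ I := Nat.pow_le_pow_right (by norm_num) hgI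
      have h6 : capL q i + 1 ≤ 2 ^ I := hcaple.trans (Nat.pow_le_pow_right (by norm_num) (by omega))
      calc 2 * sLev q i * 2 ^ gam q i * (capL q i + 1) ≤ 2 * 2 ^ I * 2 ^ I * 2 ^ I := by
            gcongr
        _ = 2 ^ (3 * I + 1) := by ring
    refine h3.trans ?_
    have h7 : 2 ^ (3 * I + 1) * (8 * (8 * 2 ^ (q + 1))) ≤ 8 * (8 * 2 ^ (q + 1)) * (cand (8 * 2 ^ (q + 1)) ∅).card := by
      refine le_trans ?_ h1
      have h8 : (8 * (8 * 2 ^ (q + 1))) = 2 ^ (q + 7) := by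
        rw [pow_add, pow_add]
        norm_num
        ring
      rw [h8, ← pow_add]
      exact Nat.pow_le_pow_right (by norm_num) (by omega)
    rw [mul_comm] at h7
    exact Nat.le_of_mul_le_mul_left h7 (by positivity)
  have hE : 2 * (capL q i + 1) * (32 * 2 ^ (q + 1)) ≤ 2 ^ (2 ^ (q + 1)) := by
    have h1 : 2 ^ (q + 1) = 2 * I := by
      rw [hIdef, pow_succ]
      ring
    rw [h1]
    have h2 : capL q i + 1 ≤ 2 ^ I := hcaple.trans (Nat.pow_le_pow_right (by norm_num) (by omega))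
    have h3 : 32 * (2 * I) = 2 ^ (q + 6) := by
      rw [hIdef, pow_add]
      norm_num
      ring
    rw [h3]
    calc 2 * (capL q i + 1) * 2 ^ (q + 6) ≤ 2 * 2 ^ I * 2 ^ (q + 6) := by gcongr
      _ = 2 ^ (I + q + 7) := by ring
      _ ≤ 2 ^ (2 * I) := Nat.pow_le_pow_right (by norm_num) (by omega)
  have hF : 6 + 2 * (32 * (sLev q i * (32 * 2 ^ (q + 1)))) ≤ widL q i := by
    rw [hs, hw]
    have h1 : 2 * (32 * (2 ^ e * (32 * 2 ^ (q + 1)))) = 2 ^ (e + q + 12) := by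
      rw [pow_add, pow_add, pow_add]
      norm_num
      ring
    rw [h1]
    have h2 : 2 ^ (e + q + 13) = 2 * 2 ^ (e + q + 12) := by ring
    rw [h2]
    have h3 : 6 ≤ 2 ^ (e + q + 12) := by
      calc 6 ≤ 2 ^ 12 := by norm_num
        _ ≤ 2 ^ (e + q + 12) := Nat.pow_le_pow_right (by norm_num) (by omega)
    omega
  obtain ⟨ρ, h1, h2, h3, h4⟩ := level_complete (sLev q i) (2 ^ gam q i) (2 ^ (q + 1)) (2 ^ (8 * q + 64))
    (capL q i) (widL q i) Nat.one_le_two_pow (by positivity) hB hC hD hE hF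
  refine ⟨ρ, h1, ?_, ?_, h4⟩
  · have h5 : ρ ^ 2 ≤ (2 ^ (32 * 2 ^ (q + 1) * (32 * (sLev q i * 2 ^ gam q i)))) ^ 2 :=
      Nat.pow_le_pow_left h2 2
    refine h5.trans (le_of_eq ?_)
    rw [← pow_mul]
    congr 1
    rw [hs]
    have h6 : 2 ^ q - i - 3 + gam q i = e + q + 12 + gam q i := by omega
    rw [h6]
    rw [pow_add, pow_add, pow_add, pow_add]
    norm_num
    ring
  · intro p hp hdvd
    have h5 := h3 p hp hdvd
    rwa [hv8] at h5

/-- The sum over the levels of the size of the primes. -/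
lemma geom_id (m n : ℕ) (h : n ≤ m + 1) : ∑ i ∈ range n, 2 ^ (m - i) + 2 ^ (m + 1 - n) = 2 ^ (m + 1) := by
  induction n with
  | zero => simp
  | succ n ih =>
    have h1 := ih (by omega)
    rw [sum_range_succ]
    have h2 : m + 1 - n = (m + 1 - (n + 1)) + 1 := by omega
    have h3 : m - n = m + 1 - (n + 1) := by omega
    rw [h2, pow_succ] at h1
    rw [h3]
    omega

lemma sum_bits (q : ℕ) (hq : 8 ≤ q) :
    ∑ i ∈ range (nLev q), 2 ^ (2 ^ q - i - 3 + gam q i) ≤ 2 ^ (2 ^ q - 1) + 2 ^ (2 ^ q - 3) := by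
  have hself := self_le_pow q hq
  set I := 2 ^ q with hI
  have hterm : ∀ i ∈ range (nLev q), 2 ^ (I - i - 3 + gam q i) ≤ 2 ^ (I - 2 - i) + 2 ^ (I - q - 3) := by
    intro i hi
    have hi' : i < nLev q := mem_range.mp hi
    obtain ⟨e, hIe, he⟩ := lev_param q i hq hi'
    rw [← hI] at hIe
    rcases Nat.lt_or_ge q i with h | h
    · rcases Nat.lt_or_ge (q + 1) i with h2 | h2
      · have h3 : gam q i = i - q := by
          unfold gam
          apply max_eq_right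
          omega
        have h4 : I - i - 3 + gam q i = I - q - 3 := by
          rw [h3]
          omega
        rw [h4]
        exact Nat.le_add_left _ _
      · have h3 : gam q i = 1 := by
          unfold gam
          apply max_eq_left
          omega
        have h4 : I - i - 3 + gam q i = I - 2 - i := by
          rw [h3]
          omega
        rw [h4]
        exact Nat.le_add_right _ _
    · have h3 : gam q i = 1 := by
        unfold gam
        apply max_eq_left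
        omega
      have h4 : I - i - 3 + gam q i = I - 2 - i := by
        rw [h3]
        omega
      rw [h4]
      exact Nat.le_add_right _ _
  refine (sum_le_sum hterm).trans ?_
  rw [sum_add_distrib]
  apply add_le_add
  · have h1 := geom_id (I - 2) (nLev q) (by unfold nLev; omega)
    have h2 : I - 2 + 1 = I - 1 := by omega
    rw [h2] at h1
    exact Nat.le.intro h1
  · rw [sum_const, card_range, smul_eq_mul]
    have h1 : nLev q ≤ 2 ^ q := Nat.sub_le _ _
    have h2 : I - 3 = q + (I - q - 3) := by omega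
    rw [h2, pow_add]
    exact Nat.mul_le_mul_right _ h1

lemma Cover.mono {D D' f W : ℕ} (h : Cover D f W) (hD : D ∣ D') : Cover D' f W := by
  intro c
  obtain ⟨T, h1, h2, h3⟩ := h c
  exact ⟨T, h1, fun t ht => ⟨(h2 t ht).1.trans hD, (h2 t ht).2⟩, h3⟩

lemma Lam_le : Lam ≤ 2 ^ 72 := by
  unfold Lam
  simp [Fin.prod_univ_succ, lm]

lemma prime_dvd_Lam (p : ℕ) (hp : p.Prime) (h : p ∣ Lam) : p ≤ 43 := by
  obtain ⟨k, _, h1⟩ := (Prime.dvd_finsetProd_iff hp.prime _).mp h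
  have h2 := (Nat.prime_dvd_prime_iff_eq hp (lm_prime k)).mp h1
  rw [h2]
  exact lm_le k

/-- The whole system. -/
theorem system (q : ℕ) (hq : 8 ≤ q) :
    ∃ D : ℕ, 0 < D ∧ D ≤ 2 ^ 72 * 2 ^ (2 ^ (2 ^ q - 1) + 2 ^ (2 ^ q - 3)) ∧
      (∀ p : ℕ, p.Prime → p ∣ D → p ≤ 43 ∨ 4 ^ (2 ^ (q + 4)) < p) ∧
      ∀ i < nLev q, ∀ f : ℕ, 1 < f → f ≤ 2 ^ capL q i →
        (∀ p : ℕ, p.Prime → p ∣ f → 2 ^ (8 * q + 64) < p) →
        Nat.Coprime f D → Cover D f (widL q i) := by
  classical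
  have hex : ∀ i, ∃ ρ : ℕ, i < nLev q → (0 < ρ ∧ ρ ^ 2 ≤ 2 ^ (2 ^ (2 ^ q - i - 3 + gam q i)) ∧
      (∀ p : ℕ, p.Prime → p ∣ ρ → 4 ^ (2 ^ (q + 4)) < p) ∧
      ∀ f : ℕ, 1 < f → f ≤ 2 ^ capL q i → (∀ p : ℕ, p.Prime → p ∣ f → 2 ^ (8 * q + 64) < p) →
        Nat.Coprime f (Lam * ρ ^ 2) → Cover (Lam * ρ ^ 2) f (widL q i)) := by
    intro i
    by_cases hi : i < nLev q
    · obtain ⟨ρ, h⟩ := level_at q i hq hi
      exact ⟨ρ, fun _ => h⟩
    · exact ⟨0, fun h => absurd h hi⟩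
  choose ρ hρ using hex
  set PP := ∏ i ∈ range (nLev q), ρ i ^ 2 with hPP
  have hPPpos : 0 < PP := prod_pos (fun i hi => pow_pos (hρ i (mem_range.mp hi)).1 2)
  refine ⟨Lam * PP, Nat.mul_pos Lam_pos hPPpos, ?_, ?_, ?_⟩
  · apply Nat.mul_le_mul Lam_le
    have h1 : PP ≤ ∏ i ∈ range (nLev q), 2 ^ (2 ^ (2 ^ q - i - 3 + gam q i)) :=
      prod_le_prod' (fun i hi => (hρ i (mem_range.mp hi)).2.1)
    rw [prod_pow_eq_pow_sum] at h1
    exact h1.trans (Nat.pow_le_pow_right (by norm_num) (sum_bits q hq))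
  · intro p hp hdvd
    rcases (Nat.Prime.dvd_mul hp).mp hdvd with h | h
    · exact Or.inl (prime_dvd_Lam p hp h)
    · obtain ⟨i, hi, h1⟩ := (Prime.dvd_finsetProd_iff hp.prime _).mp h
      exact Or.inr ((hρ i (mem_range.mp hi)).2.2.1 p hp (hp.dvd_of_dvd_pow h1))
  · intro i hi f hf1 hfN hfZ hcop
    have hdvd : Lam * ρ i ^ 2 ∣ Lam * PP :=
      mul_dvd_mul_left _ (dvd_prod_of_mem (fun i => ρ i ^ 2) (mem_range.mpr hi))
    exact ((hρ i hi).2.2.2 f hf1 hfN hfZ (Nat.Coprime.coprime_dvd_right hdvd hcop)).mono hdvd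

end Vale.Agent.helper7.Eg
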