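import Vale.Agent.helper7.Eg.Count

open Finset

namespace Vale.Agent.helper7.Eg

noncomputable section

/-- An eighth root. -/
def th (u : ℕ) : ℝ := (u : ℝ) ^ ((1 : ℝ) / 8)

lemma th_pos {u : ℕ} (hu : 0 < u) : 0 < th u := by
  unfold th
  apply Real.rpow_pos_of_pos
  exact_mod_cast hu

lemma th_pow (u : ℕ) : th u ^ 8 = u := by
  unfold th
  rw [← Real.rpow_natCast, ← Real.rpow_mul (Nat.cast_nonneg _)]
  norm_num

lemma le_th {u : ℕ} (hu : 0 < u) (x : ℝ) (hx : 0 ≤ x) (h : x ^ 8 ≤ u) : x ≤ th u := by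
  have h1 : x ^ 8 ≤ th u ^ 8 := by rw [th_pow]; exact h
  exact (pow_le_pow_iff_left₀ hx (th_pos hu).le (by norm_num)).mp h1

/-- Averaging: a good point exists for nonnegative weights. -/
lemma avg_choice {α β : Type*} (T : Finset α) (hT : T.Nonempty) (U : Finset β) (c : β → ℝ)
    (φ : β → α → ℝ) (hφ : ∀ u ∈ U, ∑ x ∈ T, φ u x ≤ (T.card : ℝ)) (hc : ∀ u ∈ U, 0 ≤ c u) :
    ∃ x ∈ T, ∑ u ∈ U, c u * φ u x ≤ ∑ u ∈ U, c u := by
  have h1 : ∑ x ∈ T, ∑ u ∈ U, c u * φ u x ≤ ∑ _x ∈ T, ∑ u ∈ U, c u := by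
    rw [sum_comm]
    simp only [sum_const, nsmul_eq_mul]
    rw [mul_sum]
    refine sum_le_sum (fun u hu => ?_)
    rw [← mul_sum, mul_comm]
    exact mul_le_mul_of_nonneg_right (hφ u hu) (hc u hu)
  obtain ⟨x, hx, hle⟩ := exists_le_of_sum_le hT h1
  exact ⟨x, hx, hle⟩

/-- Sequential choice of `m` points. -/
lemma seq_choice {α β : Type*} (T : Finset α) (hT : T.Nonempty) (U : Finset β)
    (φ : β → α → ℝ) (hφ : ∀ u ∈ U, ∑ x ∈ T, φ u x ≤ (T.card : ℝ)) (hφ0 : ∀ u x, 0 ≤ φ u x) (m : ℕ) :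
    ∀ c : β → ℝ, (∀ u ∈ U, 0 ≤ c u) → ∃ r : Fin m → α, (∀ l, r l ∈ T) ∧
      ∑ u ∈ U, c u * ∏ l, φ u (r l) ≤ ∑ u ∈ U, c u := by
  induction m with
  | zero =>
    intro c _
    obtain ⟨x, _⟩ := hT
    exact ⟨fun l => l.elim0, fun l => l.elim0, by simp⟩
  | succ m ih =>
    intro c hc
    obtain ⟨x, hx, hle⟩ := avg_choice T hT U c φ hφ hc
    obtain ⟨r, hr, hle2⟩ := ih (fun u => c u * φ u x) (fun u hu => mul_nonneg (hc u hu) (hφ0 u x))
    refine ⟨Fin.cons x r, ?_, ?_⟩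
    · intro l
      refine Fin.cases ?_ ?_ l
      · simpa using hx
      · intro i
        simpa using hr i
    · have h1 : ∀ u ∈ U, c u * ∏ l : Fin (m + 1), φ u ((Fin.cons x r : Fin (m + 1) → α) l)
          = c u * φ u x * ∏ l, φ u (r l) := by
        intro u _
        rw [Fin.prod_univ_succ]
        simp
        ring
      rw [sum_congr rfl h1]
      exact hle2.trans hle

/-- Telescoping bound. -/
lemma sum_inv_sq_le (Z : ℕ) (hZ : 0 < Z) (N : ℕ) :
    ∑ u ∈ Ioc Z (Z + N), (1 : ℝ) / (u : ℝ) ^ 2 ≤ 1 / (Z : ℝ) - 1 / ((Z + N : ℕ) : ℝ) := by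
  induction N with
  | zero =>
    simp
  | succ N ih =>
    have hsplit : Ioc Z (Z + (N + 1)) = insert (Z + N + 1) (Ioc Z (Z + N)) := by
      ext x
      simp only [mem_Ioc, mem_insert]
      omega
    have hnot : (Z + N + 1) ∉ Ioc Z (Z + N) := by
      simp only [mem_Ioc]
      omega
    rw [hsplit, sum_insert hnot]
    have hpos : (0 : ℝ) < ((Z + N : ℕ) : ℝ) := by
      have : 0 < Z + N := by omega
      exact_mod_cast this
    have h1 : ((Z + N + 1 : ℕ) : ℝ) = ((Z + N : ℕ) : ℝ) + 1 := by push_cast; ring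
    have h2 : ((Z + (N + 1) : ℕ) : ℝ) = ((Z + N : ℕ) : ℝ) + 1 := by push_cast; ring
    rw [h1, h2]
    set y : ℝ := ((Z + N : ℕ) : ℝ) with hy
    have h3 : (1 : ℝ) / (y + 1) ^ 2 ≤ 1 / y - 1 / (y + 1) := by
      rw [div_sub_div _ _ hpos.ne' (by positivity), div_le_div_iff₀ (by positivity) (by positivity)]
      nlinarith
    linarith

lemma sum_inv_sq_lt (Z N : ℕ) (hZ : 2 ≤ Z) :
    ∑ u ∈ Ioc Z N, (1 : ℝ) / (u : ℝ) ^ 2 ≤ 1 / (Z : ℝ) := by
  by_cases h : Z ≤ N
  · obtain ⟨m, rfl⟩ := Nat.exists_eq_add_of_le h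
    have h1 := sum_inv_sq_le Z (by omega) m
    have h2 : (0 : ℝ) ≤ 1 / ((Z + m : ℕ) : ℝ) := by positivity
    linarith
  · rw [Ioc_eq_empty (by omega)]
    simp

/-- Amplified selection of flat blocks. -/
theorem level_blocks {s g : ℕ} (Pool : Finset ℕ) (hPool : Pool.Nonempty) (Z N : ℕ) (hZ : 2 ≤ Z)
    (G : ℝ) (hG : 0 < G)
    (havg : ∀ u ∈ Ioc Z N, ∑ r ∈ Fintype.piFinset (fun _ : Idx s g => Pool),
        (if Good u r then (Coll u r : ℝ) else 0) ≤
        ((Fintype.piFinset (fun _ : Idx s g => Pool)).card : ℝ) * (2 * G ^ 2 / th u ^ 7))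
    (hth : ∀ u ∈ Ioc Z N, 4 ≤ th u) :
    ∃ r : Fin 32 → Idx s g → ℕ, (∀ l i, r l i ∈ Pool) ∧ ∀ u ∈ Ioc Z N, (∀ l, Good u (r l)) →
      ∃ l, (Coll u (r l) : ℝ) * th u ^ 6 < G ^ 2 := by
  classical
  set T := Fintype.piFinset (fun _ : Idx s g => Pool) with hT
  have hTne : T.Nonempty := by
    rw [hT]
    exact Fintype.piFinset_nonempty.mpr (fun _ => hPool)
  set U := Ioc Z N with hU
  have hupos : ∀ u ∈ U, 0 < u := fun u hu => by
    have := (mem_Ioc.mp hu).1
    omega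
  -- the nonnegative weight (total function)
  set φ : ℕ → (Idx s g → ℕ) → ℝ := fun u r =>
    (if Good u r then (Coll u r : ℝ) else 0) * (|th u| ^ 7 / (2 * G ^ 2)) with hφ
  have hφ0 : ∀ u r, 0 ≤ φ u r := by
    intro u r
    simp only [hφ]
    apply mul_nonneg
    · split_ifs <;> positivity
    · positivity
  have hφavg : ∀ u ∈ U, ∑ r ∈ T, φ u r ≤ (T.card : ℝ) := by
    intro u hu
    have h4 : 4 ≤ th u := hth u hu
    have habs : |th u| = th u := abs_of_pos (by linarith)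
    have hth0 : 0 < th u := by linarith
    simp only [hφ, habs]
    rw [← sum_mul]
    have h1 := havg u hu
    have h2 : 0 ≤ th u ^ 7 / (2 * G ^ 2) := by positivity
    calc _ ≤ (T.card : ℝ) * (2 * G ^ 2 / th u ^ 7) * (th u ^ 7 / (2 * G ^ 2)) :=
          mul_le_mul_of_nonneg_right h1 h2
      _ = (T.card : ℝ) := by
          field_simp
  set c : ℕ → ℝ := fun u => (2 / |th u|) ^ 32 with hc
  have hc0 : ∀ u ∈ U, 0 ≤ c u := fun u _ => by
    simp only [hc]
    positivity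
  obtain ⟨r, hrT, hle⟩ := seq_choice T hTne U φ hφavg hφ0 32 c hc0
  refine ⟨r, ?_, ?_⟩
  · intro l i
    have := hrT l
    rw [hT, Fintype.mem_piFinset] at this
    exact this i
  · intro u hu hgood
    by_contra hno
    push Not at hno
    have h4 : 4 ≤ th u := hth u hu
    have habs : |th u| = th u := abs_of_pos (by linarith)
    have hth0 : 0 < th u := by linarith
    -- lower bound on the term
    have hlow : ∀ l, th u / 2 ≤ φ u (r l) := by
      intro l
      simp only [hφ, habs, if_pos (hgood l)]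
      have h1 := hno l
      rw [div_le_iff₀ (by norm_num : (0 : ℝ) < 2)]
      have h2 : (Coll u (r l) : ℝ) * (th u ^ 7 / (2 * G ^ 2)) * 2 =
          ((Coll u (r l) : ℝ) * th u ^ 6) * th u / G ^ 2 := by
        field_simp
      rw [h2, le_div_iff₀ (by positivity)]
      exact mul_comm (th u) (G ^ 2) ▸ mul_le_mul_of_nonneg_right h1 hth0.le
    have hprod : (th u / 2) ^ 32 ≤ ∏ l : Fin 32, φ u (r l) := by
      calc (th u / 2) ^ 32 = ∏ _l : Fin 32, (th u / 2) := by
            rw [prod_const, card_univ, Fintype.card_fin]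
        _ ≤ ∏ l : Fin 32, φ u (r l) :=
            prod_le_prod (fun _ _ => by positivity) (fun l _ => hlow l)
    have hone : 1 ≤ c u * ∏ l : Fin 32, φ u (r l) := by
      have hcu : c u = (2 / th u) ^ 32 := by simp only [hc, habs]
      rw [hcu]
      calc (1 : ℝ) = (2 / th u) ^ 32 * (th u / 2) ^ 32 := by
            rw [← mul_pow]
            have : 2 / th u * (th u / 2) = 1 := by field_simp
            rw [this, one_pow]
        _ ≤ _ := mul_le_mul_of_nonneg_left hprod (by positivity)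
    have hnn : ∀ w ∈ U, 0 ≤ c w * ∏ l : Fin 32, φ w (r l) := fun w hw =>
      mul_nonneg (hc0 w hw) (prod_nonneg (fun l _ => hφ0 w _))
    have hsingle : c u * ∏ l : Fin 32, φ u (r l) ≤ ∑ w ∈ U, c w * ∏ l : Fin 32, φ w (r l) :=
      single_le_sum hnn hu
    -- upper bound on the sum of the weights
    have hcle : ∀ w ∈ U, c w ≤ 1 / (w : ℝ) ^ 2 := by
      intro w hw
      have h4w : 4 ≤ th w := hth w hw
      have habsw : |th w| = th w := abs_of_pos (by linarith)
      have hthw : 0 < th w := by linarith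
      have hwpos : (0 : ℝ) < w := by exact_mod_cast hupos w hw
      simp only [hc, habsw]
      rw [le_div_iff₀ (by positivity)]
      have hw8 : (w : ℝ) = th w ^ 8 := (th_pow w).symm
      have h5 : (2 / th w) ^ 32 * (w : ℝ) ^ 2 = (4 / th w) ^ 16 := by
        rw [hw8]
        field_simp
        norm_num
      rw [h5]
      apply pow_le_one₀ (by positivity)
      rw [div_le_one hthw]
      exact h4w
    have hsumc : ∑ w ∈ U, c w ≤ 1 / (Z : ℝ) :=
      (sum_le_sum hcle).trans (sum_inv_sq_lt Z N hZ)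
    have hZR : (2 : ℝ) ≤ Z := by exact_mod_cast hZ
    have h1Z : 1 / (Z : ℝ) < 1 := by
      rw [div_lt_one (by linarith)]
      linarith
    linarith

end

end Vale.Agent.helper7.Eg
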