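import Vale.Agent.helper7.Eg.Params

open Finset

namespace Vale.Agent.helper7.Eg

open Vale.Agent.Egypt

/-- The number of digits at level `i`. -/
def cntL (q i : ℕ) : ℕ := 2 ^ (2 ^ q - i - 1) / (capL q i - 2) + 1

/-- The slots of level `i`. -/
def levSlots (q i : ℕ) : List (ℕ × ℕ) := List.replicate (cntL q i) (capL q i - 3, widL q i)

/-- The slots of the levels below `m`. -/
def slotsUpTo (q : ℕ) : ℕ → List (ℕ × ℕ)
  | 0 => []
  | m + 1 => slotsUpTo q m ++ levSlots q m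

/-- The total size of a list of slots. -/
def sumF (l : List (ℕ × ℕ)) : ℕ := (l.map (fun x => x.1 + 1)).sum

lemma sumF_append (l₁ l₂ : List (ℕ × ℕ)) : sumF (l₁ ++ l₂) = sumF l₁ + sumF l₂ := by
  simp [sumF]

lemma sumF_replicate (n : ℕ) (x : ℕ × ℕ) : sumF (List.replicate n x) = n * (x.1 + 1) := by
  simp [sumF, List.map_replicate, List.sum_replicate]

lemma WidthOK_mono {W W' : ℕ} (h : W ≤ W') : ∀ l : List (ℕ × ℕ), WidthOK W l → WidthOK W' l
  | [], _ => trivial
  | _ :: rest, hl => ⟨hl.1.trans (Nat.add_le_add_right h _), WidthOK_mono h rest hl.2⟩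

lemma WidthOK_append (W : ℕ) (l₂ : List (ℕ × ℕ)) (h2 : WidthOK W l₂) :
    ∀ l₁ : List (ℕ × ℕ), WidthOK (W + sumF l₂) l₁ → WidthOK W (l₁ ++ l₂)
  | [], _ => h2
  | s :: rest, h1 => by
    refine ⟨?_, WidthOK_append W l₂ h2 rest h1.2⟩
    have h3 := h1.1
    have h4 := sumF_append rest l₂
    unfold sumF at h4
    unfold sumF at h3
    show s.2 ≤ W + (List.map (fun x => x.1 + 1) (rest ++ l₂)).sum
    rw [h4]
    omega

lemma WidthOK_replicate (W w F n : ℕ) (h : w ≤ W) : WidthOK W (List.replicate n (F, w)) := by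
  induction n with
  | zero => trivial
  | succ n ih =>
    rw [List.replicate_succ]
    exact ⟨by simpa using Nat.le_add_right_of_le h, ih⟩

lemma mem_slotsUpTo (q : ℕ) : ∀ (m : ℕ) (s : ℕ × ℕ), s ∈ slotsUpTo q m →
    ∃ i < m, s = (capL q i - 3, widL q i)
  | 0, s, hs => by simp [slotsUpTo] at hs
  | m + 1, s, hs => by
    simp only [slotsUpTo, List.mem_append] at hs
    rcases hs with h | h
    · obtain ⟨i, hi, h2⟩ := mem_slotsUpTo q m s h
      exact ⟨i, by omega, h2⟩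
    · unfold levSlots at h
      exact ⟨m, by omega, List.eq_of_mem_replicate h⟩

lemma length_slotsUpTo (q m : ℕ) : (slotsUpTo q m).length = ∑ i ∈ range m, cntL q i := by
  induction m with
  | zero => simp [slotsUpTo]
  | succ m ih =>
    simp [slotsUpTo, levSlots, sum_range_succ, ih]

/-- The cap is large at each level. -/
lemma cap_large (q i : ℕ) (hq : 8 ≤ q) (hi : i < nLev q) :
    ∃ e, 2 ^ q = i + e + q + 15 ∧ 8 * q + 86 ≤ e ∧ sLev q i = 2 ^ e ∧
      capL q i + 1 = gam q i * 2 ^ e ∧ 2 ^ e ≤ capL q i + 1 := by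
  obtain ⟨e, hI, he⟩ := lev_param q i hq hi
  have hs : sLev q i = 2 ^ e := by
    unfold sLev
    congr 1
    omega
  have hcap : capL q i + 1 = gam q i * 2 ^ e := by
    unfold capL
    rw [hs]
    have : 0 < gam q i * 2 ^ e := Nat.mul_pos (gam_pos q i) (by positivity)
    omega
  refine ⟨e, hI, he, hs, hcap, ?_⟩
  rw [hcap]
  exact Nat.le_mul_of_pos_left _ (gam_pos q i)

lemma sumF_lev (q i : ℕ) (hq : 8 ≤ q) (hi : i < nLev q) :
    2 ^ (2 ^ q - i - 1) ≤ sumF (levSlots q i) := by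
  obtain ⟨e, _, he, _, _, hle⟩ := cap_large q i hq hi
  have h8 : 8 ≤ 2 ^ e := by
    calc 8 = 2 ^ 3 := by norm_num
      _ ≤ 2 ^ e := Nat.pow_le_pow_right (by norm_num) (by omega)
  unfold levSlots
  rw [sumF_replicate]
  simp only
  have h1 : capL q i - 3 + 1 = capL q i - 2 := by omega
  rw [h1]
  unfold cntL
  have h2 : 0 < capL q i - 2 := by omega
  have h3 := (Nat.lt_div_mul_add (a := 2 ^ (2 ^ q - i - 1)) h2).le
  rw [add_mul, one_mul]
  exact h3

lemma wid_le_half (q i : ℕ) (hq : 8 ≤ q) (hi : i < nLev q) :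
    widL q i ≤ 2 ^ (2 ^ q - (i + 1)) := by
  obtain ⟨e, hI, _⟩ := lev_param q i hq hi
  unfold widL
  apply Nat.pow_le_pow_right (by norm_num)
  omega

/-- The width condition. -/
lemma width_slots (q : ℕ) (hq : 8 ≤ q) (m : ℕ) (hm : m ≤ nLev q) :
    WidthOK (2 ^ (2 ^ q - m)) (slotsUpTo q m) := by
  induction m with
  | zero => trivial
  | succ m ih =>
    have hi : m < nLev q := by omega
    have ih' := ih (by omega)
    obtain ⟨e, hI, _⟩ := lev_param q m hq hi
    simp only [slotsUpTo]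
    apply WidthOK_append
    · exact WidthOK_replicate _ _ _ _ (wid_le_half q m hq hi)
    · refine WidthOK_mono ?_ _ ih'
      have h1 := sumF_lev q m hq hi
      have h2 : 2 ^ q - m = (2 ^ q - (m + 1)) + 1 := by omega
      have h3 : 2 ^ q - m - 1 = 2 ^ q - (m + 1) := by omega
      rw [h3] at h1
      rw [h2, pow_succ]
      omega

/-- The sum of the sizes. -/
lemma sum_slots (q : ℕ) (hq : 8 ≤ q) (m : ℕ) (hm : m ≤ nLev q) :
    2 ^ (2 ^ q) ≤ sumF (slotsUpTo q m) + 2 ^ (2 ^ q - m) := by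
  induction m with
  | zero => simp [slotsUpTo, sumF]
  | succ m ih =>
    have hi : m < nLev q := by omega
    have ih' := ih (by omega)
    obtain ⟨e, hI, _⟩ := lev_param q m hq hi
    simp only [slotsUpTo]
    rw [sumF_append]
    have h1 := sumF_lev q m hq hi
    have h2 : 2 ^ q - m = (2 ^ q - (m + 1)) + 1 := by omega
    have h3 : 2 ^ q - m - 1 = 2 ^ q - (m + 1) := by omega
    rw [h3] at h1
    rw [h2, pow_succ] at ih'
    omega

/-- The harmonic sum along a dyadic range. -/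
lemma harm_pow (A q : ℕ) : ∑ i ∈ range (2 ^ q), A / (i + 1) ≤ A * (q + 1) := by
  induction q with
  | zero => simp
  | succ q ih =>
    have h1 : 2 ^ (q + 1) = 2 ^ q + 2 ^ q := by ring
    rw [h1, sum_range_add]
    have h2 : ∑ i ∈ range (2 ^ q), A / (2 ^ q + i + 1) ≤ A := by
      have h3 : ∀ i ∈ range (2 ^ q), A / (2 ^ q + i + 1) ≤ A / 2 ^ q := fun i _ =>
        Nat.div_le_div_left (by omega) (by positivity)
      calc ∑ i ∈ range (2 ^ q), A / (2 ^ q + i + 1) ≤ ∑ _i ∈ range (2 ^ q), A / 2 ^ q :=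
            sum_le_sum h3
        _ = 2 ^ q * (A / 2 ^ q) := by simp
        _ ≤ A := Nat.mul_div_le _ _
    calc _ ≤ A * (q + 1) + A := Nat.add_le_add ih h2
      _ = A * (q + 1 + 1) := by ring

/-- The sum over the levels of the inverse of `gam`. -/
lemma gam_sum (A q n : ℕ) (hn : n ≤ 2 ^ q) :
    ∑ i ∈ range n, A / gam q i ≤ A * (2 * q + 3) := by
  have h1 : ∑ i ∈ range n, A / gam q i ≤ ∑ i ∈ range (q + 2 + 2 ^ q), A / gam q i := by
    apply sum_le_sum_of_subset
    intro x hx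
    rw [mem_range] at hx ⊢
    omega
  refine h1.trans ?_
  rw [sum_range_add]
  have h2 : ∑ i ∈ range (q + 2), A / gam q i ≤ (q + 2) * A := by
    calc ∑ i ∈ range (q + 2), A / gam q i ≤ ∑ _i ∈ range (q + 2), A :=
          sum_le_sum (fun i _ => Nat.div_le_self _ _)
      _ = (q + 2) * A := by simp
  have h3 : ∑ j ∈ range (2 ^ q), A / gam q (q + 2 + j) ≤ A * (q + 1) := by
    refine le_trans (sum_le_sum (fun j _ => ?_)) (harm_pow A q)
    apply Nat.div_le_div_left _ (by omega)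
    unfold gam
    apply le_max_of_le_right
    omega
  calc _ ≤ (q + 2) * A + A * (q + 1) := Nat.add_le_add h2 h3
    _ = A * (2 * q + 3) := by ring

lemma cnt_le (q i : ℕ) (hq : 8 ≤ q) (hi : i < nLev q) :
    cntL q i ≤ 2 ^ (q + 15) / gam q i + 1 := by
  obtain ⟨e, hI, he, _, hcap, hle⟩ := cap_large q i hq hi
  have h8 : 8 ≤ 2 ^ e := by
    calc 8 = 2 ^ 3 := by norm_num
      _ ≤ 2 ^ e := Nat.pow_le_pow_right (by norm_num) (by omega)
  unfold cntL
  apply Nat.add_le_add_right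
  rw [Nat.le_div_iff_mul_le (gam_pos q i)]
  set X := capL q i - 2 with hX
  set x := 2 ^ (2 ^ q - i - 1) / X with hx
  have h1 : x * X ≤ 2 ^ (2 ^ q - i - 1) := Nat.div_mul_le_self _ _
  have h2 : 2 ^ q - i - 1 = (q + 14) + e := by omega
  rw [h2, pow_add] at h1
  -- `2 X ≥ gam * 2^e`
  have h3 : gam q i * 2 ^ e ≤ 2 * X := by
    rw [← hcap]
    omega
  have h4 : (x * gam q i) * 2 ^ e ≤ 2 ^ (q + 15) * 2 ^ e := by
    calc (x * gam q i) * 2 ^ e = x * (gam q i * 2 ^ e) := by ring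
      _ ≤ x * (2 * X) := Nat.mul_le_mul_left _ h3
      _ = 2 * (x * X) := by ring
      _ ≤ 2 * (2 ^ (q + 14) * 2 ^ e) := Nat.mul_le_mul_left _ h1
      _ = 2 ^ (q + 15) * 2 ^ e := by ring
  exact Nat.le_of_mul_le_mul_right h4 (by positivity)

/-- Bound on the number of slots. -/
lemma length_le (q : ℕ) (hq : 8 ≤ q) :
    (slotsUpTo q (nLev q)).length ≤ 2 ^ (q + 16) * (q + 2) := by
  rw [length_slotsUpTo]
  have h1 : ∑ i ∈ range (nLev q), cntL q i ≤ ∑ i ∈ range (nLev q), (2 ^ (q + 15) / gam q i + 1) :=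
    sum_le_sum (fun i hi => cnt_le q i hq (mem_range.mp hi))
  refine h1.trans ?_
  rw [sum_add_distrib]
  have hn : nLev q ≤ 2 ^ q := Nat.sub_le _ _
  have h2 := gam_sum (2 ^ (q + 15)) q (nLev q) hn
  have h3 : ∑ _i ∈ range (nLev q), 1 = nLev q := by simp
  rw [h3]
  have h4 : 2 ^ q ≤ 2 ^ (q + 15) := Nat.pow_le_pow_right (by norm_num) (by omega)
  calc _ ≤ 2 ^ (q + 15) * (2 * q + 3) + 2 ^ (q + 15) := Nat.add_le_add h2 (hn.trans h4)
    _ = 2 ^ (q + 16) * (q + 2) := by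
        rw [pow_succ]
        ring

end Vale.Agent.helper7.Eg
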